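/-
Row 210 (S0432), layer MO (monotonicity), STEP 2 (bounded densities from Lipschitz densities), file 1: utilities.
Sub-architect and author of the block: helper259.   Paper proof: `git show origin/helper928:docs/R210_partZ.md`, MO, STEP 2.
-/
import Claimed.Agent.R210.GC.Ifc
import Claimed.Agent.R210.OT.Ifc
import Claimed.Agent.R210.FO.Ifc
import Claimed.Agent.R210.CD.Ent.Dens

set_option autoImplicit false
set_option linter.unusedSectionVars false

open Claims.C0366 Claims.C0366.WeakHessian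
open Set Filter MeasureTheory
open scoped ENNReal NNReal Topology

namespace Claimed.Agent.R210.MO.ApproxBase

open Claimed.Agent.R210.Defs Claimed.Agent.R210.OT.Ifc

noncomputable section

variable {X : Type*} [MetricSpace X] [MeasurableSpace X] [BorelSpace X]
  [CompleteSpace X] [TopologicalSpace.SeparableSpace X]
variable {m μ ν : Measure X}

/-! ### measures with a real density -/

theorem mo_ap_integral_dens {r : X → ℝ} (hr : Measurable r) (h0 : ∀ x, 0 ≤ r x) (g : X → ℝ) :
    ∫ x, g x ∂(dens m r) = ∫ x, r x * g x ∂m := by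
  unfold dens
  rw [integral_withDensity_eq_integral_toReal_smul hr.ennreal_ofReal
    (Eventually.of_forall fun x => ENNReal.ofReal_lt_top)]
  refine integral_congr_ae (Eventually.of_forall fun x => ?_)
  simp [ENNReal.toReal_ofReal (h0 x)]

theorem mo_ap_dens_prob {r : X → ℝ} (h0 : ∀ x, 0 ≤ r x) (hint : Integrable r m)
    (h1 : ∫ x, r x ∂m = 1) : IsProbabilityMeasure (dens m r) := by
  constructor
  unfold dens
  rw [withDensity_apply _ MeasurableSet.univ, Measure.restrict_univ,
    ← ofReal_integral_eq_lintegral_ofReal hint (Eventually.of_forall h0), h1, ENNReal.ofReal_one]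

theorem mo_ap_dens_conc {r : X → ℝ} {S : Set X} (hS : MeasurableSet S)
    (hz : ∀ x, x ∉ S → r x = 0) : dens m r Sᶜ = 0 := by
  unfold dens
  rw [withDensity_apply _ hS.compl]
  rw [setLIntegral_congr_fun hS.compl (g := fun _ => 0) (fun x hx => by simp [hz x hx])]
  simp

/-! ### Kantorovich pairs -/

theorem mo_ap_kpair_swap {a b : X → ℝ} (h : KPair μ ν a b) : KPair ν μ b a := by
  obtain ⟨q, hq, hae⟩ := h.eq
  refine ⟨h.lip_b, h.lip_a, h.bdd_b, h.bdd_a, fun x y => ?_, q.map Prod.swap, ot_optimal_swap hq, ?_⟩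
  · have := h.le y x
    rw [dist_comm]
    linarith
  · have hmeas : MeasurableSet {p : X × X | b p.1 + a p.2 = dist p.1 p.2 ^ 2 / 2} := by
      obtain ⟨La, hLa⟩ := h.lip_a
      obtain ⟨Lb, hLb⟩ := h.lip_b
      have c1 : Continuous fun p : X × X => b p.1 + a p.2 :=
        (hLb.continuous.comp continuous_fst).add (hLa.continuous.comp continuous_snd)
      have c2 : Continuous fun p : X × X => dist p.1 p.2 ^ 2 / 2 := by fun_prop
      exact (isClosed_eq c1 c2).measurableSet
    rw [ae_map_iff measurable_swap.aemeasurable hmeas]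
    filter_upwards [hae] with p hp
    simp only [Prod.fst_swap, Prod.snd_swap]
    rw [dist_comm]
    linarith

/-! ### the cut-off function -/

/-- `1` on `closedBall y ρ`, `0` outside `closedBall y (ρ+τ)`, values in `[0,1]`, `1/τ`-Lipschitz. -/
def mo_ap_cut (y : X) (ρ τ : ℝ) (x : X) : ℝ := max 0 (min 1 (1 - (dist x y - ρ) / τ))

theorem mo_ap_cut_nonneg (y : X) (ρ τ : ℝ) (x : X) : 0 ≤ mo_ap_cut y ρ τ x := le_max_left _ _

theorem mo_ap_cut_le_one (y : X) (ρ τ : ℝ) (x : X) : mo_ap_cut y ρ τ x ≤ 1 :=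
  max_le zero_le_one (min_le_left _ _)

theorem mo_ap_cut_eq_one {y : X} {ρ τ : ℝ} (hτ : 0 < τ) {x : X} (hx : x ∈ Metric.closedBall y ρ) :
    mo_ap_cut y ρ τ x = 1 := by
  rw [Metric.mem_closedBall] at hx
  have h1 : (dist x y - ρ) / τ ≤ 0 := div_nonpos_of_nonpos_of_nonneg (by linarith) hτ.le
  unfold mo_ap_cut
  rw [min_eq_left (by linarith), max_eq_right zero_le_one]

theorem mo_ap_cut_eq_zero {y : X} {ρ τ : ℝ} (hτ : 0 < τ) {x : X}
    (hx : x ∉ Metric.closedBall y (ρ + τ)) : mo_ap_cut y ρ τ x = 0 := by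
  rw [Metric.mem_closedBall, not_le] at hx
  have h1 : 1 ≤ (dist x y - ρ) / τ := by
    rw [le_div_iff₀ hτ]
    linarith
  unfold mo_ap_cut
  exact max_eq_left ((min_le_right _ _).trans (by linarith))

theorem mo_ap_cut_lip (y : X) (ρ : ℝ) {τ : ℝ} (hτ : 0 < τ) :
    LipschitzWith (Real.toNNReal (1 / τ)) (mo_ap_cut y ρ τ) := by
  have h1 : LipschitzWith (Real.toNNReal (1 / τ)) (fun x : X => 1 - (dist x y - ρ) / τ) := by
    refine LipschitzWith.of_dist_le_mul fun x z => ?_
    rw [Real.coe_toNNReal _ (by positivity), Real.dist_eq]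
    have e : (1 - (dist x y - ρ) / τ) - (1 - (dist z y - ρ) / τ) = (dist z y - dist x y) / τ := by
      field_simp
      ring
    rw [e, abs_div, abs_of_pos hτ, div_eq_mul_inv, mul_comm, one_div]
    refine mul_le_mul_of_nonneg_left ?_ (by positivity)
    rw [dist_comm x z]
    exact abs_dist_sub_le z x y
  exact (h1.const_min 1).const_max 0

theorem mo_ap_cut_continuous (y : X) (ρ : ℝ) {τ : ℝ} (hτ : 0 < τ) : Continuous (mo_ap_cut y ρ τ) :=
  (mo_ap_cut_lip y ρ hτ).continuous

end

end Claimed.Agent.R210.MO.ApproxBase
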