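/-
Row 210 (S0432), layer MO (monotonicity), STEP 2, file 2: a bounded density with bounded support is the `L¹` limit of
normalised nonnegative `LipC` densities supported in a slightly larger ball; weak convergence of the measures.
Sub-architect and author of the block: helper259.
-/
import Claimed.Agent.R210.MO.ApproxBase

set_option autoImplicit false
set_option linter.unusedSectionVars false

open Claims.C0366 Claims.C0366.WeakHessian
open Set Filter MeasureTheory
open scoped ENNReal NNReal Topology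

namespace Claimed.Agent.R210.MO.ApproxSeq

open Claimed.Agent.R210.Defs Claimed.Agent.R210.OT.Defs Claimed.Agent.R210.OT.Ifc
open Claimed.Agent.R210.GC.Defs Claimed.Agent.R210.GC.WG Claimed.Agent.R210.FO.Ifc
open Claimed.Agent.R210.CD.Ent.Base Claimed.Agent.R210.CD.Ent.Dens
open Claimed.Agent.R210.MO.ApproxBase

variable {X : Type*} [MetricSpace X] [MeasurableSpace X] [BorelSpace X]
  [CompleteSpace X] [TopologicalSpace.SeparableSpace X] [ProperSpace X]
variable {m μ : Measure X} {M : ℝ≥0} {y : X} {ρ τ η : ℝ}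

theorem mo_ap_rho_nonneg (x : X) : 0 ≤ rho m μ x := ENNReal.toReal_nonneg

theorem mo_ap_rho_measurable : Measurable (rho m μ) :=
  (Measure.measurable_rnDeriv μ m).ennreal_toReal

theorem mo_ap_rho_integrable (h : BddDens m μ M y ρ) : Integrable (rho m μ) m := by
  have := h.prob
  exact Measure.integrable_toReal_rnDeriv

theorem mo_ap_rho_integral (hfin : FiniteOnBoundedSets m) (h : BddDens m μ M y ρ) :
    ∫ x, rho m μ x ∂m = 1 := by
  have := cd_ent_sigmaFinite hfin
  have := h.prob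
  have := Measure.integral_toReal_rnDeriv (cd_ent_ac h)
  simpa [rho] using this

/-- integrals with respect to `μ` as integrals with respect to `m`. -/
theorem mo_ap_integral_rho (hfin : FiniteOnBoundedSets m) (h : BddDens m μ M y ρ) (g : X → ℝ) :
    ∫ x, g x ∂μ = ∫ x, rho m μ x * g x ∂m := by
  have := cd_ent_sigmaFinite hfin
  have := h.prob
  exact (integral_toReal_rnDeriv_mul (cd_ent_ac h)).symm

theorem mo_ap_lipC_integrable (hfin : FiniteOnBoundedSets m) {r : X → ℝ} (hr : LipC r) :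
    Integrable r m := by
  have : IsFiniteMeasureOnCompacts m := ⟨fun K hK => hfin K hK.isBounded⟩
  obtain ⟨⟨L, hL⟩, hc⟩ := hr
  exact hL.continuous.integrable_of_hasCompactSupport hc

theorem mo_ap_lipC_measurable {r : X → ℝ} (hr : LipC r) : Measurable r := by
  obtain ⟨⟨L, hL⟩, -⟩ := hr
  exact hL.continuous.measurable

/-- one approximation. -/
theorem mo_ap_exists_one (hfin : FiniteOnBoundedSets m) (h : BddDens m μ M y ρ) (hτ : 0 < τ)
    (hη : 0 < η) :
    ∃ r : X → ℝ, LipC r ∧ (∀ x, 0 ≤ r x) ∧ ∫ x, r x ∂m = 1 ∧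
      (∀ x, x ∉ Metric.closedBall y (ρ + τ) → r x = 0) ∧ ∫ x, |r x - rho m μ x| ∂m ≤ η := by
  have := cd_ent_sigmaFinite hfin
  have := h.prob
  set f : X → ℝ := rho m μ with hf
  have hfint : Integrable f m := mo_ap_rho_integrable h
  have hf1 : ∫ x, f x ∂m = 1 := mo_ap_rho_integral hfin h
  have hf0 : ∀ x, 0 ≤ f x := mo_ap_rho_nonneg
  set η' : ℝ := min η 1 / 4 with hη'
  have hη'0 : 0 < η' := by
    have : 0 < min η 1 := lt_min hη one_pos
    positivity
  have hη'1 : η' ≤ 1 / 4 := by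
    have : min η 1 ≤ 1 := min_le_right _ _
    rw [hη']; linarith
  have hη'2 : 2 * η' ≤ η := by
    have : min η 1 ≤ η := min_le_left _ _
    rw [hη']; linarith
  obtain ⟨L, ψ, hψ, hψe⟩ := fo_lip_dense (o := y) (R := ρ + τ) hfin hfint.integrableOn hη'0
  set B : Set X := Metric.closedBall y (ρ + τ) with hB
  have hBm : MeasurableSet B := Metric.isClosed_closedBall.measurableSet
  set g : X → ℝ := fun x => mo_ap_cut y ρ τ x * max (ψ x) 0 with hg
  have hg0 : ∀ x, 0 ≤ g x := fun x => mul_nonneg (mo_ap_cut_nonneg _ _ _ _) (le_max_right _ _)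
  have hgz : ∀ x, x ∉ B → g x = 0 := fun x hx => by
    simp only [hg, mo_ap_cut_eq_zero hτ hx, zero_mul]
  have hgloc : gc_LipLoc g :=
    gc_lipLoc_mul (gc_lipLoc_of_lip ⟨_, mo_ap_cut_lip y ρ hτ⟩) (gc_lipLoc_of_lip ⟨L, hψ.max_const 0⟩)
  have hbs : ∀ c : ℝ, gc_BddSupp (fun x => c * g x) := fun c =>
    ⟨y, ρ + τ + 1, fun x hx => by
      have : x ∉ B := fun hxB => hx (by
        rw [hB, Metric.mem_closedBall] at hxB
        rw [Metric.mem_ball]; linarith)
      simp only [hgz x this, mul_zero]⟩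
  have hgC : ∀ c : ℝ, LipC (fun x => c * g x) := fun c =>
    gc_lipC_of_lipLoc_bddSupp (gc_lipLoc_const_mul c hgloc) (hbs c)
  have hgint : Integrable g m := by
    have := mo_ap_lipC_integrable hfin (hgC 1)
    simpa using this
  -- pointwise comparison
  have hpt : ∀ᵐ x ∂m, |g x - f x| ≤ B.indicator (fun x => |f x - ψ x|) x := by
    filter_upwards [cd_ent_rho_zero h] with x hx
    by_cases hxB : x ∈ B
    · rw [Set.indicator_of_mem hxB]
      by_cases hxb : x ∈ Metric.closedBall y ρ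
      · simp only [hg, mo_ap_cut_eq_one hτ hxb, one_mul]
        have := hf0 x
        rcases le_total (ψ x) 0 with h1 | h1
        · rw [max_eq_right h1, abs_sub_comm, sub_zero, abs_of_nonneg this,
            abs_of_nonneg (by linarith)]
          linarith
        · rw [max_eq_left h1, abs_sub_comm]
      · have hfx : f x = 0 := hx hxb
        rw [hfx, sub_zero, zero_sub, abs_neg, abs_of_nonneg (hg0 x)]
        have c1 := mo_ap_cut_le_one y ρ τ x
        have c0 := mo_ap_cut_nonneg y ρ τ x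
        have m0 : 0 ≤ max (ψ x) 0 := le_max_right _ _
        have m1 : max (ψ x) 0 ≤ |ψ x| := max_le (le_abs_self _) (abs_nonneg _)
        calc g x = mo_ap_cut y ρ τ x * max (ψ x) 0 := rfl
          _ ≤ 1 * max (ψ x) 0 := mul_le_mul_of_nonneg_right c1 m0
          _ ≤ |ψ x| := by rw [one_mul]; exact m1
    · rw [Set.indicator_of_notMem hxB, hgz x hxB]
      have hxb : x ∉ Metric.closedBall y ρ := fun hh => hxB (by
        rw [Metric.mem_closedBall] at hh
        rw [hB, Metric.mem_closedBall]; linarith)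
      have hfx : f x = 0 := hx hxb
      rw [hfx]; simp
  have hdint : Integrable (fun x => |g x - f x|) m := (hgint.sub hfint).abs
  have hindint : Integrable (B.indicator (fun x => |f x - ψ x|)) m := by
    rw [integrable_indicator_iff hBm]
    have : IsFiniteMeasureOnCompacts m := ⟨fun K hK => hfin K hK.isBounded⟩
    exact (hfint.integrableOn.sub
      (hψ.continuous.continuousOn.integrableOn_compact (isCompact_closedBall y (ρ + τ)))).abs
  have hd : ∫ x, |g x - f x| ∂m ≤ η' := by
    calc ∫ x, |g x - f x| ∂m ≤ ∫ x, B.indicator (fun x => |f x - ψ x|) x ∂m :=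
          integral_mono_ae hdint hindint hpt
      _ = ∫ x in B, |f x - ψ x| ∂m := integral_indicator hBm
      _ ≤ η' := hψe
  set c : ℝ := ∫ x, g x ∂m with hc
  have hc1 : |c - 1| ≤ η' := by
    rw [hc, ← hf1, ← integral_sub hgint hfint]
    exact (abs_integral_le_integral_abs).trans hd
  have hcpos : 0 < c := by
    have := abs_le.1 hc1
    linarith [this.1]
  refine ⟨fun x => c⁻¹ * g x, hgC c⁻¹, fun x => mul_nonneg (inv_nonneg.2 hcpos.le) (hg0 x), ?_,
    fun x hx => by simp only [hgz x hx, mul_zero], ?_⟩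
  · rw [integral_const_mul, ← hc, inv_mul_cancel₀ hcpos.ne']
  · have hpt2 : ∀ x, |c⁻¹ * g x - f x| ≤ |c⁻¹ - 1| * g x + |g x - f x| := by
      intro x
      have e : c⁻¹ * g x - f x = (c⁻¹ - 1) * g x + (g x - f x) := by ring
      rw [e]
      refine (abs_add_le _ _).trans ?_
      rw [abs_mul, abs_of_nonneg (hg0 x)]
    have hint1 : Integrable (fun x => |c⁻¹ * g x - f x|) m := ((hgint.const_mul c⁻¹).sub hfint).abs
    have hint2 : Integrable (fun x => |c⁻¹ - 1| * g x + |g x - f x|) m :=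
      (hgint.const_mul _).add hdint
    calc ∫ x, |c⁻¹ * g x - f x| ∂m ≤ ∫ x, (|c⁻¹ - 1| * g x + |g x - f x|) ∂m :=
          integral_mono hint1 hint2 hpt2
      _ = |c⁻¹ - 1| * c + ∫ x, |g x - f x| ∂m := by
          rw [integral_add (hgint.const_mul _) hdint, integral_const_mul]
      _ = |c - 1| + ∫ x, |g x - f x| ∂m := by
          congr 1
          have e : c⁻¹ - 1 = (1 - c) / c := by field_simp
          rw [e, abs_div, abs_of_pos hcpos, div_mul_cancel₀ _ hcpos.ne', abs_sub_comm]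
      _ ≤ η' + η' := add_le_add hc1 hd
      _ ≤ η := by linarith

/-- the approximating sequence. -/
theorem mo_ap_exists_seq (hfin : FiniteOnBoundedSets m) (h : BddDens m μ M y ρ) (hτ : 0 < τ) :
    ∃ rs : ℕ → X → ℝ, (∀ n, LipC (rs n)) ∧ (∀ n x, 0 ≤ rs n x) ∧ (∀ n, ∫ x, rs n x ∂m = 1) ∧
      (∀ n x, x ∉ Metric.closedBall y (ρ + τ) → rs n x = 0) ∧
      Tendsto (fun n => ∫ x, |rs n x - rho m μ x| ∂m) atTop (𝓝 0) := by
  have hex : ∀ n : ℕ, ∃ r : X → ℝ, LipC r ∧ (∀ x, 0 ≤ r x) ∧ ∫ x, r x ∂m = 1 ∧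
      (∀ x, x ∉ Metric.closedBall y (ρ + τ) → r x = 0) ∧
      ∫ x, |r x - rho m μ x| ∂m ≤ 1 / ((n : ℝ) + 1) := fun n =>
    mo_ap_exists_one hfin h hτ (by positivity)
  choose rs h1 h2 h3 h4 h5 using hex
  refine ⟨rs, h1, h2, h3, h4, ?_⟩
  exact squeeze_zero (fun n => integral_nonneg fun x => abs_nonneg _) h5
    tendsto_one_div_add_atTop_nhds_zero_nat

/-- `L¹` convergence of the densities implies weak convergence of the measures. -/
theorem mo_ap_wconv (hfin : FiniteOnBoundedSets m) (h : BddDens m μ M y ρ) {rs : ℕ → X → ℝ}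
    (h1 : ∀ n, LipC (rs n)) (h2 : ∀ n x, 0 ≤ rs n x)
    (h5 : Tendsto (fun n => ∫ x, |rs n x - rho m μ x| ∂m) atTop (𝓝 0)) :
    ot_WConv (fun n => dens m (rs n)) μ := by
  refine ot_wconv_of_forall fun φ hφc hφb => ?_
  obtain ⟨Bφ, hBφ⟩ := hφb
  have hB0 : 0 ≤ Bφ := (abs_nonneg _).trans (hBφ y)
  rw [tendsto_iff_dist_tendsto_zero]
  have hlim : Tendsto (fun n => Bφ * ∫ x, |rs n x - rho m μ x| ∂m) atTop (𝓝 0) := by
    simpa using h5.const_mul Bφ
  refine squeeze_zero (fun n => dist_nonneg) (fun n => ?_) hlim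
  rw [mo_ap_integral_dens (mo_ap_lipC_measurable (h1 n)) (h2 n), mo_ap_integral_rho hfin h,
    Real.dist_eq]
  have hi1 : Integrable (rs n) m := mo_ap_lipC_integrable hfin (h1 n)
  have hi2 : Integrable (rho m μ) m := mo_ap_rho_integrable h
  have hφm : AEStronglyMeasurable φ m := hφc.aestronglyMeasurable
  have hφn : ∀ᵐ x ∂m, ‖φ x‖ ≤ Bφ := Eventually.of_forall fun x => by simpa using hBφ x
  have hj1 : Integrable (fun x => rs n x * φ x) m := hi1.mul_bdd hφm hφn
  have hj2 : Integrable (fun x => rho m μ x * φ x) m := hi2.mul_bdd hφm hφn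
  rw [← integral_sub hj1 hj2, ← integral_const_mul]
  refine (abs_integral_le_integral_abs).trans ?_
  refine integral_mono (hj1.sub hj2).abs ((hi1.sub hi2).abs.const_mul Bφ) fun x => ?_
  have e : rs n x * φ x - rho m μ x * φ x = (rs n x - rho m μ x) * φ x := by ring
  show |rs n x * φ x - rho m μ x * φ x| ≤ Bφ * |rs n x - rho m μ x|
  rw [e, abs_mul, mul_comm]
  exact mul_le_mul_of_nonneg_right (hBφ x) (abs_nonneg _)

end Claimed.Agent.R210.MO.ApproxSeq
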