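/-
Row 210 (S0432), layer MO (monotonicity), STEP 2, file 3: convergence of `∫ Γ(F,a_n) dμ_n` when the densities converge in `L¹`
and the (uniformly Lipschitz, uniformly bounded) potentials converge locally uniformly.
Sub-architect and author of the block: helper259.
-/
import Claimed.Agent.R210.MO.ApproxSeq

set_option autoImplicit false
set_option linter.unusedSectionVars false

open Claims.C0366 Claims.C0366.WeakHessian
open Set Filter MeasureTheory
open scoped ENNReal NNReal Topology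

namespace Claimed.Agent.R210.MO.ApproxLim

open Claimed.Agent.R210.Defs Claimed.Agent.R210.OT.Defs Claimed.Agent.R210.OT.Ifc
open Claimed.Agent.R210.GC.Defs Claimed.Agent.R210.GC.WG Claimed.Agent.R210.GC.Gam
open Claimed.Agent.R210.GC.Conv Claimed.Agent.R210.FO.Ifc
open Claimed.Agent.R210.CD.Ent.Base Claimed.Agent.R210.CD.Ent.Dens
open Claimed.Agent.R210.MO.ApproxBase Claimed.Agent.R210.MO.ApproxSeq

variable {X : Type*} [MetricSpace X] [MeasurableSpace X] [BorelSpace X]
  [CompleteSpace X] [TopologicalSpace.SeparableSpace X] [ProperSpace X]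
variable {m μ : Measure X} {K N : ℝ} {M : ℝ≥0} {y : X} {ρ : ℝ}

theorem mo_ap_ls_of_lip (hfin : FiniteOnBoundedSets m) {f : X → ℝ} {L : ℝ≥0}
    (hf : LipschitzWith L f) : LocalSobolev m f :=
  gc_ls_of_lipLoc hfin (gc_lipLoc_of_lip ⟨L, hf⟩)

/-- `|Γ(F,a)| ≤ L_F L` a.e. for Lipschitz functions. -/
theorem mo_ap_gamma_bdd (hS : Std m K N) {F a : X → ℝ} {LF L : ℝ≥0} (hF : LipschitzWith LF F)
    (ha : LipschitzWith L a) : ∀ᵐ x ∂m, ‖gamma m F a x‖ ≤ (LF : ℝ) * L := by
  have hfin := hS.finite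
  filter_upwards [gc_gamma_abs_le hS (mo_ap_ls_of_lip hfin hF) (mo_ap_ls_of_lip hfin ha),
    gc_wg_le_lip hfin hF, gc_wg_le_lip hfin ha, gc_wg_nonneg (m := m) F, gc_wg_nonneg (m := m) a]
    with x h1 h2 h3 h4 h5
  rw [Real.norm_eq_abs]
  exact h1.trans (mul_le_mul h2 h3 h5 LF.coe_nonneg)

/-- product of a cut-off with a bounded Lipschitz function. -/
theorem mo_ap_cut_mul_lip (y : X) (ρ : ℝ) {u : X → ℝ} {L : ℝ≥0} {B : ℝ} (hu : LipschitzWith L u)
    (hB : ∀ x, |u x| ≤ B) :
    LipschitzWith (L + Real.toNNReal B) (fun x => mo_ap_cut y ρ 1 x * u x) := by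
  have hB0 : 0 ≤ B := (abs_nonneg _).trans (hB y)
  refine LipschitzWith.of_dist_le_mul fun x z => ?_
  rw [Real.dist_eq, NNReal.coe_add, Real.coe_toNNReal _ hB0]
  have e : mo_ap_cut y ρ 1 x * u x - mo_ap_cut y ρ 1 z * u z
      = mo_ap_cut y ρ 1 x * (u x - u z) + (mo_ap_cut y ρ 1 x - mo_ap_cut y ρ 1 z) * u z := by ring
  rw [e]
  refine (abs_add_le _ _).trans ?_
  rw [abs_mul, abs_mul, add_mul]
  have c0 := mo_ap_cut_nonneg y ρ 1 x
  have c1 := mo_ap_cut_le_one y ρ 1 x
  have d1 : |u x - u z| ≤ L * dist x z := by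
    have := hu.dist_le_mul x z
    rwa [Real.dist_eq] at this
  have d2 : |mo_ap_cut y ρ 1 x - mo_ap_cut y ρ 1 z| ≤ dist x z := by
    have := (mo_ap_cut_lip y ρ one_pos).dist_le_mul x z
    rw [Real.dist_eq] at this
    simpa using this
  refine add_le_add ?_ ?_
  · rw [abs_of_nonneg c0]
    calc mo_ap_cut y ρ 1 x * |u x - u z| ≤ 1 * |u x - u z| :=
          mul_le_mul_of_nonneg_right c1 (abs_nonneg _)
      _ ≤ L * dist x z := by rw [one_mul]; exact d1
  · calc |mo_ap_cut y ρ 1 x - mo_ap_cut y ρ 1 z| * |u z| ≤ dist x z * B :=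
          mul_le_mul d2 (hB z) (abs_nonneg _) dist_nonneg
      _ = B * dist x z := mul_comm _ _

/-- **weak continuity**: `∫ ρ Γ(F,a_n) dm → ∫ ρ Γ(F,a) dm`. -/
theorem mo_ap_weak (hS : Std m K N) (h : BddDens m μ M y ρ) {F : X → ℝ} {LF : ℝ≥0}
    (hF : LipschitzWith LF F) {as : ℕ → X → ℝ} {a : X → ℝ} {L : ℝ≥0} {B : ℝ}
    (hLa : ∀ n, LipschitzWith L (as n)) (hL : LipschitzWith L a) (hBa : ∀ n x, |as n x| ≤ B)
    (hB : ∀ x, |a x| ≤ B) (hu : TendstoLocallyUniformly as a atTop) :
    Tendsto (fun n => ∫ x, rho m μ x * gamma m F (as n) x ∂m) atTop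
      (𝓝 (∫ x, rho m μ x * gamma m F a x ∂m)) := by
  have hfin := hS.finite
  have := cd_ent_sigmaFinite hfin
  have hFs : LocalSobolev m F := mo_ap_ls_of_lip hfin hF
  have has : ∀ n, LocalSobolev m (as n) := fun n => mo_ap_ls_of_lip hfin (hLa n)
  have ha : LocalSobolev m a := mo_ap_ls_of_lip hfin hL
  -- the localised differences
  set d : ℕ → X → ℝ := fun n x => mo_ap_cut y ρ 1 x * (as n x - a x) with hd
  have hdl : ∀ n, LipschitzWith (L + L) (fun x => as n x - a x) := fun n => (hLa n).sub hL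
  have hdb : ∀ n x, |as n x - a x| ≤ B + B := fun n x =>
    (abs_sub _ _).trans (add_le_add (hBa n x) (hB x))
  have hdL : ∀ n, LipschitzWith (L + L + Real.toNNReal (B + B)) (d n) := fun n =>
    mo_ap_cut_mul_lip y ρ (hdl n) (hdb n)
  have hds : ∀ n, LocalSobolev m (d n) := fun n => mo_ap_ls_of_lip hfin (hdL n)
  have hdsub : ∀ n, LocalSobolev m (fun x => as n x - a x) := fun n => mo_ap_ls_of_lip hfin (hdl n)
  have hsupp : ∀ n x, x ∉ Metric.ball y (ρ + 1 + 1) → d n x = 0 := by
    intro n x hx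
    have : x ∉ Metric.closedBall y (ρ + 1) := fun hh => hx (by
      rw [Metric.mem_closedBall] at hh
      rw [Metric.mem_ball]; linarith)
    simp only [hd, mo_ap_cut_eq_zero one_pos this, zero_mul]
  have hunif : ∀ ε > 0, ∀ᶠ n in atTop, ∀ x, |d n x| ≤ ε := by
    intro ε hε
    have hK : IsCompact (Metric.closedBall y (ρ + 1)) := isCompact_closedBall _ _
    have h1 : TendstoUniformlyOn as a atTop (Metric.closedBall y (ρ + 1)) :=
      (tendstoLocallyUniformlyOn_iff_tendstoUniformlyOn_of_compact hK).1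
        (hu.tendstoLocallyUniformlyOn)
    rw [Metric.tendstoUniformlyOn_iff] at h1
    filter_upwards [h1 ε hε] with n hn x
    by_cases hx : x ∈ Metric.closedBall y (ρ + 1)
    · have h2 := hn x hx
      rw [Real.dist_eq, abs_sub_comm] at h2
      simp only [hd]
      rw [abs_mul, abs_of_nonneg (mo_ap_cut_nonneg _ _ _ _)]
      calc mo_ap_cut y ρ 1 x * |as n x - a x| ≤ 1 * |as n x - a x| :=
            mul_le_mul_of_nonneg_right (mo_ap_cut_le_one _ _ _ _) (abs_nonneg _)
        _ ≤ ε := by rw [one_mul]; exact h2.le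
    · simp only [hd, mo_ap_cut_eq_zero one_pos hx, zero_mul, abs_zero]
      exact hε.le
  have hrb : gc_LocBdd m (rho m μ) := by
    refine gc_locBdd_of_aebdd (B := (M : ℝ)) ?_
    filter_upwards [cd_ent_rho_le h] with x hx
    rw [abs_of_nonneg (mo_ap_rho_nonneg x)]
    exact hx
  have hlim0 : Tendsto (fun n => ∫ x, rho m μ x * gamma m (d n) F x ∂m) atTop (𝓝 0) :=
    gc_weak_cont_unifLip hS (Eventually.of_forall hdL) (Eventually.of_forall hsupp) hunif hFs
      mo_ap_rho_measurable.aestronglyMeasurable hrb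
  -- identification of the integrands
  have hri : Integrable (rho m μ) m := mo_ap_rho_integrable h
  have hint : ∀ {b : X → ℝ}, LipschitzWith L b →
      Integrable (fun x => rho m μ x * gamma m F b x) m := fun {b} hb =>
    hri.mul_bdd (gc_gamma_aesm F b) (mo_ap_gamma_bdd hS hF hb)
  have hid : ∀ n, ∫ x, rho m μ x * gamma m (d n) F x ∂m
      = ∫ x, rho m μ x * gamma m F (as n) x ∂m - ∫ x, rho m μ x * gamma m F a x ∂m := by
    intro n
    rw [← integral_sub (hint (hLa n)) (hint hL)]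
    refine integral_congr_ae ?_
    filter_upwards [cd_ent_rho_zero h, gc_gamma_comm hfin (hds n) hFs,
      gc_gamma_eq_on_right hS hFs (hds n) (hdsub n), gc_gamma_sub_right hS hFs (has n) ha]
      with x h0 h1 h2 h3
    by_cases hx : x ∈ Metric.closedBall y ρ
    · have e : d n x = as n x - a x := by
        simp only [hd, mo_ap_cut_eq_one one_pos hx, one_mul]
      rw [h1, h2 e, h3]
      ring
    · rw [h0 hx]
      ring
  have hfinal : Tendsto (fun n => ∫ x, rho m μ x * gamma m (d n) F x ∂m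
      + ∫ x, rho m μ x * gamma m F a x ∂m) atTop (𝓝 (0 + ∫ x, rho m μ x * gamma m F a x ∂m)) :=
    hlim0.add tendsto_const_nhds
  rw [zero_add] at hfinal
  refine hfinal.congr fun n => ?_
  rw [hid n]
  ring

/-- **the limit of the left-hand sides.** -/
theorem mo_ap_gamma_lim (hS : Std m K N) (h : BddDens m μ M y ρ) {F : X → ℝ} {LF : ℝ≥0}
    (hF : LipschitzWith LF F) {as : ℕ → X → ℝ} {a : X → ℝ} {L : ℝ≥0} {B : ℝ}
    (hLa : ∀ n, LipschitzWith L (as n)) (hL : LipschitzWith L a) (hBa : ∀ n x, |as n x| ≤ B)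
    (hB : ∀ x, |a x| ≤ B) (hu : TendstoLocallyUniformly as a atTop) {rs : ℕ → X → ℝ}
    (h1 : ∀ n, LipC (rs n)) (h2 : ∀ n x, 0 ≤ rs n x)
    (h5 : Tendsto (fun n => ∫ x, |rs n x - rho m μ x| ∂m) atTop (𝓝 0)) :
    Tendsto (fun n => ∫ x, gamma m F (as n) x ∂(dens m (rs n))) atTop
      (𝓝 (∫ x, gamma m F a x ∂μ)) := by
  have hfin := hS.finite
  rw [mo_ap_integral_rho hfin h]
  have hw := mo_ap_weak hS h hF hLa hL hBa hB hu
  have hri : Integrable (rho m μ) m := mo_ap_rho_integrable h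
  -- the error term
  have herr : Tendsto (fun n => ∫ x, rs n x * gamma m F (as n) x ∂m
      - ∫ x, rho m μ x * gamma m F (as n) x ∂m) atTop (𝓝 0) := by
    have hlim : Tendsto (fun n => ((LF : ℝ) * L) * ∫ x, |rs n x - rho m μ x| ∂m) atTop (𝓝 0) := by
      simpa using h5.const_mul ((LF : ℝ) * L)
    refine squeeze_zero_norm (fun n => ?_) hlim
    have hi1 : Integrable (rs n) m := mo_ap_lipC_integrable hfin (h1 n)
    have hb := mo_ap_gamma_bdd hS hF (hLa n)
    have hj1 : Integrable (fun x => rs n x * gamma m F (as n) x) m :=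
      hi1.mul_bdd (gc_gamma_aesm F (as n)) hb
    have hj2 : Integrable (fun x => rho m μ x * gamma m F (as n) x) m :=
      hri.mul_bdd (gc_gamma_aesm F (as n)) hb
    rw [← integral_sub hj1 hj2, ← integral_const_mul, Real.norm_eq_abs]
    refine (abs_integral_le_integral_abs).trans ?_
    refine integral_mono_ae (hj1.sub hj2).abs ((hi1.sub hri).abs.const_mul _) ?_
    filter_upwards [hb] with x hx
    show |rs n x * gamma m F (as n) x - rho m μ x * gamma m F (as n) x|
      ≤ (LF : ℝ) * L * |rs n x - rho m μ x|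
    have e : rs n x * gamma m F (as n) x - rho m μ x * gamma m F (as n) x
        = (rs n x - rho m μ x) * gamma m F (as n) x := by ring
    rw [e, abs_mul, mul_comm]
    rw [Real.norm_eq_abs] at hx
    exact mul_le_mul_of_nonneg_right hx (abs_nonneg _)
  have hsum := herr.add hw
  rw [zero_add] at hsum
  refine hsum.congr fun n => ?_
  rw [mo_ap_integral_dens (mo_ap_lipC_measurable (h1 n)) (h2 n)]
  ring

end Claimed.Agent.R210.MO.ApproxLim
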