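/-
Row 210 (S0432), layer MO (monotonicity), STEP 2, file 4: (M') for bounded densities from (M') for `LipC` densities.
Sub-architect and author of the block: helper259.   Paper proof: `git show origin/helper928:docs/R210_partZ.md`, MO, STEP 2.
-/
import Claimed.Agent.R210.MO.ApproxLim

set_option autoImplicit false
set_option linter.unusedSectionVars false

open Claims.C0366 Claims.C0366.WeakHessian
open Set Filter MeasureTheory
open scoped ENNReal NNReal Topology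

namespace Claimed.Agent.R210.MO.Approx

open Claimed.Agent.R210.Defs Claimed.Agent.R210.OT.Defs Claimed.Agent.R210.OT.Ifc
open Claimed.Agent.R210.GC.Defs Claimed.Agent.R210.GC.WG Claimed.Agent.R210.FO.Ifc
open Claimed.Agent.R210.MO.ApproxBase Claimed.Agent.R210.MO.ApproxSeq Claimed.Agent.R210.MO.ApproxLim

variable {X : Type*} [MetricSpace X] [MeasurableSpace X] [BorelSpace X]
  [CompleteSpace X] [TopologicalSpace.SeparableSpace X] [ProperSpace X]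
variable {m μ₀ μ₁ : Measure X} {K N : ℝ} {M₀ M₁ : ℝ≥0} {y : X} {ρ τ κ : ℝ} {F G a b : X → ℝ}

/-- **STEP 1** of (M'): the monotonicity inequality for probability densities in `LipC`. -/
def mo_Step1 (m : Measure X) (F G : X → ℝ) : Prop :=
  ∀ (y : X) (ρ τ κ : ℝ) (r₀ r₁ a b : X → ℝ), 0 < ρ → 0 < τ →
    (∀ z ∈ Metric.ball y (2 * ρ + τ), G z ≤ κ) →
    LipC r₀ → LipC r₁ → (∀ x, 0 ≤ r₀ x) → (∀ x, 0 ≤ r₁ x) →
    ∫ x, r₀ x ∂m = 1 → ∫ x, r₁ x ∂m = 1 →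
    (∀ x, x ∉ Metric.closedBall y ρ → r₀ x = 0) → (∀ x, x ∉ Metric.closedBall y ρ → r₁ x = 0) →
    KPair (dens m r₀) (dens m r₁) a b →
    ∫ x, gamma m F a x ∂(dens m r₀) + ∫ x, gamma m F b x ∂(dens m r₁)
      ≤ κ * W2sqR (dens m r₀) (dens m r₁)

/-- **STEP 2**: (M') for bounded densities. -/
theorem mo_ap_main (hS : Std m K N) (hF : LipB F) (h1 : mo_Step1 m F G) (hρ : 0 < ρ) (hτ : 0 < τ)
    (hG : ∀ z ∈ Metric.ball y (2 * ρ + τ), G z ≤ κ) (h₀ : BddDens m μ₀ M₀ y ρ)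
    (h₁ : BddDens m μ₁ M₁ y ρ) (hK : KPair μ₀ μ₁ a b) :
    ∫ x, gamma m F a x ∂μ₀ + ∫ x, gamma m F b x ∂μ₁ ≤ κ * W2sqR μ₀ μ₁ := by
  have hfin := hS.finite
  obtain ⟨⟨LF, hLF⟩, -⟩ := hF
  have hp₀ := h₀.prob
  have hp₁ := h₁.prob
  have hτ4 : 0 < τ / 4 := by positivity
  obtain ⟨rs, r1, r2, r3, r4, r5⟩ := mo_ap_exists_seq hfin h₀ hτ4
  obtain ⟨ss, s1, s2, s3, s4, s5⟩ := mo_ap_exists_seq hfin h₁ hτ4
  set Kc : Set X := Metric.closedBall y (ρ + τ / 4) with hKc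
  have hKcomp : IsCompact Kc := isCompact_closedBall _ _
  have hKm : MeasurableSet Kc := Metric.isClosed_closedBall.measurableSet
  have hpr : ∀ n, IsProbabilityMeasure (dens m (rs n)) := fun n =>
    mo_ap_dens_prob (r2 n) (mo_ap_lipC_integrable hfin (r1 n)) (r3 n)
  have hps : ∀ n, IsProbabilityMeasure (dens m (ss n)) := fun n =>
    mo_ap_dens_prob (s2 n) (mo_ap_lipC_integrable hfin (s1 n)) (s3 n)
  have hcr : ∀ n, dens m (rs n) Kcᶜ = 0 := fun n => mo_ap_dens_conc hKm (r4 n)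
  have hcs : ∀ n, dens m (ss n) Kcᶜ = 0 := fun n => mo_ap_dens_conc hKm (s4 n)
  have hwr : ot_WConv (fun n => dens m (rs n)) μ₀ := mo_ap_wconv hfin h₀ r1 r2 r5
  have hws : ot_WConv (fun n => dens m (ss n)) μ₁ := mo_ap_wconv hfin h₁ s1 s2 s5
  -- Kantorovich pairs with uniform constants
  set D1 : ℝ := Metric.diam Kc with hD1
  set T : ℝ := D1 ^ 2 / 2 with hT
  have hT0 : 0 ≤ T := by positivity
  have hdiam : ∀ z ∈ Kc, ∀ z' ∈ Kc, dist z z' ≤ D1 := fun z hz z' hz' =>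
    Metric.dist_le_diam_of_mem hKcomp.isBounded hz hz'
  have hex : ∀ n, ∃ a b : X → ℝ, KPair (dens m (rs n)) (dens m (ss n)) a b ∧
      LipschitzWith (ot_lipConst T D1) a ∧ LipschitzWith (ot_lipConst T D1) b ∧
      (∀ x, |a x| ≤ T) ∧ (∀ x, |b x| ≤ T) := by
    intro n
    have := hpr n
    have := hps n
    obtain ⟨p, hp0, hp1, -, hp3, hp4⟩ :=
      ot_exists_kpair (dens m (rs n)) (dens m (ss n)) hKcomp hKcomp (hcr n) (hcs n)
    obtain ⟨hl1, hl2, hb⟩ := hp3 T D1 hT0 hdiam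
    refine ⟨fun x => min (p x) T, hopfLax 1 (fun x => - min (p x) T), hp4 T ?_, hl1, hl2, ?_, ?_⟩
    · intro x hx
      exact hp1 x D1 (fun z hz => hdiam x hx z hz)
    · intro x
      rw [abs_of_nonneg (le_min (hp0 x) hT0)]
      exact min_le_right _ _
    · intro z
      rw [abs_le]
      exact ⟨(hb z).1, le_trans (hb z).2 hT0⟩
  choose as bs hk hLa hLb hBa hBb using hex
  obtain ⟨φ, a', b', hφ, hK', hLa', hLb', hBa', hBb', hua, hub, hW⟩ :=
    ot_kpair_stable hpr hps hp₀ hp₁ hwr hws hKcomp hcr hcs hk hLa hLb hBa hBb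
  -- STEP 1 along the sequence
  have hstep : ∀ n, ∫ x, gamma m F (as (φ n)) x ∂(dens m (rs (φ n)))
      + ∫ x, gamma m F (bs (φ n)) x ∂(dens m (ss (φ n)))
      ≤ κ * W2sqR (dens m (rs (φ n))) (dens m (ss (φ n))) := by
    intro n
    refine h1 y (ρ + τ / 4) (τ / 2) κ _ _ _ _ (by positivity) (by positivity) ?_ (r1 _) (s1 _)
      (r2 _) (s2 _) (r3 _) (s3 _) (r4 _) (s4 _) (hk _)
    intro z hz
    refine hG z ?_
    have e : 2 * (ρ + τ / 4) + τ / 2 = 2 * ρ + τ := by ring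
    rwa [e] at hz
  -- the limits
  have hl0 : Tendsto (fun n => ∫ x, gamma m F (as (φ n)) x ∂(dens m (rs (φ n)))) atTop
      (𝓝 (∫ x, gamma m F a' x ∂μ₀)) :=
    mo_ap_gamma_lim hS h₀ hLF (fun n => hLa (φ n)) hLa' (fun n => hBa (φ n)) hBa' hua
      (fun n => r1 (φ n)) (fun n => r2 (φ n)) (r5.comp hφ.tendsto_atTop)
  have hl1 : Tendsto (fun n => ∫ x, gamma m F (bs (φ n)) x ∂(dens m (ss (φ n)))) atTop
      (𝓝 (∫ x, gamma m F b' x ∂μ₁)) :=
    mo_ap_gamma_lim hS h₁ hLF (fun n => hLb (φ n)) hLb' (fun n => hBb (φ n)) hBb' hub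
      (fun n => s1 (φ n)) (fun n => s2 (φ n)) (s5.comp hφ.tendsto_atTop)
  have hWfin : W2sq μ₀ μ₁ ≠ ∞ := ot_kpair_finite hK
  have hlW : Tendsto (fun n => κ * W2sqR (dens m (rs (φ n))) (dens m (ss (φ n)))) atTop
      (𝓝 (κ * W2sqR μ₀ μ₁)) :=
    ((ENNReal.tendsto_toReal hWfin).comp hW).const_mul κ
  have hlim : ∫ x, gamma m F a' x ∂μ₀ + ∫ x, gamma m F b' x ∂μ₁ ≤ κ * W2sqR μ₀ μ₁ :=
    le_of_tendsto_of_tendsto' (hl0.add hl1) hlW hstep
  -- independence of the pair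
  have hFs : LocalSobolev m F := mo_ap_ls_of_lip hfin hLF
  have g₀ : BddDens m μ₀ (max M₀ M₁) y ρ := fo_bdd_mono h₀ (le_max_left _ _) le_rfl
  have g₁ : BddDens m μ₁ (max M₀ M₁) y ρ := fo_bdd_mono h₁ (le_max_right _ _) le_rfl
  rw [fo_indep hS g₀ g₁ hK hK' hFs,
    fo_indep hS g₁ g₀ (mo_ap_kpair_swap hK) (mo_ap_kpair_swap hK') hFs]
  exact hlim

end Claimed.Agent.R210.MO.Approx
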