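/-
Row 210 (S0432), layer MO (monotonicity (M')), architect helper686.   DEFINITIONS of the layer.
Paper proof: `git show origin/helper928:docs/R210_partZ.md` (section MO) with the simplifications of
`git show origin/helper686:docs/R210_MO.md` (everything is done at EVERY time `s ∈ (0,1)`, no a.e. argument in time).

Notation of the comments:  `e = wt F ε = e^{F/ε}`,  `J = resW m F ε δ`,  `μ_s = mo_mu π s`,  `ρ_s = mo_rho m π s`,
`ρ~_s = mo_rt m F ε π s = ρ_s / e`,  `u_s = hopfLax s u₀`,  `Γ = gamma m`,  `W² = W2sqR μ₀ μ₁`.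
-/
import Claimed.Agent.R210.Defs2

set_option autoImplicit false

open Claims.C0366 Claims.C0366.WeakHessian
open Set Filter MeasureTheory
open scoped ENNReal NNReal Topology

namespace Claimed.Agent.R210.MO.Defs

open Claimed.Agent.R210.Defs Claimed.Agent.R210.Defs2

noncomputable section

variable {X : Type*} [MetricSpace X] [MeasurableSpace X] [BorelSpace X]

/-- the time marginal `μ_s = (e_s)_# π` (real time, clamped to `[0,1]`) -/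
def mo_mu (π : Measure (Curve X)) (s : ℝ) : Measure X := interpolation π (clampTime s)

/-- the density `ρ_s` of `μ_s` -/
def mo_rho (m : Measure X) (π : Measure (Curve X)) (s : ℝ) : X → ℝ := rho m (mo_mu π s)

/-- `ρ~_s = ρ_s / e`, the density of `μ_s` w.r.t. the weighted measure -/
def mo_rt (m : Measure X) (F : X → ℝ) (ε : ℝ) (π : Measure (Curve X)) (s : ℝ) : X → ℝ :=
  fun x => mo_rho m π s x / wt F ε x

/-- `Θ_δ(s) = ∫ J(u_s) dμ_s` -/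
def mo_Th (m : Measure X) (F : X → ℝ) (ε δ : ℝ) (π : Measure (Curve X)) (u₀ : X → ℝ) (s : ℝ) : ℝ :=
  ∫ x, resW m F ε δ (hopfLax s u₀) x ∂(mo_mu π s)

/-- `Θ_0(s) = ∫ u_s dμ_s` -/
def mo_Th0 (π : Measure (Curve X)) (u₀ : X → ℝ) (s : ℝ) : ℝ := ∫ x, hopfLax s u₀ x ∂(mo_mu π s)

/-- `β_δ(s) = ∫ (G - εK) Γ(J u_s) (J ρ~_s) e dm` -/
def mo_be (m : Measure X) (K : ℝ) (F G : X → ℝ) (ε δ : ℝ) (π : Measure (Curve X)) (u₀ : X → ℝ)
    (s : ℝ) : ℝ :=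
  ∫ x, (G x - ε * K) * gamma m (resW m F ε δ (hopfLax s u₀)) (resW m F ε δ (hopfLax s u₀)) x
    * resW m F ε δ (mo_rt m F ε π s) x * wt F ε x ∂m

/-- `β_0(s) = ∫ (G - εK) Γ(u_s) dμ_s` -/
def mo_be0 (m : Measure X) (K : ℝ) (G : X → ℝ) (ε : ℝ) (π : Measure (Curve X)) (u₀ : X → ℝ)
    (s : ℝ) : ℝ :=
  ∫ x, (G x - ε * K) * gamma m (hopfLax s u₀) (hopfLax s u₀) x ∂(mo_mu π s)

/-- `A_s² = ∫ Γ(u_s) dμ_s` -/
def mo_A (m : Measure X) (π : Measure (Curve X)) (u₀ : X → ℝ) (s : ℝ) : ℝ :=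
  ∫ x, gamma m (hopfLax s u₀) (hopfLax s u₀) x ∂(mo_mu π s)

/-- The properties of the weighted resolvent `J = resW m F ε δ` used by the layer (all provided by layer WR
for `0 < δ ≤ δ₀(ε)`). All integrals are w.r.t. `m`, with the weight `e = wt F ε` written explicitly. -/
structure mo_JOK (m : Measure X) (K : ℝ) (F G : X → ℝ) (ε δ : ℝ) : Prop where
  memLp : ∀ f : X → ℝ, MemLp f 2 m → MemLp (resW m F ε δ f) 2 m
  congr : ∀ f g : X → ℝ, f =ᵐ[m] g → resW m F ε δ f =ᵐ[m] resW m F ε δ g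
  sub : ∀ f g : X → ℝ, MemLp f 2 m → MemLp g 2 m →
    resW m F ε δ (fun x => f x - g x) =ᵐ[m] fun x => resW m F ε δ f x - resW m F ε δ g x
  symm : ∀ f g : X → ℝ, MemLp f 2 m → MemLp g 2 m →
    ∫ x, resW m F ε δ f x * g x * wt F ε x ∂m = ∫ x, f x * resW m F ε δ g x * wt F ε x ∂m
  bdd : ∀ (f : X → ℝ) (M : ℝ), MemLp f 2 m → (∀ᵐ x ∂m, |f x| ≤ M) → ∀ᵐ x ∂m, |resW m F ε δ f x| ≤ M
  nonneg : ∀ f : X → ℝ, MemLp f 2 m → (∀ᵐ x ∂m, 0 ≤ f x) → ∀ᵐ x ∂m, 0 ≤ resW m F ε δ f x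
  sob : ∀ f : X → ℝ, MemLp f 2 m → Sobolev m (resW m F ε δ f)
  en : ∀ f : X → ℝ, MemLp f 2 m →
    δ * ε * ∫ x, gamma m (resW m F ε δ f) (resW m F ε δ f) x * wt F ε x ∂m ≤ ∫ x, f x ^ 2 * wt F ε x ∂m
  en' : ∀ f : X → ℝ, Sobolev m f →
    ∫ x, gamma m (resW m F ε δ f) (resW m F ε δ f) x * wt F ε x ∂m ≤ ∫ x, gamma m f f x * wt F ε x ∂m
  gen : ∀ f v : X → ℝ, MemLp f 2 m → Sobolev m v →
    ∫ x, (resW m F ε δ f x - f x) * v x * wt F ε x ∂m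
      = -(δ * ε) * ∫ x, gamma m (resW m F ε δ f) v x * wt F ε x ∂m
  grad : ∀ M : ℝ, ∃ A : ℝ, ∀ f : X → ℝ, MemLp f 2 m → (∀ᵐ x ∂m, |f x| ≤ M) →
    ∀ᵐ x ∂m, weakGradient m (resW m F ε δ f) x ≤ A
  step : ∀ (u h : X → ℝ) (M : ℝ), Sobolev m u → MemLp h 2 m → (∀ᵐ x ∂m, 0 ≤ h x) → (∀ᵐ x ∂m, h x ≤ M) →
    ∫ x, gamma m (resW m F ε δ u) (resW m F ε δ u) x * h x * wt F ε x ∂m
      ≤ ∫ x, gamma m u u x * resW m F ε δ h x * wt F ε x ∂m
        + 2 * δ * ∫ x, (G x - ε * K) * gamma m (resW m F ε δ u) (resW m F ε δ u) x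
            * resW m F ε δ h x * wt F ε x ∂m

/-- The context of STEP 1 (without the regularity of the end point densities):
a geodesic plan `π` from `μ₀` to `μ₁` inside `closedBall y (2ϱ)`, and a compactly supported Lipschitz potential `u₀`
which is optimal in the Kantorovich duality. -/
structure mo_Ctx (m : Measure X) (K N : ℝ) (F G : X → ℝ) (κ : ℝ) (y : X) (ϱ τ : ℝ) (μ₀ μ₁ : Measure X)
    (π : Measure (Curve X)) (C : ℝ≥0) (u₀ : X → ℝ) : Prop where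
  std : Std m K N
  F_lipB : LipB F
  G_bdd : BoundedFunction G
  G_cont : Continuous G
  hess : WeakHessianUpperBound m F G
  rho_pos : 0 < ϱ
  tau_pos : 0 < τ
  G_le : ∀ z ∈ Metric.ball y (2 * ϱ + τ), G z ≤ κ
  plan : GeoPlan m μ₀ μ₁ π C
  track : ∀ᵐ γ ∂π, ∀ t : Time, dist (γ t) y ≤ 2 * ϱ
  u_lipC : LipC u₀
  dual : ∫ x, hopfLax 1 u₀ x ∂μ₁ - ∫ x, u₀ x ∂μ₀ = W2sqR μ₀ μ₁ / 2

end

end Claimed.Agent.R210.MO.Defs
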