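/-
Row 210 (S0432), layer MO, architect helper686.   File HJ: the potentials `u_s = hopfLax s u₀` (`u₀` Lipschitz with compact support).
Tools: HL/Ifc.lean, GC/Ifc.lean.
-/
import Claimed.Agent.R210.MO.Defs
import Claimed.Agent.R210.HL.Ifc
import Claimed.Agent.R210.GC.Ifc

set_option autoImplicit false
set_option linter.unusedSectionVars false

open Claims.C0366 Claims.C0366.WeakHessian
open Set Filter MeasureTheory
open scoped ENNReal NNReal Topology

namespace Claimed.Agent.R210.MO.HJ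

open Claimed.Agent.R210.Defs Claimed.Agent.R210.Defs2 Claimed.Agent.R210.GC.Defs Claimed.Agent.R210.MO.Defs
open Claimed.Agent.R210.HL.Ifc Claimed.Agent.R210.GC.WG Claimed.Agent.R210.GC.Gam

variable {X : Type*} [MetricSpace X] [MeasurableSpace X] [BorelSpace X]
  [CompleteSpace X] [TopologicalSpace.SeparableSpace X] [ProperSpace X]
  {m μ₀ μ₁ : Measure X} {π : Measure (Curve X)} {C : ℝ≥0} {y : X} {K N κ ϱ τ ε δ : ℝ} {F G u₀ : X → ℝ}

/-- uniform bounds for `s ≤ 2` -/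
theorem mo_u_unif (hu : LipC u₀) : ∃ (L : ℝ≥0) (B : ℝ) (S : Set X), IsCompact S ∧ LipschitzWith L u₀ ∧
    ∀ s : ℝ, s ≤ 2 → LipschitzWith (2 * L) (hopfLax s u₀) ∧ (∀ x, |hopfLax s u₀ x| ≤ B) ∧
      Function.support (hopfLax s u₀) ⊆ S := by
  obtain ⟨B, hB⟩ := (gc_lipB_of_lipC hu).2
  obtain ⟨⟨L, hL⟩, hc⟩ := hu
  rcases isEmpty_or_nonempty X with hX | ⟨⟨o⟩⟩
  · exact ⟨L, B, ∅, isCompact_empty, hL, fun s _ =>
      ⟨hl1_lipschitz hL s, fun x => (hX.false x).elim, fun x _ => (hX.false x).elim⟩⟩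
  · obtain ⟨R, hR⟩ := hc.isCompact.isBounded.subset_closedBall o
    refine ⟨L, B, Metric.closedBall o (R + 2 * 2 * L), isCompact_closedBall _ _, hL, fun s hs =>
      ⟨hl1_lipschitz hL s, fun x => hl1_abs_le hL hB s x, ?_⟩⟩
    have hL0 : (0 : ℝ) ≤ L := L.2
    rcases le_or_gt s 0 with h0 | h0
    · have : hopfLax s u₀ = u₀ := funext fun y => hl1_of_nonpos h0 u₀ y
      rw [this]
      exact ((subset_tsupport u₀).trans hR).trans (Metric.closedBall_subset_closedBall (by nlinarith))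
    · exact (hl4_support_subset_closedBall hL ((subset_tsupport u₀).trans hR) h0.le).trans
        (Metric.closedBall_subset_closedBall (by nlinarith))

theorem mo_u_lipC (hu : LipC u₀) (s : ℝ) : LipC (hopfLax s u₀) := by
  rcases le_or_gt s 0 with h0 | h0
  · have : hopfLax s u₀ = u₀ := funext fun y => hl1_of_nonpos h0 u₀ y
    rwa [this]
  · exact hl4_LipC hu h0.le

theorem mo_u_sob (hfin : FiniteOnBoundedSets m) (hu : LipC u₀) (s : ℝ) : Sobolev m (hopfLax s u₀) :=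
  gc_sob_of_lipC hfin (mo_u_lipC hu s)

theorem mo_u_memLp (hfin : FiniteOnBoundedSets m) (hu : LipC u₀) (s : ℝ) : MemLp (hopfLax s u₀) 2 m :=
  (mo_u_sob hfin hu s).1

theorem mo_u_ls (hfin : FiniteOnBoundedSets m) {L : ℝ≥0} (hL : LipschitzWith L u₀) (s : ℝ) :
    LocalSobolev m (hopfLax s u₀) :=
  gc_ls_of_lipLoc hfin (gc_lipLoc_of_lip ⟨2 * L, hl1_lipschitz hL s⟩)

/-- `0 ≤ |Du_s| ≤ 2L` -/
theorem mo_u_wg_le (hfin : FiniteOnBoundedSets m) {L : ℝ≥0} (hL : LipschitzWith L u₀) (s : ℝ) :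
    ∀ᵐ x ∂m, 0 ≤ weakGradient m (hopfLax s u₀) x ∧ weakGradient m (hopfLax s u₀) x ≤ 2 * L := by
  filter_upwards [gc_wg_le_lip hfin (hl1_lipschitz hL s), gc_wg_nonneg (m := m) (hopfLax s u₀)] with x h2 h3
  have : ((2 * L : ℝ≥0) : ℝ) = 2 * L := by push_cast; ring
  rw [this] at h2
  exact ⟨h3, h2⟩

/-- `0 ≤ Γ(u_s) ≤ (2L)²` -/
theorem mo_u_gamma_le (hfin : FiniteOnBoundedSets m) {L : ℝ≥0} (hL : LipschitzWith L u₀) (s : ℝ) :
    ∀ᵐ x ∂m, 0 ≤ gamma m (hopfLax s u₀) (hopfLax s u₀) x ∧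
      gamma m (hopfLax s u₀) (hopfLax s u₀) x ≤ (2 * L : ℝ) ^ 2 := by
  filter_upwards [gc_gamma_self hfin (mo_u_ls hfin hL s), mo_u_wg_le hfin hL s] with x h1 h2
  rw [h1]
  exact ⟨sq_nonneg _, pow_le_pow_left₀ h2.1 h2.2 2⟩

theorem mo_u_gamma_memLp (hfin : FiniteOnBoundedSets m) (hu : LipC u₀) (s : ℝ) :
    MemLp (gamma m (hopfLax s u₀) (hopfLax s u₀)) 2 m := by
  obtain ⟨L, hL⟩ := hu.1
  refine (mo_u_sob hfin hu s).2.2.of_le_mul (c := 2 * L) (gc_gamma_aesm _ _) ?_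
  filter_upwards [gc_gamma_self hfin (mo_u_ls hfin hL s), mo_u_wg_le hfin hL s] with x h1 h2
  rw [h1, Real.norm_eq_abs, Real.norm_eq_abs, abs_of_nonneg (sq_nonneg _), abs_of_nonneg h2.1, sq]
  exact mul_le_mul_of_nonneg_right h2.2 h2.1

theorem mo_u_gamma_integrable (hfin : FiniteOnBoundedSets m) (hu : LipC u₀) (s : ℝ) :
    Integrable (gamma m (hopfLax s u₀) (hopfLax s u₀)) m := by
  obtain ⟨L, hL⟩ := hu.1
  refine (gc_wg_sq_integrable (mo_u_sob hfin hu s)).congr ?_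
  filter_upwards [gc_gamma_self hfin (mo_u_ls hfin hL s)] with x h1
  exact h1.symm

/-- discrete Hamilton-Jacobi inequality with `Γ` -/
theorem mo_u_hj (hfin : FiniteOnBoundedSets m) (hu : LipC u₀) {s t : ℝ} (hs : 0 < s) (ht : 0 < t) :
    ∀ᵐ x ∂m, hopfLax (s + t) u₀ x - hopfLax s u₀ x
      ≤ -(t * s / (s + t)) * (gamma m (hopfLax s u₀) (hopfLax s u₀) x / 2) := by
  obtain ⟨L, hL⟩ := hu.1
  filter_upwards [gc_gamma_self hfin (mo_u_ls hfin hL s),
    gc_wg_le_slope hfin (gc_lipLoc_of_lip ⟨2 * L, hl1_lipschitz hL s⟩), mo_u_wg_le hfin hL s] with x h1 h2 h3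
  have h4 := hl2_discrete hL hs ht x
  have h5 : weakGradient m (hopfLax s u₀) x ≤ (localSlope (hopfLax s u₀) x).toReal := by
    have hfinite : localSlope (hopfLax s u₀) x ≠ ∞ :=
      ne_top_of_le_ne_top ENNReal.coe_ne_top (hl2_slope_le hL s x)
    exact (ENNReal.ofReal_le_iff_le_toReal hfinite).1 h2
  have h6 : gamma m (hopfLax s u₀) (hopfLax s u₀) x ≤ (localSlope (hopfLax s u₀) x).toReal ^ 2 := by
    rw [h1]
    exact pow_le_pow_left₀ h3.1 h5 2
  have h7 : 0 ≤ t * s / (s + t) := by positivity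
  nlinarith [mul_le_mul_of_nonneg_left h6 h7]

/-- half of the semigroup property -/
theorem mo_hl_semi {L : ℝ≥0} (hL : LipschitzWith L u₀) {s : ℝ} (hs0 : 0 < s) (hs1 : s < 1) (z w : X) :
    hopfLax 1 u₀ w ≤ hopfLax s u₀ z + dist z w ^ 2 / (2 * (1 - s)) := by
  have h1s : 0 < 1 - s := sub_pos.2 hs1
  have key : hopfLax 1 u₀ w - dist z w ^ 2 / (2 * (1 - s)) ≤ hopfLax s u₀ z := by
    refine hl1_ge_of_forall_comp hs0 z fun w' => ?_
    have h1 := hl1_le_comp hL one_pos w w'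
    have h2 : dist w' w ≤ dist w' z + dist z w := dist_triangle _ _ _
    have h3 : dist w' w ^ 2 ≤ (dist w' z + dist z w) ^ 2 := pow_le_pow_left₀ dist_nonneg h2 2
    have h4 : (dist w' z + dist z w) ^ 2 / 2 ≤ dist w' z ^ 2 / (2 * s) + dist z w ^ 2 / (2 * (1 - s)) := by
      rw [div_add_div _ _ (by positivity) (by positivity), div_le_div_iff₀ (by positivity) (by positivity)]
      nlinarith [sq_nonneg ((1 - s) * dist w' z - s * dist z w), mul_pos hs0 h1s]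
    have h5 : dist w' w ^ 2 / (2 * 1) ≤ (dist w' z + dist z w) ^ 2 / 2 := by
      rw [mul_one]; linarith
    linarith
  linarith

end Claimed.Agent.R210.MO.HJ
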