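/-
Row 210 (S0432), layer MO, architect helper686.   File Real: two lemmas of one-variable calculus (no measure space).
SKETCH `mo_real_comparison`.  For `0 < a < 1` put `B s = Θ a + ∫ r in a..s, g r + η (s - a)`... Use Mathlib's
  `image_le_of_liminf_slope_right_lt_deriv_boundary'` (Mathlib/Analysis/Calculus/MeanValue.lean) on `[a, 1]`:  f := Θ, f' := fun s => g s + η,
  B := fun s => Θ a + ∫ r in a..s, (g r + η),  B' := fun s => g s + η  (right derivative of the integral of a continuous function: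
  `intervalIntegral.integral_hasDerivWithinAt_right` or extend `g` continuously by `g ∘ projIcc` and use `intervalIntegral.integral_hasDerivAt_right` /
  `Continuous.deriv_integral`).  The hypothesis "∀ r, f' x < r → ∃ᶠ z in 𝓝[>] x, slope f x z < r" follows from `h` with `η' = (r - g x - η)/2 ` hmm: apply `h` with η/2 … (slope Θ s (s+t) = (Θ(s+t) - Θ s)/t ≤ g s + η/2 < r);
  an eventual statement in `𝓝[>] 0` for `t` is transported to `𝓝[>] s` by `z = s + t` (`map_add_left_nhdsGT`-type lemma or `Filter.Tendsto` of `z ↦ z - s`), and `Eventually.frequently` (`𝓝[>] s` is NeBot).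
  This gives `Θ 1 - Θ a ≤ ∫ r in a..1, g r + η (1 - a)`.  Then let `η ↓ 0` (`le_of_forall_pos_le_add`) and `a ↓ 0` (continuity of `Θ` at `0` within `Icc 0 1`, continuity of `a ↦ ∫ r in a..1, g r`:
  `intervalIntegral.continuousOn_primitive_interval`-type lemmas, or the crude bound `|∫ r in 0..a, g r| ≤ a sup|g|`).
-/
import Mathlib

set_option autoImplicit false

open Set Filter MeasureTheory
open scoped ENNReal NNReal Topology

namespace Claimed.Agent.R210.MO.Real

/-- comparison: a continuous function whose upper right slopes are bounded by a continuous function `g`. -/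
theorem mo_real_comparison {Θ g : ℝ → ℝ} (hΘ : ContinuousOn Θ (Icc (0 : ℝ) 1)) (hg : ContinuousOn g (Icc (0 : ℝ) 1))
    (h : ∀ s ∈ Ioo (0 : ℝ) 1, ∀ η > 0, ∀ᶠ t in 𝓝[>] (0 : ℝ), Θ (s + t) - Θ s ≤ t * (g s + η)) :
    Θ 1 - Θ 0 ≤ ∫ s in (0 : ℝ)..1, g s := by
  -- continuous extension of `g`
  set G : ℝ → ℝ := IccExtend (zero_le_one' ℝ) ((Icc (0 : ℝ) 1).restrict g) with hG
  have hGc : Continuous G := (continuousOn_iff_continuous_restrict.1 hg).Icc_extend'
  have hGg : ∀ x ∈ Icc (0 : ℝ) 1, G x = g x := fun x hx => by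
    rw [hG, IccExtend_of_mem _ _ hx]
    rfl
  -- main step on `[a, 1]`
  have main : ∀ a ∈ Ioo (0 : ℝ) 1, ∀ η > 0, Θ 1 ≤ Θ a + ∫ r in a..1, (G r + η) := by
    intro a ha η hη
    have hcont : Continuous (fun r => G r + η) := hGc.add continuous_const
    have hB' : ∀ x, HasDerivAt (fun s => Θ a + ∫ r in a..s, (G r + η)) (G x + η) x := fun x =>
      ((hcont.integral_hasStrictDerivAt a x).hasDerivAt).const_add (Θ a)
    have key := image_le_of_liminf_slope_right_lt_deriv_boundary' (f := Θ) (f' := G) (a := a) (b := 1)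
      (B := fun s => Θ a + ∫ r in a..s, (G r + η)) (B' := fun s => G s + η)
      (hΘ.mono (Icc_subset_Icc ha.1.le le_rfl)) ?_ (by simp)
      (fun x _ => (hB' x).continuousAt.continuousWithinAt)
      (fun x _ => (hB' x).hasDerivWithinAt) (fun x _ _ => by linarith)
    · exact key ⟨ha.2.le, le_rfl⟩
    · intro x hx r hr
      have hx01 : x ∈ Ioo (0 : ℝ) 1 := ⟨ha.1.trans_le hx.1, hx.2⟩
      rw [hGg x ⟨hx01.1.le, hx01.2.le⟩] at hr
      have hη' : 0 < (r - g x) / 2 := by linarith
      have hev := h x hx01 _ hη'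
      have htend : Tendsto (fun z => z - x) (𝓝[>] x) (𝓝[>] (0 : ℝ)) := by
        refine tendsto_nhdsWithin_iff.2 ⟨?_, ?_⟩
        · have : Tendsto (fun z => z - x) (𝓝 x) (𝓝 (x - x)) :=
            (continuous_id.sub continuous_const).tendsto x
          rw [sub_self] at this
          exact this.mono_left nhdsWithin_le_nhds
        · filter_upwards [self_mem_nhdsWithin] with z hz
          exact mem_Ioi.2 (sub_pos.2 (mem_Ioi.1 hz))
      refine (Eventually.frequently ?_)
      filter_upwards [htend.eventually hev, self_mem_nhdsWithin] with z hz hzx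
      have hpos : 0 < z - x := sub_pos.2 (mem_Ioi.1 hzx)
      rw [add_sub_cancel] at hz
      rw [slope_def_field, div_lt_iff₀ hpos]
      nlinarith
  have main2 : ∀ a ∈ Ioo (0 : ℝ) 1, Θ 1 ≤ Θ a + ∫ r in a..1, G r := by
    intro a ha
    refine le_of_forall_pos_le_add fun η hη => ?_
    have h1 := main a ha η hη
    rw [intervalIntegral.integral_add (hGc.intervalIntegrable _ _) (continuous_const.intervalIntegrable _ _),
      intervalIntegral.integral_const, smul_eq_mul] at h1
    nlinarith [ha.1, ha.2]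
  -- let `a → 0`
  have hIoo : Ioo (0 : ℝ) 1 ∈ 𝓝[>] (0 : ℝ) := Ioo_mem_nhdsGT one_pos
  have t1 : Tendsto Θ (𝓝[>] (0 : ℝ)) (𝓝 (Θ 0)) := by
    have := hΘ 0 ⟨le_rfl, zero_le_one⟩
    refine this.mono_left ?_
    refine nhdsWithin_le_iff.2 ?_
    exact mem_of_superset hIoo Ioo_subset_Icc_self
  have t2 : Tendsto (fun a => ∫ r in a..1, G r) (𝓝[>] (0 : ℝ)) (𝓝 (∫ r in (0 : ℝ)..1, G r)) := by
    have hc : Continuous (fun a => ∫ r in a..1, G r) := by
      have : (fun a => ∫ r in a..1, G r) = fun a => - ∫ r in (1 : ℝ)..a, G r := by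
        funext a
        exact intervalIntegral.integral_symm _ _
      rw [this]
      exact (continuous_iff_continuousAt.2 fun x =>
        ((hGc.integral_hasStrictDerivAt 1 x).hasDerivAt).continuousAt).neg
    exact (hc.tendsto 0).mono_left nhdsWithin_le_nhds
  have h3 : Θ 1 ≤ Θ 0 + ∫ r in (0 : ℝ)..1, G r :=
    ge_of_tendsto (t1.add t2) (by filter_upwards [hIoo] with a ha using main2 a ha)
  have h4 : ∫ r in (0 : ℝ)..1, G r = ∫ r in (0 : ℝ)..1, g r :=
    intervalIntegral.integral_congr fun x hx => hGg x (by rwa [uIcc_of_le zero_le_one] at hx)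
  rw [h4] at h3
  linarith

/-- `W/2 ≤ -A/2 + λ A/2 + W/(2λ) + η` for all `λ, η > 0` forces `A = W` (here `A`, `W` are the SQUARES `∫Γ(u_s)dμ_s`, `W₂²`). -/
theorem mo_real_eq_of_young {A W : ℝ} (hA : 0 ≤ A)
    (h : ∀ lam > 0, ∀ η > 0, W / 2 ≤ -A / 2 + lam / 2 * A + W / (2 * lam) + η) : A = W := by
  have h1 : ∀ lam > 0, 0 ≤ (lam - 1) * (lam * A - W) := by
    intro lam hlam
    have h2 : W / 2 ≤ -A / 2 + lam / 2 * A + W / (2 * lam) :=
      le_of_forall_pos_le_add (fun η hη => h lam hlam η hη)
    have h3 : W / (2 * lam) * (2 * lam) = W := by field_simp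
    have h4 : W / 2 * (2 * lam) ≤ (-A / 2 + lam / 2 * A + W / (2 * lam)) * (2 * lam) :=
      mul_le_mul_of_nonneg_right h2 (by positivity)
    nlinarith
  apply le_antisymm
  · by_contra hcon
    push Not at hcon
    set θ := min (1 / 2) ((A - W) / (2 * (A + 1))) with hθ
    have hθ0 : 0 < θ := lt_min (by norm_num) (div_pos (by linarith) (by linarith))
    have hθ1 : θ ≤ 1 / 2 := min_le_left _ _
    have hθ2 : θ * (2 * (A + 1)) ≤ A - W := by
      have : θ ≤ (A - W) / (2 * (A + 1)) := min_le_right _ _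
      rwa [le_div_iff₀ (by linarith)] at this
    have h5 := h1 (1 - θ) (by linarith)
    have h6 : (1 - θ) * A - W ≤ 0 := by
      by_contra h7
      push Not at h7
      nlinarith
    nlinarith
  · by_contra hcon
    push Not at hcon
    set θ := (W - A) / (2 * (A + 1)) with hθ
    have hθ0 : 0 < θ := div_pos (by linarith) (by linarith)
    have hθ2 : θ * (2 * (A + 1)) = W - A := by
      rw [hθ]; field_simp
    have h5 := h1 (1 + θ) (by linarith)
    have h6 : 0 ≤ (1 + θ) * A - W := by
      by_contra h7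
      push Not at h7
      nlinarith
    nlinarith

end Claimed.Agent.R210.MO.Real
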