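/-
Row 210 (S0432), layer MO, architect helper686.   File Plan: ELEMENTARY facts on the marginals `μ_s = mo_mu π s` of a geodesic plan (no Sobolev calculus).
  `mo_mu π s = fo_mu π s = interpolation π (clampTime s) = Measure.map (fun γ => γ (clampTime s)) π`  and  `evalReal γ s = γ (clampTime s)`  (all by `rfl`).
  Most statements are wrappers of FO/Ifc.lean (helper920), CD/Ent (density facts) and OT/Ifc.lean.
-/
import Claimed.Agent.R210.MO.Defs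
import Claimed.Agent.R210.CU.Ifc
import Claimed.Agent.R210.OT.Ifc
import Claimed.Agent.R210.FO.Ifc
import Claimed.Agent.R210.CD.Ent.Dens

set_option autoImplicit false
set_option linter.unusedSectionVars false

open Claims.C0366 Claims.C0366.WeakHessian
open Set Filter MeasureTheory
open scoped ENNReal NNReal Topology

namespace Claimed.Agent.R210.MO.Plan

open Claimed.Agent.R210.Defs Claimed.Agent.R210.Defs2 Claimed.Agent.R210.MO.Defs
open Claimed.Agent.R210.FO.Defs Claimed.Agent.R210.FO.Ifc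

variable {X : Type*} [MetricSpace X] [MeasurableSpace X] [BorelSpace X]
  [CompleteSpace X] [TopologicalSpace.SeparableSpace X] [ProperSpace X]
  {m μ μ₀ μ₁ : Measure X} {π : Measure (Curve X)} {C M : ℝ≥0} {y : X} {R : ℝ}

theorem mo_mu_eq_fo (π : Measure (Curve X)) (s : ℝ) : mo_mu π s = fo_mu π s := rfl

theorem mo_sigmaFinite (hfin : FiniteOnBoundedSets m) : SigmaFinite m :=
  CD.Ent.Base.cd_ent_sigmaFinite hfin

/-! ### measures with bounded density -/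

/-- `∫ f dμ = ∫ f ρ dm` -/
theorem mo_integral_eq_rho (hfin : FiniteOnBoundedSets m) (h : BddDens m μ M y R) (f : X → ℝ) :
    ∫ x, f x ∂μ = ∫ x, f x * rho m μ x ∂m := by
  have := mo_sigmaFinite hfin
  have := h.prob
  have hac : μ ≪ m := CD.Ent.Dens.cd_ent_ac h
  have := integral_rnDeriv_smul (μ := μ) (ν := m) hac (f := f)
  rw [← this]
  refine integral_congr_ae (Eventually.of_forall fun x => ?_)
  simp [rho, mul_comm]

theorem mo_rho_nonneg' (m μ : Measure X) (x : X) : 0 ≤ rho m μ x := ENNReal.toReal_nonneg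

theorem mo_rho_measurable' (m μ : Measure X) : Measurable (rho m μ) :=
  (Measure.measurable_rnDeriv _ _).ennreal_toReal

theorem mo_rho_le' (hfin : FiniteOnBoundedSets m) (h : BddDens m μ M y R) : ∀ᵐ x ∂m, rho m μ x ≤ M := by
  have := mo_sigmaFinite hfin
  exact CD.Ent.Dens.cd_ent_rho_le h

theorem mo_rho_zero_off' (h : BddDens m μ M y R) : ∀ᵐ x ∂m, x ∉ Metric.closedBall y R → rho m μ x = 0 :=
  CD.Ent.Dens.cd_ent_rho_zero h

/-- bounded, vanishing off a set of finite measure -/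
theorem mo_rho_memLp' (hfin : FiniteOnBoundedSets m) (h : BddDens m μ M y R) : MemLp (rho m μ) 2 m := by
  have hB : MeasurableSet (Metric.closedBall y R) := Metric.isClosed_closedBall.measurableSet
  have hfinB : m (Metric.closedBall y R) < ∞ := hfin _ Metric.isBounded_closedBall
  have : IsFiniteMeasure (m.restrict (Metric.closedBall y R)) := ⟨by rwa [Measure.restrict_apply_univ]⟩
  have h1 : MemLp (rho m μ) 2 (m.restrict (Metric.closedBall y R)) := by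
    refine MemLp.of_bound (mo_rho_measurable' m μ).aestronglyMeasurable M ?_
    filter_upwards [ae_restrict_of_ae (mo_rho_le' hfin h)] with x hx
    rw [Real.norm_eq_abs, abs_of_nonneg (mo_rho_nonneg' m μ x)]
    exact hx
  have h2 : MemLp ((Metric.closedBall y R).indicator (rho m μ)) 2 m :=
    (memLp_indicator_iff_restrict hB).2 h1
  refine h2.ae_eq ?_
  filter_upwards [mo_rho_zero_off' h] with x hx
  by_cases hxB : x ∈ Metric.closedBall y R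
  · simp [hxB]
  · simp [hxB, hx hxB]

/-! ### the marginals -/

theorem mo_mu_bddDens (hπ : GeoPlan m μ₀ μ₁ π C) (htr : ∀ᵐ γ ∂π, ∀ t : Time, dist (γ t) y ≤ R) (s : ℝ) :
    BddDens m (mo_mu π s) C y R := fo_mu_bdd_of_tracks hπ htr s

theorem mo_mu_prob (hπ : GeoPlan m μ₀ μ₁ π C) (s : ℝ) : IsProbabilityMeasure (mo_mu π s) := by
  obtain ⟨o, R, -, htr⟩ := hπ.tracks
  exact (mo_mu_bddDens hπ htr s).prob

theorem mo_mu_le (hπ : GeoPlan m μ₀ μ₁ π C) (s : ℝ) : mo_mu π s ≤ (C : ℝ≥0∞) • m := hπ.comp _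

theorem mo_mu_ac (hπ : GeoPlan m μ₀ μ₁ π C) (s : ℝ) : mo_mu π s ≪ m := by
  obtain ⟨o, R, -, htr⟩ := hπ.tracks
  exact CD.Ent.Dens.cd_ent_ac (mo_mu_bddDens hπ htr s)

theorem mo_mu_zero (hπ : GeoPlan m μ₀ μ₁ π C) : mo_mu π 0 = μ₀ := fo_mu_zero hπ

theorem mo_mu_one (hπ : GeoPlan m μ₀ μ₁ π C) : mo_mu π 1 = μ₁ := fo_mu_one hπ

theorem mo_bdd_zero (hπ : GeoPlan m μ₀ μ₁ π C) (htr : ∀ᵐ γ ∂π, ∀ t : Time, dist (γ t) y ≤ R) :
    BddDens m μ₀ C y R := mo_mu_zero hπ ▸ mo_mu_bddDens hπ htr 0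

theorem mo_bdd_one (hπ : GeoPlan m μ₀ μ₁ π C) (htr : ∀ᵐ γ ∂π, ∀ t : Time, dist (γ t) y ≤ R) :
    BddDens m μ₁ C y R := mo_mu_one hπ ▸ mo_mu_bddDens hπ htr 1

theorem mo_mu_conc (hπ : GeoPlan m μ₀ μ₁ π C) (htr : ∀ᵐ γ ∂π, ∀ t : Time, dist (γ t) y ≤ R) (s : ℝ) :
    mo_mu π s (Metric.closedBall y R)ᶜ = 0 := (mo_mu_bddDens hπ htr s).conc

/-- a.e. properties pass from `m` to `μ_s` -/
theorem mo_ae_mu (hπ : GeoPlan m μ₀ μ₁ π C) {P : X → Prop} (h : ∀ᵐ x ∂m, P x) (s : ℝ) :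
    ∀ᵐ x ∂(mo_mu π s), P x := (mo_mu_ac hπ s).ae_le h

theorem mo_integral_mu (hπ : GeoPlan m μ₀ μ₁ π C) {f : X → ℝ} (hf : AEStronglyMeasurable f m) (s : ℝ) :
    ∫ x, f x ∂(mo_mu π s) = ∫ γ, f (evalReal γ s) ∂π :=
  FO.Plan.fo_integral_mu π s (hf.mono_ac (mo_mu_ac hπ s))

theorem mo_integral_rho (hfin : FiniteOnBoundedSets m) (hπ : GeoPlan m μ₀ μ₁ π C) (f : X → ℝ) (s : ℝ) :
    ∫ x, f x ∂(mo_mu π s) = ∫ x, f x * mo_rho m π s x ∂m := by
  obtain ⟨o, R, -, htr⟩ := hπ.tracks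
  exact mo_integral_eq_rho hfin (mo_mu_bddDens hπ htr s) f

theorem mo_rho_nonneg (m : Measure X) (π : Measure (Curve X)) (s : ℝ) (x : X) : 0 ≤ mo_rho m π s x :=
  ENNReal.toReal_nonneg

theorem mo_rho_measurable (m : Measure X) (π : Measure (Curve X)) (s : ℝ) : Measurable (mo_rho m π s) :=
  (Measure.measurable_rnDeriv _ _).ennreal_toReal

theorem mo_rho_le (hfin : FiniteOnBoundedSets m) (hπ : GeoPlan m μ₀ μ₁ π C) (s : ℝ) :
    ∀ᵐ x ∂m, mo_rho m π s x ≤ C := by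
  obtain ⟨o, R, -, htr⟩ := hπ.tracks
  exact mo_rho_le' hfin (mo_mu_bddDens hπ htr s)

theorem mo_rho_zero_off (hπ : GeoPlan m μ₀ μ₁ π C)
    (htr : ∀ᵐ γ ∂π, ∀ t : Time, dist (γ t) y ≤ R) (s : ℝ) :
    ∀ᵐ x ∂m, x ∉ Metric.closedBall y R → mo_rho m π s x = 0 :=
  mo_rho_zero_off' (mo_mu_bddDens hπ htr s)

theorem mo_rho_memLp (hfin : FiniteOnBoundedSets m) (hπ : GeoPlan m μ₀ μ₁ π C) (s : ℝ) :
    MemLp (mo_rho m π s) 2 m := by
  obtain ⟨o, R, -, htr⟩ := hπ.tracks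
  exact mo_rho_memLp' hfin (mo_mu_bddDens hπ htr s)

theorem mo_integrable_mu (hπ : GeoPlan m μ₀ μ₁ π C) (htr : ∀ᵐ γ ∂π, ∀ t : Time, dist (γ t) y ≤ R)
    {f : X → ℝ} (hf : IntegrableOn f (Metric.closedBall y R) m) (s : ℝ) : Integrable f (mo_mu π s) :=
  fo_bdd_integrable (mo_mu_bddDens hπ htr s) hf

/-- an `L²(m)` function is integrable on balls -/
theorem mo_integrableOn_of_memLp (hfin : FiniteOnBoundedSets m) {f : X → ℝ} (hf : MemLp f 2 m) (y : X) (R : ℝ) :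
    IntegrableOn f (Metric.closedBall y R) m :=
  FO.Basic.fo_locL2_integrableOn hfin (fun _ _ _ => hf.restrict _) y R

/-- an `L²(m)` function is integrable w.r.t. `μ_s` -/
theorem mo_integrable_mu_of_memLp (hfin : FiniteOnBoundedSets m) (hπ : GeoPlan m μ₀ μ₁ π C)
    {f : X → ℝ} (hf : MemLp f 2 m) (s : ℝ) : Integrable f (mo_mu π s) := by
  obtain ⟨o, R, -, htr⟩ := hπ.tracks
  exact mo_integrable_mu hπ htr (mo_integrableOn_of_memLp hfin hf o R) s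

/-! ### lengths, `W₂` -/

theorem mo_W2sq_ne_top (hπ : GeoPlan m μ₀ μ₁ π C) : W2sq μ₀ μ₁ ≠ ∞ := by
  obtain ⟨o, R, -, htr⟩ := hπ.tracks
  exact (FO.W2.fo_W2sq_lt_top (mo_bdd_zero hπ htr) (mo_bdd_one hπ htr)).ne

theorem mo_len_lintegral (hπ : GeoPlan m μ₀ μ₁ π C) :
    ∫⁻ γ, ENNReal.ofReal (dist (γ timeZero) (γ timeOne) ^ 2) ∂π = W2sq μ₀ μ₁ :=
  FO.UG.fo_lintegral_len_sq hπ

theorem mo_len_sq_measurable : Measurable (fun γ : Curve X => dist (γ timeZero) (γ timeOne) ^ 2) :=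
  (((CU.IfcBasic.cu_continuous_eval_time timeZero).dist
    (CU.IfcBasic.cu_continuous_eval_time timeOne)).pow 2).measurable

theorem mo_len_sq_integrable (hπ : GeoPlan m μ₀ μ₁ π C) :
    Integrable (fun γ : Curve X => dist (γ timeZero) (γ timeOne) ^ 2) π := by
  refine ⟨mo_len_sq_measurable.aestronglyMeasurable, ?_⟩
  rw [hasFiniteIntegral_iff_ofReal (Eventually.of_forall fun γ => sq_nonneg _), mo_len_lintegral hπ]
  exact (mo_W2sq_ne_top hπ).lt_top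

theorem mo_len_sq (hπ : GeoPlan m μ₀ μ₁ π C) :
    ∫ γ, dist (γ timeZero) (γ timeOne) ^ 2 ∂π = W2sqR μ₀ μ₁ := by
  rw [integral_eq_lintegral_of_nonneg_ae (Eventually.of_forall fun γ => sq_nonneg _)
    mo_len_sq_measurable.aestronglyMeasurable, mo_len_lintegral hπ]
  rfl

theorem mo_W2sqR_nonneg (μ₀ μ₁ : Measure X) : 0 ≤ W2sqR μ₀ μ₁ := ENNReal.toReal_nonneg

theorem mo_W2sq_mu (hπ : GeoPlan m μ₀ μ₁ π C) {s t : ℝ} (hs : s ∈ Icc (0 : ℝ) 1) (ht : t ∈ Icc (0 : ℝ) 1) :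
    W2sq (mo_mu π s) (mo_mu π t) = ENNReal.ofReal ((t - s) ^ 2) * W2sq μ₀ μ₁ := by
  obtain ⟨o, R, -, htr⟩ := hπ.tracks
  exact fo_mu_W2_eq hπ (mo_bdd_zero hπ htr) (mo_bdd_one hπ htr) hs ht

theorem mo_W2sqR_mu (hπ : GeoPlan m μ₀ μ₁ π C) {s t : ℝ} (hs : s ∈ Icc (0 : ℝ) 1) (ht : t ∈ Icc (0 : ℝ) 1) :
    W2sqR (mo_mu π s) (mo_mu π t) = (t - s) ^ 2 * W2sqR μ₀ μ₁ := by
  unfold W2sqR
  rw [mo_W2sq_mu hπ hs ht, ENNReal.toReal_mul, ENNReal.toReal_ofReal (sq_nonneg _)]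

end Claimed.Agent.R210.MO.Plan
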