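/-
Row 210 (S0432), layer MO, architect helper686.   File Speed: continuity of `s ↦ ∫ ψ dμ_s`, restriction of a geodesic plan, and the upper gradient inequality along a geodesic plan on SUBINTERVALS, after Young's inequality with a free parameter `lam`.
SKETCHES.
* `mo_incr`:  the plan `π' = π.map (cu_restr t s)` (time reversed restriction) is a `GeoPlan m μ_t μ_s π' C` (`mo_geoPlan_restr`) with tracks in the same ball (`mo_track_restr`);  apply `FO.Ifc.fo_ug hfin hπ' h0' h1' hf (s := (t - s) * lam) _ hB'`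
    with `h0' = Plan.mo_mu_bddDens hπ htr t`, `h1' = Plan.mo_mu_bddDens hπ htr s`;  `fo_mu π' r = mo_mu π (t + r (s - t))` (`mo_mu_restr`; `fo_mu = mo_mu` by `rfl`) and `t + r (s - t) ∈ Icc s t`;   `W2sqR μ_t μ_s = (s - t)² W²` (`Plan.mo_W2sqR_mu`);  finish by `field_simp`/`ring`.
* `mo_slope`:  `A r := ∫ |Df|² dμ_r` is continuous on [0,1] (`mo_cont` with `fo_wg_sq_integrableOn hf y R`), so for `t` small `A r ≤ A s + 2 η / lam =: B` on `[s, s+t]`
    (`ContinuousWithinAt` at `s` gives an `ε`-neighbourhood: `Metric.continuousWithinAt_iff`/`eventually_lt`; take `t < ε` and `s + t ≤ 1`); then `mo_incr` on `[s, s + t]`:  `t (lam/2 (A s + 2η/lam) + W²/(2 lam)) = t (lam/2 A s + W²/(2 lam) + η)`.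
-/
import Claimed.Agent.R210.MO.Plan

set_option autoImplicit false
set_option linter.unusedSectionVars false

open Claims.C0366 Claims.C0366.WeakHessian
open Set Filter MeasureTheory
open scoped ENNReal NNReal Topology

namespace Claimed.Agent.R210.MO.Speed

open Claimed.Agent.R210.Defs Claimed.Agent.R210.Defs2 Claimed.Agent.R210.MO.Defs
open Claimed.Agent.R210.FO.Defs Claimed.Agent.R210.FO.Ifc Claimed.Agent.R210.CU.Defs Claimed.Agent.R210.CU.Ifc
  Claimed.Agent.R210.CU.IfcBasic Claimed.Agent.R210.OT.Ifc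

variable {X : Type*} [MetricSpace X] [MeasurableSpace X] [BorelSpace X]
  [CompleteSpace X] [TopologicalSpace.SeparableSpace X] [ProperSpace X]
  {m μ₀ μ₁ : Measure X} {π : Measure (Curve X)} {C : ℝ≥0} {y : X} {R K N : ℝ}

/-- `s ↦ ∫ ψ dμ_s` is continuous on `[0,1]` for `ψ` integrable on the ball carrying the plan -/
theorem mo_cont (hfin : FiniteOnBoundedSets m) (hπ : GeoPlan m μ₀ μ₁ π C)
    (htr : ∀ᵐ γ ∂π, ∀ t : Time, dist (γ t) y ≤ R)
    {ψ : X → ℝ} (hψ : IntegrableOn ψ (Metric.closedBall y R) m) :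
    ContinuousOn (fun s => ∫ x, ψ x ∂(mo_mu π s)) (Icc (0 : ℝ) 1) := by
  intro s hs
  refine fo_weak_tendsto hfin (Plan.mo_mu_bddDens hπ htr s)
    (Eventually.of_forall fun s' => Plan.mo_mu_bddDens hπ htr s') ?_ hψ
  have h1 : Tendsto (fun s' : ℝ => (s' - s) ^ 2 * W2sqR μ₀ μ₁) (𝓝[Icc (0 : ℝ) 1] s) (𝓝 0) := by
    have hc : Continuous (fun s' : ℝ => (s' - s) ^ 2 * W2sqR μ₀ μ₁) := by fun_prop
    have := hc.tendsto s
    simp only [sub_self, ne_eq, OfNat.ofNat_ne_zero, not_false_eq_true, zero_pow, zero_mul] at this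
    exact this.mono_left nhdsWithin_le_nhds
  refine h1.congr' ?_
  filter_upwards [self_mem_nhdsWithin] with s' hs'
  exact (Plan.mo_W2sqR_mu hπ hs hs').symm

/-- right continuity in the form used later -/
theorem mo_cont_right (hfin : FiniteOnBoundedSets m) (hπ : GeoPlan m μ₀ μ₁ π C)
    (htr : ∀ᵐ γ ∂π, ∀ t : Time, dist (γ t) y ≤ R)
    {ψ : X → ℝ} (hψ : IntegrableOn ψ (Metric.closedBall y R) m) {s : ℝ} (hs : s ∈ Ico (0 : ℝ) 1) :
    Tendsto (fun t => ∫ x, ψ x ∂(mo_mu π (s + t))) (𝓝[>] (0 : ℝ)) (𝓝 (∫ x, ψ x ∂(mo_mu π s))) := by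
  have h1 := mo_cont hfin hπ htr hψ s ⟨hs.1, hs.2.le⟩
  have h2 : Tendsto (fun t : ℝ => s + t) (𝓝[>] (0 : ℝ)) (𝓝[Icc (0 : ℝ) 1] s) := by
    refine tendsto_nhdsWithin_iff.2 ⟨?_, ?_⟩
    · have hc : Continuous (fun t : ℝ => s + t) := by fun_prop
      have := hc.tendsto 0
      simp only [add_zero] at this
      exact this.mono_left nhdsWithin_le_nhds
    · filter_upwards [Ioo_mem_nhdsGT (sub_pos.2 hs.2)] with t ht
      exact ⟨by linarith [hs.1, ht.1], by linarith [ht.2]⟩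
  exact h1.tendsto.comp h2

/-! ### restriction of a geodesic plan (`s > t` allowed: time reversal) -/

theorem mo_mu_restr (π : Measure (Curve X)) (s t : ℝ) {r : ℝ} (hr : r ∈ Icc (0 : ℝ) 1) :
    mo_mu (π.map (cu_restr s t)) r = mo_mu π (s + r * (t - s)) := by
  unfold mo_mu interpolation
  rw [Measure.map_map (cu_measurable_eval _) (cu_measurable_restr s t)]
  congr 1
  funext γ
  exact cu_evalReal_restr s t γ hr

theorem mo_track_restr (htr : ∀ᵐ γ ∂π, ∀ t : Time, dist (γ t) y ≤ R) (s t : ℝ) :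
    ∀ᵐ γ ∂(π.map (cu_restr s t)), ∀ r : Time, dist (γ r) y ≤ R := by
  have hmeas : MeasurableSet {γ : Curve X | ∀ r : Time, dist (γ r) y ≤ R} := by
    have : {γ : Curve X | ∀ r : Time, dist (γ r) y ≤ R} = ⋂ r : Time, {γ : Curve X | dist (γ r) y ≤ R} := by
      ext γ; simp
    rw [this]
    exact (isClosed_iInter fun r =>
      isClosed_le ((cu_continuous_eval_time r).dist continuous_const) continuous_const).measurableSet
  rw [ae_map_iff (cu_measurable_restr s t).aemeasurable hmeas]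
  filter_upwards [htr] with γ hγ r
  exact hγ _

theorem mo_geoPlan_restr (hπ : GeoPlan m μ₀ μ₁ π C) {s t : ℝ} (hs : s ∈ Icc (0 : ℝ) 1) (ht : t ∈ Icc (0 : ℝ) 1) :
    GeoPlan m (mo_mu π s) (mo_mu π t) (π.map (cu_restr s t)) C := by
  have hp := hπ.prob
  have hmr := cu_measurable_restr (X := X) s t
  have hpair : Measurable (fun γ : Curve X => (γ timeZero, γ timeOne)) :=
    (cu_measurable_eval timeZero).prodMk (cu_measurable_eval timeOne)
  have hpair' : Measurable (fun γ : Curve X => (evalReal γ s, evalReal γ t)) :=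
    (cu_measurable_evalReal_time s).prodMk (cu_measurable_evalReal_time t)
  have hend : endpointCoupling (π.map (cu_restr s t)) = π.map (fun γ : Curve X => (evalReal γ s, evalReal γ t)) := by
    unfold endpointCoupling
    rw [Measure.map_map hpair hmr]
    congr 1
    funext γ
    simp only [Function.comp, cu_restr_timeZero, cu_restr_timeOne]
  refine ⟨Measure.isProbabilityMeasure_map hmr.aemeasurable, ?_, ?_, cu_boundedTracks_restr hπ.tracks s t, ?_⟩
  · intro r
    rw [Measure.map_map (cu_measurable_eval r) hmr]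
    exact hπ.comp (clampTime (s + (r : ℝ) * (t - s)))
  · rw [ae_map_iff hmr.aemeasurable cu_measurableSet_geodesic]
    filter_upwards [hπ.geo] with γ hγ
    exact cu_isGeodesic_restr hγ hs ht
  · have hcoup : IsCoupling (endpointCoupling (π.map (cu_restr s t))) (mo_mu π s) (mo_mu π t) := by
      rw [hend]
      constructor
      · rw [Measure.map_map measurable_fst hpair']; rfl
      · rw [Measure.map_map measurable_snd hpair']; rfl
    refine ot_optimal_of_cost_le hcoup ?_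
    rw [Plan.mo_W2sq_mu hπ hs ht, hend, ← Plan.mo_len_lintegral hπ]
    unfold QuadraticTransportCost
    rw [lintegral_map (by fun_prop) hpair', ← lintegral_const_mul' _ _ ENNReal.ofReal_ne_top]
    refine (lintegral_congr_ae ?_).le
    filter_upwards [hπ.geo] with γ hγ
    rw [edist_dist, cu_geodesic_dist_evalReal hγ hs ht, ← ENNReal.ofReal_pow (by positivity),
      ← ENNReal.ofReal_mul (sq_nonneg _), mul_pow, sq_abs]
    congr 1
    ring

/-! ### increments of `∫ f dμ_s` -/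

theorem mo_incr (hfin : FiniteOnBoundedSets m) (hπ : GeoPlan m μ₀ μ₁ π C)
    (htr : ∀ᵐ γ ∂π, ∀ t : Time, dist (γ t) y ≤ R)
    {f : X → ℝ} (hf : LocalSobolev m f) {s t : ℝ} (hs : 0 ≤ s) (hst : s < t) (ht : t ≤ 1) {lam B : ℝ} (hlam : 0 < lam)
    (hB : ∀ r ∈ Icc s t, ∫ x, weakGradient m f x ^ 2 ∂(mo_mu π r) ≤ B) :
    ∫ x, f x ∂(mo_mu π t) - ∫ x, f x ∂(mo_mu π s) ≤ (t - s) * (lam / 2 * B + W2sqR μ₀ μ₁ / (2 * lam)) := by
  have hs' : s ∈ Icc (0 : ℝ) 1 := ⟨hs, hst.le.trans ht⟩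
  have ht' : t ∈ Icc (0 : ℝ) 1 := ⟨hs.trans hst.le, ht⟩
  have hts : 0 < t - s := sub_pos.2 hst
  have hπ' := mo_geoPlan_restr hπ ht' hs'
  have key := fo_ug hfin hπ' (Plan.mo_mu_bddDens hπ htr t) (Plan.mo_mu_bddDens hπ htr s) hf
    (s := (t - s) * lam) (B := B) (mul_pos hts hlam) (fun r hr => by
      have h1 : fo_mu (π.map (cu_restr t s)) r = mo_mu π (t + r * (s - t)) := mo_mu_restr π t s hr
      rw [h1]
      refine hB _ ⟨?_, ?_⟩
      · nlinarith [hr.1, hr.2]
      · nlinarith [hr.1, hr.2])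
  rw [Plan.mo_W2sqR_mu hπ ht' hs'] at key
  refine key.trans (le_of_eq ?_)
  field_simp
  ring

/-- upper right slope of `∫ f dμ_s` -/
theorem mo_slope (hfin : FiniteOnBoundedSets m) (hπ : GeoPlan m μ₀ μ₁ π C)
    (htr : ∀ᵐ γ ∂π, ∀ t : Time, dist (γ t) y ≤ R)
    {f : X → ℝ} (hf : LocalSobolev m f) {s : ℝ} (hs : s ∈ Ico (0 : ℝ) 1) {lam η : ℝ} (hlam : 0 < lam) (hη : 0 < η) :
    ∀ᶠ t in 𝓝[>] (0 : ℝ), ∫ x, f x ∂(mo_mu π (s + t)) - ∫ x, f x ∂(mo_mu π s)
      ≤ t * (lam / 2 * ∫ x, weakGradient m f x ^ 2 ∂(mo_mu π s) + W2sqR μ₀ μ₁ / (2 * lam) + η) := by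
  have hc := mo_cont hfin hπ htr (fo_wg_sq_integrableOn hf y R) s ⟨hs.1, hs.2.le⟩
  have hpos : 0 < 2 * η / lam := by positivity
  obtain ⟨e, he0, he⟩ := (Metric.continuousWithinAt_iff.1 hc) (2 * η / lam) hpos
  filter_upwards [Ioo_mem_nhdsGT (lt_min he0 (sub_pos.2 hs.2))] with t ht
  have ht0 : 0 < t := ht.1
  have hte : t < e := ht.2.trans_le (min_le_left _ _)
  have ht1 : t < 1 - s := ht.2.trans_le (min_le_right _ _)
  have key := mo_incr hfin hπ htr hf (s := s) (t := s + t) hs.1 (by linarith) (by linarith) hlam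
    (B := ∫ x, weakGradient m f x ^ 2 ∂(mo_mu π s) + 2 * η / lam) (fun r hr => by
      have h1 : dist r s < e := by
        rw [Real.dist_eq, abs_of_nonneg (by linarith [hr.1])]
        linarith [hr.2]
      have h2 := he (x := r) ⟨by linarith [hs.1, hr.1], by linarith [hr.2]⟩ h1
      rw [Real.dist_eq] at h2
      linarith [(abs_lt.1 h2).2])
  refine key.trans (le_of_eq ?_)
  field_simp
  ring

end Claimed.Agent.R210.MO.Speed
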