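/-
Row 210 (S0432), layer MO, architect helper686.   File Exact: (S6) at EVERY time.   `h : mo_Ctx m K N F G κ y ϱ τ μ₀ μ₁ π C u₀`;  ℓ(γ) = dist (γ timeZero) (γ timeOne);  W² = W2sqR μ₀ μ₁.
  hfin := h.std.finite, hπ := h.plan, htr := h.track (radius 2ϱ), hu := h.u_lipC.
SKETCHES.
* `mo_contact`:  pointwise `hopfLax 1 u₀ (γ 1) - u₀ (γ 0) ≤ ℓ²/2` (`hl1_le_comp` with s = 1).   Integrals: ∫ u₁(γ 1) dπ = ∫ u₁ dμ₁ (`Plan.mo_integral_mu` at s = 1, `Plan.mo_mu_one`, `cu_evalReal_one`), same at 0 (`cu_evalReal_zero`); `h.dual`; `Plan.mo_len_sq`.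
     So ∫ (ℓ²/2 - (u₁(γ1) - u₀(γ0))) dπ = 0 with a nonnegative integrable integrand (bounded continuous functions of γ + `Plan.mo_len_sq_integrable`): `integral_eq_zero_iff_of_nonneg_ae`.
* `mo_along`:  s = 0: `hl1_zero`, `cu_evalReal_zero`; s = 1: `mo_contact`, `cu_evalReal_one`.   0 < s < 1, γ geodesic (`h.plan.geo`) with contact:  ≤ : `hl1_le_comp` with competitor γ 0, d(γ0,γ_s) = s ℓ (`cu_geodesic_dist_evalReal`);   ≥ : `HJ.mo_hl_semi` with z = γ_s, w = γ 1, d(γ_s,γ1) = (1-s) ℓ.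
* `mo_Th0_eq`:  `Plan.mo_integral_mu`, `integral_congr_ae (mo_along ..)`, `integral_add`, `integral_const_mul`, `Plan.mo_len_sq`;  at s = 0 the same formula gives mo_Th0 π u₀ 0 = ∫ u₀(γ 0) dπ.
* `mo_Th0_slope`:  Θ₀(s+t) - Θ₀(s) = ∫ (u_{s+t} - u_s) dμ_{s+t} + [∫ u_s dμ_{s+t} - ∫ u_s dμ_s].   First term ≤ -(t s/(s+t)) (1/2) ∫ Γ(u_s) dμ_{s+t} (`HJ.mo_u_hj`, `Plan.mo_ae_mu`, `integral_mono_ae`), and ∫ Γ(u_s) dμ_{s+t} → mo_A s (`Speed.mo_cont_right`), s/(s+t) → 1; so eventually it is ≤ t (-(mo_A s)/2 + η/2).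
     Second term: `Speed.mo_slope` with f = u_s, `lam`, η/2;  ∫ |Du_s|² dμ_s = mo_A s (`gc_gamma_self` + `Plan.mo_ae_mu`).      Integrability w.r.t. μ_r: `Plan.mo_integrable_mu_of_memLp` (`HJ.mo_u_memLp`, `HJ.mo_u_gamma_memLp`).
-/
import Claimed.Agent.R210.MO.Speed
import Claimed.Agent.R210.MO.HJ
import Claimed.Agent.R210.MO.Real

set_option autoImplicit false
set_option linter.unusedSectionVars false

open Claims.C0366 Claims.C0366.WeakHessian
open Set Filter MeasureTheory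
open scoped ENNReal NNReal Topology

namespace Claimed.Agent.R210.MO.Exact

open Claimed.Agent.R210.Defs Claimed.Agent.R210.Defs2 Claimed.Agent.R210.GC.Defs Claimed.Agent.R210.MO.Defs

variable {X : Type*} [MetricSpace X] [MeasurableSpace X] [BorelSpace X]
  [CompleteSpace X] [TopologicalSpace.SeparableSpace X] [ProperSpace X]
  {m μ₀ μ₁ : Measure X} {π : Measure (Curve X)} {C : ℝ≥0} {y : X} {K N κ ϱ τ ε δ : ℝ} {F G u₀ : X → ℝ}

theorem mo_contact (h : mo_Ctx m K N F G κ y ϱ τ μ₀ μ₁ π C u₀) :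
    ∀ᵐ γ ∂π, hopfLax 1 u₀ (γ timeOne) - u₀ (γ timeZero) = dist (γ timeZero) (γ timeOne) ^ 2 / 2 := by
  have hπ := h.plan
  have := hπ.prob
  obtain ⟨L, hL⟩ := h.u_lipC.1
  have hc0 : Continuous u₀ := hL.continuous
  have hc1 : Continuous (hopfLax 1 u₀) := (HL.Ifc.hl1_lipschitz hL 1).continuous
  obtain ⟨B, hB⟩ : ∃ B : ℝ, ∀ z, |u₀ z| ≤ B := by
    obtain ⟨B, hB⟩ := h.u_lipC.2.exists_bound_of_continuous hc0
    exact ⟨B, fun z => by simpa using hB z⟩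
  have hB1 : ∀ z, |hopfLax 1 u₀ z| ≤ B := fun z => HL.Ifc.hl1_abs_le hL hB 1 z
  have e0 : Continuous (fun γ : Curve X => γ timeZero) := CU.IfcBasic.cu_continuous_eval_time timeZero
  have e1 : Continuous (fun γ : Curve X => γ timeOne) := CU.IfcBasic.cu_continuous_eval_time timeOne
  have i0 : Integrable (fun γ : Curve X => u₀ (γ timeZero)) π :=
    Integrable.of_bound (hc0.comp e0).aestronglyMeasurable B
      (Eventually.of_forall fun γ => by simpa using hB (γ timeZero))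
  have i1 : Integrable (fun γ : Curve X => hopfLax 1 u₀ (γ timeOne)) π :=
    Integrable.of_bound (hc1.comp e1).aestronglyMeasurable B
      (Eventually.of_forall fun γ => by simpa using hB1 (γ timeOne))
  have il := Plan.mo_len_sq_integrable hπ
  have I0 : ∫ x, u₀ x ∂μ₀ = ∫ γ, u₀ (γ timeZero) ∂π := by
    have h1 := Plan.mo_integral_mu hπ (f := u₀) hc0.aestronglyMeasurable 0
    rw [Plan.mo_mu_zero hπ] at h1
    simpa [CU.IfcBasic.cu_evalReal_zero] using h1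
  have I1 : ∫ x, hopfLax 1 u₀ x ∂μ₁ = ∫ γ, hopfLax 1 u₀ (γ timeOne) ∂π := by
    have h1 := Plan.mo_integral_mu hπ (f := hopfLax 1 u₀) hc1.aestronglyMeasurable 1
    rw [Plan.mo_mu_one hπ] at h1
    simpa [CU.IfcBasic.cu_evalReal_one] using h1
  have hnn : ∀ γ : Curve X, 0 ≤ dist (γ timeZero) (γ timeOne) ^ 2 / 2
      - (hopfLax 1 u₀ (γ timeOne) - u₀ (γ timeZero)) := by
    intro γ
    have h1 := HL.Ifc.hl1_le_comp hL one_pos (γ timeOne) (γ timeZero)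
    rw [mul_one] at h1
    linarith
  have hint : Integrable (fun γ : Curve X => dist (γ timeZero) (γ timeOne) ^ 2 / 2
      - (hopfLax 1 u₀ (γ timeOne) - u₀ (γ timeZero))) π := (il.div_const 2).sub (i1.sub i0)
  have hzero : ∫ γ, (dist (γ timeZero) (γ timeOne) ^ 2 / 2
      - (hopfLax 1 u₀ (γ timeOne) - u₀ (γ timeZero))) ∂π = 0 := by
    have i10 : Integrable (fun γ : Curve X => hopfLax 1 u₀ (γ timeOne) - u₀ (γ timeZero)) π := i1.sub i0
    rw [integral_sub (il.div_const 2) i10, integral_sub i1 i0, integral_div,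
      Plan.mo_len_sq hπ, ← I0, ← I1, h.dual]
    ring
  have hae := (integral_eq_zero_iff_of_nonneg_ae (Eventually.of_forall hnn) hint).1 hzero
  filter_upwards [hae] with γ hγ
  simp only [Pi.zero_apply] at hγ
  linarith

theorem mo_along (h : mo_Ctx m K N F G κ y ϱ τ μ₀ μ₁ π C u₀) {s : ℝ} (hs : s ∈ Icc (0 : ℝ) 1) :
    ∀ᵐ γ ∂π, hopfLax s u₀ (evalReal γ s) = u₀ (γ timeZero) + s * (dist (γ timeZero) (γ timeOne) ^ 2 / 2) := by
  obtain ⟨L, hL⟩ := h.u_lipC.1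
  filter_upwards [mo_contact h, h.plan.geo] with γ hc hg
  rcases eq_or_lt_of_le hs.1 with h0 | h0
  · subst h0
    rw [HL.Ifc.hl1_zero, CU.IfcBasic.cu_evalReal_zero]; ring
  rcases eq_or_lt_of_le hs.2 with h1 | h1
  · subst h1
    rw [CU.IfcBasic.cu_evalReal_one]; linarith
  · have d0 : dist (γ timeZero) (evalReal γ s) = s * dist (γ timeZero) (γ timeOne) := by
      have := CU.Ifc.cu_geodesic_dist_evalReal hg (s := 0) (t := s) ⟨le_rfl, zero_le_one⟩ hs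
      rw [CU.IfcBasic.cu_evalReal_zero] at this
      rw [this, zero_sub, abs_neg, abs_of_pos h0]
    have d1 : dist (evalReal γ s) (γ timeOne) = (1 - s) * dist (γ timeZero) (γ timeOne) := by
      have := CU.Ifc.cu_geodesic_dist_evalReal hg (s := s) (t := 1) hs ⟨zero_le_one, le_rfl⟩
      rw [CU.IfcBasic.cu_evalReal_one] at this
      rw [this, abs_sub_comm, abs_of_pos (sub_pos.2 h1)]
    have up := HL.Ifc.hl1_le_comp hL h0 (evalReal γ s) (γ timeZero)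
    have lo := HJ.mo_hl_semi hL h0 h1 (evalReal γ s) (γ timeOne)
    rw [d0] at up
    rw [d1] at lo
    have h1s : (1 - s) ≠ 0 := (sub_pos.2 h1).ne'
    have e1 : (s * dist (γ timeZero) (γ timeOne)) ^ 2 / (2 * s)
        = s * (dist (γ timeZero) (γ timeOne) ^ 2 / 2) := by
      field_simp
    have e2 : ((1 - s) * dist (γ timeZero) (γ timeOne)) ^ 2 / (2 * (1 - s))
        = (1 - s) * (dist (γ timeZero) (γ timeOne) ^ 2 / 2) := by
      field_simp
    rw [e1] at up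
    rw [e2] at lo
    refine le_antisymm up ?_
    linarith

theorem mo_aux_u0_integrable (h : mo_Ctx m K N F G κ y ϱ τ μ₀ μ₁ π C u₀) :
    Integrable (fun γ : Curve X => u₀ (γ timeZero)) π := by
  haveI := h.plan.prob
  obtain ⟨L, hL⟩ := h.u_lipC.1
  obtain ⟨B, hB⟩ := hL.continuous.bounded_above_of_compact_support h.u_lipC.2
  exact Integrable.of_bound
    ((hL.continuous.comp (CU.IfcBasic.cu_continuous_eval_time timeZero)).aestronglyMeasurable) B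
    (Eventually.of_forall fun γ => hB _)

/-- `Θ₀` is affine -/
theorem mo_Th0_eq (h : mo_Ctx m K N F G κ y ϱ τ μ₀ μ₁ π C u₀) {s : ℝ} (hs : s ∈ Icc (0 : ℝ) 1) :
    mo_Th0 π u₀ s = mo_Th0 π u₀ 0 + s * (W2sqR μ₀ μ₁ / 2) := by
  have hform : ∀ r ∈ Icc (0 : ℝ) 1,
      mo_Th0 π u₀ r = ∫ γ, u₀ (γ timeZero) ∂π + r * (W2sqR μ₀ μ₁ / 2) := by
    intro r hr
    unfold mo_Th0
    rw [Plan.mo_integral_mu h.plan (HJ.mo_u_memLp h.std.finite h.u_lipC r).1 r,
      integral_congr_ae (mo_along h hr),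
      integral_add (mo_aux_u0_integrable h)
        (((Plan.mo_len_sq_integrable h.plan).div_const 2).const_mul r),
      integral_const_mul, integral_div, Plan.mo_len_sq h.plan]
  rw [hform s hs, hform 0 ⟨le_rfl, zero_le_one⟩]
  ring

theorem mo_A_nonneg (h : mo_Ctx m K N F G κ y ϱ τ μ₀ μ₁ π C u₀) (s : ℝ) : 0 ≤ mo_A m π u₀ s := by
  obtain ⟨L, hL⟩ := h.u_lipC.1
  refine integral_nonneg_of_ae ?_
  filter_upwards [Plan.mo_ae_mu h.plan (HJ.mo_u_gamma_le h.std.finite hL s) s] with x hx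
  exact hx.1

theorem mo_Th0_slope (h : mo_Ctx m K N F G κ y ϱ τ μ₀ μ₁ π C u₀) {s : ℝ} (hs : s ∈ Ioo (0 : ℝ) 1) {lam η : ℝ}
    (hlam : 0 < lam) (hη : 0 < η) :
    ∀ᶠ t in 𝓝[>] (0 : ℝ), mo_Th0 π u₀ (s + t) - mo_Th0 π u₀ s
      ≤ t * (-(mo_A m π u₀ s) / 2 + lam / 2 * mo_A m π u₀ s + W2sqR μ₀ μ₁ / (2 * lam) + η) := by
  have hfin := h.std.finite
  have hπ := h.plan
  have htr := h.track
  have hu := h.u_lipC
  obtain ⟨L, hL⟩ := hu.1
  have hls : LocalSobolev m (hopfLax s u₀) := HJ.mo_u_ls hfin hL s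
  have hs' : s ∈ Ico (0 : ℝ) 1 := ⟨hs.1.le, hs.2⟩
  have eA : ∫ x, weakGradient m (hopfLax s u₀) x ^ 2 ∂(mo_mu π s) = mo_A m π u₀ s := by
    unfold mo_A
    refine integral_congr_ae ?_
    filter_upwards [Plan.mo_ae_mu hπ (Claimed.Agent.R210.GC.Gam.gc_gamma_self hfin hls) s] with x hx
    exact hx.symm
  have T2 := Speed.mo_slope hfin hπ htr hls hs' hlam (half_pos hη)
  rw [eA] at T2
  have hlimA : Tendsto (fun t => ∫ x, gamma m (hopfLax s u₀) (hopfLax s u₀) x ∂(mo_mu π (s + t)))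
      (𝓝[>] (0 : ℝ)) (𝓝 (mo_A m π u₀ s)) :=
    Speed.mo_cont_right hfin hπ htr
      (Plan.mo_integrableOn_of_memLp hfin (HJ.mo_u_gamma_memLp hfin hu s) y (2 * ϱ)) hs'
  have hlimq : Tendsto (fun t : ℝ => s / (s + t)) (𝓝[>] (0 : ℝ)) (𝓝 1) := by
    have h1 : Tendsto (fun t : ℝ => s / (s + t)) (𝓝 0) (𝓝 (s / (s + 0))) :=
      tendsto_const_nhds.div (tendsto_const_nhds.add tendsto_id) (by simpa using hs.1.ne')
    rw [add_zero, div_self hs.1.ne'] at h1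
    exact h1.mono_left nhdsWithin_le_nhds
  have hlim := hlimq.mul hlimA
  rw [one_mul] at hlim
  have hev := hlim.eventually_const_lt (show mo_A m π u₀ s - η < mo_A m π u₀ s by linarith)
  filter_upwards [T2, hev, self_mem_nhdsWithin] with t ht2 ht3 ht0
  have ht0' : 0 < t := ht0
  have i1 := Plan.mo_integrable_mu_of_memLp hfin hπ (HJ.mo_u_memLp hfin hu (s + t)) (s + t)
  have i2 := Plan.mo_integrable_mu_of_memLp hfin hπ (HJ.mo_u_memLp hfin hu s) (s + t)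
  have i3 := Plan.mo_integrable_mu_of_memLp hfin hπ (HJ.mo_u_gamma_memLp hfin hu s) (s + t)
  have T1 : ∫ x, hopfLax (s + t) u₀ x ∂(mo_mu π (s + t)) - ∫ x, hopfLax s u₀ x ∂(mo_mu π (s + t))
      ≤ -(t * s / (s + t))
        * ((∫ x, gamma m (hopfLax s u₀) (hopfLax s u₀) x ∂(mo_mu π (s + t))) / 2) := by
    rw [← integral_sub i1 i2, ← integral_div, ← integral_const_mul]
    exact integral_mono_ae (i1.sub i2) ((i3.div_const 2).const_mul _)
      (Plan.mo_ae_mu hπ (HJ.mo_u_hj hfin hu hs.1 ht0') (s + t))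
  have e : -(t * s / (s + t))
        * ((∫ x, gamma m (hopfLax s u₀) (hopfLax s u₀) x ∂(mo_mu π (s + t))) / 2)
      = t * (-(s / (s + t) * ∫ x, gamma m (hopfLax s u₀) (hopfLax s u₀) x ∂(mo_mu π (s + t))) / 2) := by
    ring
  have h4 : t * (-(s / (s + t) * ∫ x, gamma m (hopfLax s u₀) (hopfLax s u₀) x ∂(mo_mu π (s + t))) / 2)
      ≤ t * (-(mo_A m π u₀ s - η) / 2) :=
    mul_le_mul_of_nonneg_left (by linarith) ht0'.le
  unfold mo_Th0
  rw [e] at T1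
  linarith

/-- **(S6)** at every interior time -/
theorem mo_A_eq (h : mo_Ctx m K N F G κ y ϱ τ μ₀ μ₁ π C u₀) {s : ℝ} (hs : s ∈ Ioo (0 : ℝ) 1) :
    mo_A m π u₀ s = W2sqR μ₀ μ₁ := by
  refine Real.mo_real_eq_of_young (mo_A_nonneg h s) fun lam hlam η hη => ?_
  have h1 := mo_Th0_slope h hs hlam hη
  have h2 : ∀ᶠ t in 𝓝[>] (0 : ℝ), t ∈ Ioo (0 : ℝ) (1 - s) := Ioo_mem_nhdsGT (sub_pos.2 hs.2)
  obtain ⟨t, ht1, ht2⟩ := (h1.and h2).exists
  rw [mo_Th0_eq h (s := s + t) ⟨by linarith [hs.1, ht2.1], by linarith [ht2.2]⟩,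
    mo_Th0_eq h (s := s) ⟨hs.1.le, hs.2.le⟩] at ht1
  have h3 : t * (W2sqR μ₀ μ₁ / 2)
      ≤ t * (-(mo_A m π u₀ s) / 2 + lam / 2 * mo_A m π u₀ s + W2sqR μ₀ μ₁ / (2 * lam) + η) := by
    linarith
  exact le_of_mul_le_mul_left h3 ht2.1

end Claimed.Agent.R210.MO.Exact
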