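/-
Row 210 (S0432), layer MO, architect helper686.   File S3: (S3) `β_δ` is bounded uniformly in δ, s and continuous in s;  consequence: the integrated inequality (B1).
  β_δ(s) = mo_be m K F G ε δ π u₀ s = ∫ (G - εK) Γ(J u_s) (J ρ~_s) e dm.
SKETCHES.
* `mo_be_bound`:  |G - εK| ≤ B_G + ε|K|;  0 ≤ J ρ~_s ≤ M (`Wt.mo_Jrt_bounds`);  Γ(J u_s) ≥ 0 a.e.;  ∫ Γ(J u_s) e ≤ ∫ Γ(u_s) e (`hJ.en'`) ≤ (2L)² exp(B_F/ε) m(closedBall o R') (`HJ.mo_u_gamma_le`, `HJ.mo_u_unif`, Γ(u_s) = 0 a.e. off the support).   NOTE: do NOT use `hJ.grad` here (its constant depends on δ).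
* `mo_gammaJ_cont`:  |Γ(f) - Γ(g)| = |Γ(f - g, f + g)| ≤ |D(f-g)| |D(f+g)|;  Cauchy-Schwarz;  energy(J u_{s'} - J u_s) = energy(J(u_{s'} - u_s)) ≤ exp(B_F/ε)/(δ ε) ∫ (u_{s'} - u_s)² e (`hJ.sub`, `gc_wg_congr`, `hJ.en`, `Wt.mo_wt_bounds`) ≤ C |s' - s|² (`hl1_time`, common support).
     Alternatively `gc_gamma_L1Lim` with the filter 𝓝[Icc 0 1] s and `gc_W12Lim` of s' ↦ J u_{s'}.
* `mo_Jrt_cont`:  ∫ ψ (J ρ~_s) e dm = ∫ J ψ dμ_s (`Wt.mo_int_J`), then `Speed.mo_cont` with J ψ ∈ L².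
* `mo_be_cont`:  β(s') - β(s) = ∫ (G-εK)[Γ(Ju_{s'}) - Γ(Ju_s)] (Jρ~_{s'}) e + ∫ ψ (Jρ~_{s'} - Jρ~_s) e,  ψ = (G-εK) Γ(J u_s) ∈ L² (bounded by `hJ.grad`, integrable).   First term: `mo_gammaJ_cont` and the uniform bounds.   Second: `mo_Jrt_cont`.
* `mo_Th_incr`:  `Real.mo_real_comparison` with Θ = mo_Th …, g = fun s => W²/2 + δ β_δ(s)  (`S12.mo_Th_cont`, `S12.mo_Th_slope`, `mo_be_cont`), then `intervalIntegral.integral_add`, `integral_const`, `integral_const_mul`.
-/
import Claimed.Agent.R210.MO.S12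
import Claimed.Agent.R210.MO.Real

set_option autoImplicit false
set_option linter.unusedSectionVars false

open Claims.C0366 Claims.C0366.WeakHessian
open Set Filter MeasureTheory
open scoped ENNReal NNReal Topology

namespace Claimed.Agent.R210.MO.S3

open Claimed.Agent.R210.Defs Claimed.Agent.R210.Defs2 Claimed.Agent.R210.GC.Defs Claimed.Agent.R210.MO.Defs

variable {X : Type*} [MetricSpace X] [MeasurableSpace X] [BorelSpace X]
  [CompleteSpace X] [TopologicalSpace.SeparableSpace X] [ProperSpace X]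
  {m μ₀ μ₁ : Measure X} {π : Measure (Curve X)} {C : ℝ≥0} {y : X} {K N κ ϱ τ ε δ : ℝ} {F G u₀ : X → ℝ}

theorem mo_be_bound (h : mo_Ctx m K N F G κ y ϱ τ μ₀ μ₁ π C u₀) (hε : 0 < ε) :
    ∃ Cβ : ℝ, ∀ δ : ℝ, mo_JOK m K F G ε δ → ∀ s ∈ Icc (0 : ℝ) 1, |mo_be m K F G ε δ π u₀ s| ≤ Cβ := by
  have hS := h.std
  have hfin := hS.finite
  obtain ⟨BG, hBG⟩ := h.G_bdd
  obtain ⟨BF, hBF⟩ := h.F_lipB.2
  obtain ⟨M, hM0, hM⟩ := Wt.mo_Jrt_bounds (K := K) (G := G) hfin h.plan h.F_lipB hε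
  obtain ⟨L, B, S, hSc, hL, hU⟩ := HJ.mo_u_unif h.u_lipC
  have hSm : MeasurableSet S := hSc.measurableSet
  have hSfin : m S < ∞ := hfin S hSc.isBounded
  set cE : ℝ := (2 * (L : ℝ)) ^ 2 * Real.exp (BF / ε) with hcE
  have hcE0 : 0 ≤ cE := by positivity
  set cG : ℝ := (|BG| + ε * |K|) * M with hcG
  have hcG0 : 0 ≤ cG := by positivity
  refine ⟨cG * (cE * (m S).toReal), ?_⟩
  intro δ hJ s hs
  have hus : Sobolev m (hopfLax s u₀) := HJ.mo_u_sob hfin h.u_lipC s
  have hJus : Sobolev m (resW m F ε δ (hopfLax s u₀)) := hJ.sob _ hus.1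
  have hwtm := Wt.mo_wt_measurable h.F_lipB ε
  have hwtb : AEBdd m (wt F ε) (Real.exp (BF / ε)) := Eventually.of_forall fun x => by
    rw [abs_of_pos (Wt.mo_wt_pos F ε x)]
    exact (Wt.mo_wt_bounds hBF hε x).2
  have hI1 : Integrable (fun x => gamma m (resW m F ε δ (hopfLax s u₀)) (resW m F ε δ (hopfLax s u₀)) x
      * wt F ε x) m :=
    (GC.Gam.gc_mul_gamma_integrable hS hJus hJus hwtm.aestronglyMeasurable hwtb).congr
      (Eventually.of_forall fun x => mul_comm _ _)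
  have hI2 : Integrable (fun x => gamma m (hopfLax s u₀) (hopfLax s u₀) x * wt F ε x) m :=
    (GC.Gam.gc_mul_gamma_integrable hS hus hus hwtm.aestronglyMeasurable hwtb).congr
      (Eventually.of_forall fun x => mul_comm _ _)
  have hE1 := hJ.en' _ hus
  have hE2 : ∫ x, gamma m (hopfLax s u₀) (hopfLax s u₀) x * wt F ε x ∂m ≤ cE * (m S).toReal := by
    have hI3 : Integrable (S.indicator fun _ : X => cE) m :=
      (integrable_indicator_iff hSm).2 (integrableOn_const hSfin.ne)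
    calc ∫ x, gamma m (hopfLax s u₀) (hopfLax s u₀) x * wt F ε x ∂m
        ≤ ∫ x, S.indicator (fun _ : X => cE) x ∂m := by
          apply integral_mono_ae hI2 hI3
          filter_upwards [HJ.mo_u_gamma_le hfin hL s,
            GC.Gam.gc_gamma_zero_on_level_left hS hus.2.1 hus.2.1 0] with x hx1 hx2
          by_cases hxS : x ∈ S
          · rw [indicator_of_mem hxS]
            exact mul_le_mul hx1.2 (Wt.mo_wt_bounds hBF hε x).2 (Wt.mo_wt_pos F ε x).le (by positivity)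
          · rw [indicator_of_notMem hxS]
            have hx0 : hopfLax s u₀ x = 0 := by
              by_contra hne
              exact hxS ((hU s (by linarith [hs.2])).2.2 hne)
            rw [hx2 hx0, zero_mul]
      _ = cE * (m S).toReal := by
          rw [integral_indicator_const _ hSm]
          simp [Measure.real, mul_comm]
  have hmain : ‖∫ x, (G x - ε * K) * gamma m (resW m F ε δ (hopfLax s u₀)) (resW m F ε δ (hopfLax s u₀)) x
      * resW m F ε δ (mo_rt m F ε π s) x * wt F ε x ∂m‖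
      ≤ ∫ x, cG * (gamma m (resW m F ε δ (hopfLax s u₀)) (resW m F ε δ (hopfLax s u₀)) x * wt F ε x) ∂m := by
    apply norm_integral_le_of_norm_le (hI1.const_mul cG)
    filter_upwards [hM δ hJ s, GC.Gam.gc_gamma_self_nonneg hfin hJus.2.1] with x hx1 hx2
    have hw := (Wt.mo_wt_pos F ε x).le
    have hg : |G x - ε * K| ≤ |BG| + ε * |K| := by
      calc |G x - ε * K| ≤ |G x| + |ε * K| := abs_sub _ _
        _ ≤ |BG| + ε * |K| := by
          rw [abs_mul, abs_of_pos hε]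
          exact add_le_add_left ((hBG x).trans (le_abs_self _)) _
    rw [Real.norm_eq_abs, abs_mul, abs_mul, abs_mul, abs_of_nonneg hx2, abs_of_nonneg hx1.1, abs_of_nonneg hw]
    calc |G x - ε * K| * gamma m (resW m F ε δ (hopfLax s u₀)) (resW m F ε δ (hopfLax s u₀)) x
          * resW m F ε δ (mo_rt m F ε π s) x * wt F ε x
        = (|G x - ε * K| * resW m F ε δ (mo_rt m F ε π s) x)
          * (gamma m (resW m F ε δ (hopfLax s u₀)) (resW m F ε δ (hopfLax s u₀)) x * wt F ε x) := by ring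
      _ ≤ cG * (gamma m (resW m F ε δ (hopfLax s u₀)) (resW m F ε δ (hopfLax s u₀)) x * wt F ε x) := by
          apply mul_le_mul_of_nonneg_right _ (mul_nonneg hx2 hw)
          exact mul_le_mul hg hx1.2 hx1.1 (by positivity)
  rw [Real.norm_eq_abs, integral_const_mul] at hmain
  unfold mo_be
  exact hmain.trans (mul_le_mul_of_nonneg_left (hE1.trans hE2) hcG0)

/-- the estimate behind `gc_gamma_L1Lim`, for a fixed pair -/
theorem mo_aux_gamma_diff (hS : Std m K N) {a b : X → ℝ} (ha : Sobolev m a) (hb : Sobolev m b) :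
    ∫ x, |gamma m a a x - gamma m b b x| ∂m
      ≤ Real.sqrt (energy m (fun x => a x - b x))
          * (Real.sqrt (energy m (fun x => a x - b x)) + 2 * Real.sqrt (energy m b)) := by
  have hd : Sobolev m (fun x => a x - b x) := GC.WG.gc_sob_sub hS.finite ha hb
  have hsplit : (fun x => gamma m a a x - gamma m b b x)
      =ᵐ[m] (fun x => gamma m (fun x => a x - b x) a x + gamma m b (fun x => a x - b x) x) := by
    filter_upwards [GC.Gam.gc_gamma_sub_left hS ha.2.1 hb.2.1 ha.2.1,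
      GC.Gam.gc_gamma_sub_right hS hb.2.1 ha.2.1 hb.2.1] with x h1 h2
    rw [h1, h2]
    ring
  have hs0 := Real.sqrt_nonneg (energy m (fun x => a x - b x))
  have hs1 := Real.sqrt_nonneg (energy m b)
  have h1 : eLpNorm (fun x => gamma m a a x - gamma m b b x) 1 m
      ≤ ENNReal.ofReal (Real.sqrt (energy m (fun x => a x - b x))
          * (Real.sqrt (energy m (fun x => a x - b x)) + 2 * Real.sqrt (energy m b))) := by
    rw [eLpNorm_congr_ae hsplit]
    refine (eLpNorm_add_le (GC.Gam.gc_gamma_aesm _ _) (GC.Gam.gc_gamma_aesm _ _) le_rfl).trans ?_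
    have e : Real.sqrt (energy m (fun x => a x - b x))
          * (Real.sqrt (energy m (fun x => a x - b x)) + 2 * Real.sqrt (energy m b))
        = Real.sqrt (energy m (fun x => a x - b x))
            * (Real.sqrt (energy m (fun x => a x - b x)) + Real.sqrt (energy m b))
          + Real.sqrt (energy m b) * Real.sqrt (energy m (fun x => a x - b x)) := by ring
    rw [e, ENNReal.ofReal_add (by positivity) (by positivity)]
    refine add_le_add ((GC.Conv.gc_aux_gamma_L1 hS hd ha).trans ?_) (GC.Conv.gc_aux_gamma_L1 hS hb hd)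
    exact ENNReal.ofReal_le_ofReal
      (mul_le_mul_of_nonneg_left (GC.Conv.gc_aux_sqrt_energy_le hS ha hb) hs0)
  have hmeas : AEStronglyMeasurable (fun x => gamma m a a x - gamma m b b x) m :=
    (GC.Gam.gc_gamma_aesm _ _).sub (GC.Gam.gc_gamma_aesm _ _)
  have e2 : ∫ x, |gamma m a a x - gamma m b b x| ∂m
      = (eLpNorm (fun x => gamma m a a x - gamma m b b x) 1 m).toReal := by
    rw [eLpNorm_one_eq_lintegral_enorm]
    exact integral_norm_eq_lintegral_enorm hmeas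
  rw [e2]
  exact ENNReal.toReal_le_of_le_ofReal (by positivity) h1

/-- energy of `J f - J g` in terms of the `L²` distance of `f`, `g` -/
theorem mo_aux_energy_J (hS : Std m K N) (hF : LipB F) {B : ℝ} (hB : ∀ x, |F x| ≤ B) (hε : 0 < ε) (hδ : 0 < δ)
    (hJ : mo_JOK m K F G ε δ) {f g : X → ℝ} (hf : MemLp f 2 m) (hg : MemLp g 2 m) :
    energy m (fun x => resW m F ε δ f x - resW m F ε δ g x)
      ≤ Real.exp (2 * (B / ε)) / (δ * ε) * ∫ x, (f x - g x) ^ 2 ∂m := by
  have hd : MemLp (fun x => f x - g x) 2 m := hf.sub hg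
  have hsob : Sobolev m (resW m F ε δ (fun x => f x - g x)) := hJ.sob _ hd
  have e1 : energy m (fun x => resW m F ε δ f x - resW m F ε δ g x)
      = ∫ x, gamma m (resW m F ε δ (fun x => f x - g x)) (resW m F ε δ (fun x => f x - g x)) x ∂m := by
    unfold energy
    rw [← GC.WG.gc_wg_congr (hJ.sub f g hf hg)]
    refine integral_congr_ae ?_
    filter_upwards [GC.Gam.gc_gamma_self hS.finite hsob.2.1] with x hx
    exact hx.symm
  set Γd : X → ℝ := gamma m (resW m F ε δ (fun x => f x - g x)) (resW m F ε δ (fun x => f x - g x)) with hΓd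
  have hΓint : Integrable Γd m := GC.Gam.gc_gamma_integrable hS hsob hsob
  have hΓ0 : ∀ᵐ x ∂m, 0 ≤ Γd x := GC.Gam.gc_gamma_self_nonneg hS.finite hsob.2.1
  have hwm : AEStronglyMeasurable (wt F ε) m := (Wt.mo_wt_measurable hF ε).aestronglyMeasurable
  have hΓe : Integrable (fun x => Γd x * wt F ε x) m := by
    refine hΓint.mul_bdd (c := Real.exp (B / ε)) hwm (Eventually.of_forall fun x => ?_)
    rw [Real.norm_eq_abs, abs_of_pos (Wt.mo_wt_pos F ε x)]
    exact (Wt.mo_wt_bounds hB hε x).2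
  have hen := hJ.en _ hd
  have hEp : 0 < Real.exp (B / ε) := Real.exp_pos _
  -- lower bound
  have h1 : ∫ x, Γd x ∂m ≤ Real.exp (B / ε) * ∫ x, Γd x * wt F ε x ∂m := by
    rw [← integral_const_mul]
    refine integral_mono_ae hΓint (hΓe.const_mul _) ?_
    filter_upwards [hΓ0] with x hx
    have h2 : 1 ≤ Real.exp (B / ε) * wt F ε x := by
      calc (1 : ℝ) = Real.exp (B / ε) * Real.exp (-(B / ε)) := by rw [← Real.exp_add]; simp
        _ ≤ Real.exp (B / ε) * wt F ε x :=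
          mul_le_mul_of_nonneg_left (Wt.mo_wt_bounds hB hε x).1 hEp.le
    show Γd x ≤ Real.exp (B / ε) * (Γd x * wt F ε x)
    nlinarith
  -- upper bound
  have hsq : Integrable (fun x => (f x - g x) ^ 2) m := hd.integrable_sq
  have h3 : ∫ x, (f x - g x) ^ 2 * wt F ε x ∂m ≤ Real.exp (B / ε) * ∫ x, (f x - g x) ^ 2 ∂m := by
    rw [← integral_const_mul]
    refine integral_mono_of_nonneg (Eventually.of_forall fun x =>
      mul_nonneg (sq_nonneg _) (Wt.mo_wt_pos F ε x).le) (hsq.const_mul _) (Eventually.of_forall fun x => ?_)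
    show (f x - g x) ^ 2 * wt F ε x ≤ Real.exp (B / ε) * (f x - g x) ^ 2
    rw [mul_comm]
    exact mul_le_mul_of_nonneg_right (Wt.mo_wt_bounds hB hε x).2 (sq_nonneg _)
  have hδε : 0 < δ * ε := mul_pos hδ hε
  have h4 : ∫ x, Γd x * wt F ε x ∂m ≤ (Real.exp (B / ε) * ∫ x, (f x - g x) ^ 2 ∂m) / (δ * ε) := by
    rw [le_div_iff₀ hδε, mul_comm]
    exact hen.trans h3
  rw [e1]
  calc ∫ x, Γd x ∂m ≤ Real.exp (B / ε) * ∫ x, Γd x * wt F ε x ∂m := h1
    _ ≤ Real.exp (B / ε) * ((Real.exp (B / ε) * ∫ x, (f x - g x) ^ 2 ∂m) / (δ * ε)) :=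
      mul_le_mul_of_nonneg_left h4 hEp.le
    _ = Real.exp (2 * (B / ε)) / (δ * ε) * ∫ x, (f x - g x) ^ 2 ∂m := by
      rw [two_mul, Real.exp_add]
      ring

/-- `∫ (u_{s'} - u_s)² ≤ (2 L² |s' - s|)² m(S)` -/
theorem mo_aux_int_sq_time (hfin : FiniteOnBoundedSets m) {L : ℝ≥0} (hL : LipschitzWith L u₀) {S : Set X}
    (hS : IsCompact S) {s s' : ℝ} (h1 : Function.support (hopfLax s u₀) ⊆ S)
    (h2 : Function.support (hopfLax s' u₀) ⊆ S) :
    ∫ x, (hopfLax s' u₀ x - hopfLax s u₀ x) ^ 2 ∂m ≤ (2 * (L : ℝ) ^ 2) ^ 2 * (m S).toReal * |s' - s| ^ 2 := by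
  have hSfin : m S < ∞ := hfin S hS.isBounded
  have hSm : MeasurableSet S := hS.measurableSet
  have hint : Integrable (S.indicator fun _ : X => (2 * (L : ℝ) ^ 2 * |s' - s|) ^ 2) m := by
    rw [integrable_indicator_iff hSm]
    exact integrableOn_const hSfin.ne
  have hle : ∫ x, (hopfLax s' u₀ x - hopfLax s u₀ x) ^ 2 ∂m
      ≤ ∫ x, S.indicator (fun _ : X => (2 * (L : ℝ) ^ 2 * |s' - s|) ^ 2) x ∂m := by
    refine integral_mono_of_nonneg (Eventually.of_forall fun x => sq_nonneg _) hint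
      (Eventually.of_forall fun x => ?_)
    show (hopfLax s' u₀ x - hopfLax s u₀ x) ^ 2 ≤ S.indicator (fun _ : X => (2 * (L : ℝ) ^ 2 * |s' - s|) ^ 2) x
    by_cases hx : x ∈ S
    · rw [Set.indicator_of_mem hx, ← sq_abs]
      exact pow_le_pow_left₀ (abs_nonneg _) (HL.Ifc.hl1_time hL s' s x) 2
    · rw [Set.indicator_of_notMem hx]
      have e1 : hopfLax s u₀ x = 0 := by
        by_contra hne
        exact hx (h1 hne)
      have e2 : hopfLax s' u₀ x = 0 := by
        by_contra hne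
        exact hx (h2 hne)
      rw [e1, e2]
      simp
  refine hle.trans (le_of_eq ?_)
  rw [integral_indicator_const _ hSm, Measure.real, smul_eq_mul]
  ring

/-- `s ↦ Γ(J u_s)` is continuous in `L¹(m)` -/
theorem mo_gammaJ_cont (h : mo_Ctx m K N F G κ y ϱ τ μ₀ μ₁ π C u₀) (hε : 0 < ε) (hδ : 0 < δ)
    (hJ : mo_JOK m K F G ε δ) {s : ℝ} (hs : s ∈ Icc (0 : ℝ) 1) :
    Tendsto (fun s' => ∫ x, |gamma m (resW m F ε δ (hopfLax s' u₀)) (resW m F ε δ (hopfLax s' u₀)) x
      - gamma m (resW m F ε δ (hopfLax s u₀)) (resW m F ε δ (hopfLax s u₀)) x| ∂m)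
      (𝓝[Icc (0 : ℝ) 1] s) (𝓝 0) := by
  have hS := h.std
  have hfin := hS.finite
  obtain ⟨B, hB⟩ := h.F_lipB.2
  obtain ⟨L, Bu, S, hSc, hL, hun⟩ := HJ.mo_u_unif h.u_lipC
  have hmem : ∀ r, MemLp (hopfLax r u₀) 2 m := fun r => HJ.mo_u_memLp hfin h.u_lipC r
  have hsob : ∀ r, Sobolev m (resW m F ε δ (hopfLax r u₀)) := fun r => hJ.sob _ (hmem r)
  set c0 : ℝ := Real.exp (2 * (B / ε)) / (δ * ε) * ((2 * (L : ℝ) ^ 2) ^ 2 * (m S).toReal) with hc0def
  have hc0 : 0 ≤ c0 := by positivity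
  set Eb : ℝ := Real.sqrt (energy m (resW m F ε δ (hopfLax s u₀))) with hEb
  have hE : ∀ s' ∈ Icc (0 : ℝ) 1,
      Real.sqrt (energy m (fun x => resW m F ε δ (hopfLax s' u₀) x - resW m F ε δ (hopfLax s u₀) x))
        ≤ Real.sqrt c0 * |s' - s| := by
    intro s' hs'
    have h1 := mo_aux_energy_J hS h.F_lipB hB hε hδ hJ (hmem s') (hmem s)
    have h2 := mo_aux_int_sq_time hfin hL hSc (hun s (by linarith [hs.2])).2.2
      (hun s' (by linarith [hs'.2])).2.2
    have hpos : 0 ≤ Real.exp (2 * (B / ε)) / (δ * ε) := by positivity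
    have h3 : energy m (fun x => resW m F ε δ (hopfLax s' u₀) x - resW m F ε δ (hopfLax s u₀) x)
        ≤ c0 * |s' - s| ^ 2 := by
      refine h1.trans ((mul_le_mul_of_nonneg_left h2 hpos).trans (le_of_eq ?_))
      rw [hc0def]
      ring
    calc Real.sqrt (energy m (fun x => resW m F ε δ (hopfLax s' u₀) x - resW m F ε δ (hopfLax s u₀) x))
        ≤ Real.sqrt (c0 * |s' - s| ^ 2) := Real.sqrt_le_sqrt h3
      _ = Real.sqrt c0 * |s' - s| := by
        rw [Real.sqrt_mul hc0, Real.sqrt_sq (abs_nonneg _)]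
  have hq : Tendsto (fun s' : ℝ => Real.sqrt c0 * |s' - s|) (𝓝[Icc (0 : ℝ) 1] s) (𝓝 0) := by
    have hc : Continuous fun s' : ℝ => Real.sqrt c0 * |s' - s| := by fun_prop
    have := (hc.tendsto s).mono_left (nhdsWithin_le_nhds (s := Icc (0 : ℝ) 1))
    simpa using this
  have hlim : Tendsto (fun s' : ℝ => (Real.sqrt c0 * |s' - s|) * (Real.sqrt c0 * |s' - s| + 2 * Eb))
      (𝓝[Icc (0 : ℝ) 1] s) (𝓝 0) := by
    have := hq.mul (hq.add_const (2 * Eb))
    simpa using this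
  refine squeeze_zero' (Eventually.of_forall fun s' => integral_nonneg fun x => abs_nonneg _) ?_ hlim
  filter_upwards [self_mem_nhdsWithin] with s' hs'
  refine (mo_aux_gamma_diff hS (hsob s') (hsob s)).trans ?_
  have h0 := Real.sqrt_nonneg
    (energy m (fun x => resW m F ε δ (hopfLax s' u₀) x - resW m F ε δ (hopfLax s u₀) x))
  have hEb0 : 0 ≤ Eb := Real.sqrt_nonneg _
  have h1 := hE s' hs'
  exact mul_le_mul h1 (by linarith) (by positivity) (h0.trans h1)

/-- `s ↦ J ρ~_s` is weakly continuous in `L²` -/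
theorem mo_Jrt_cont (h : mo_Ctx m K N F G κ y ϱ τ μ₀ μ₁ π C u₀) (hε : 0 < ε)
    (hJ : mo_JOK m K F G ε δ) {ψ : X → ℝ} (hψ : MemLp ψ 2 m) :
    ContinuousOn (fun s => ∫ x, ψ x * resW m F ε δ (mo_rt m F ε π s) x * wt F ε x ∂m) (Icc (0 : ℝ) 1) := by
  have hfin := h.std.finite
  have e : (fun s => ∫ x, ψ x * resW m F ε δ (mo_rt m F ε π s) x * wt F ε x ∂m)
      = fun s => ∫ x, resW m F ε δ ψ x ∂(mo_mu π s) := by
    funext s
    exact (Wt.mo_int_J hfin h.plan h.F_lipB hε hJ hψ s).symm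
  rw [e]
  exact Speed.mo_cont hfin h.plan h.track
    (Plan.mo_integrableOn_of_memLp hfin (hJ.memLp _ hψ) y (2 * ϱ))

/-- **(S3)** -/
theorem mo_be_cont (h : mo_Ctx m K N F G κ y ϱ τ μ₀ μ₁ π C u₀) (hε : 0 < ε) (hδ : 0 < δ)
    (hJ : mo_JOK m K F G ε δ) : ContinuousOn (mo_be m K F G ε δ π u₀) (Icc (0 : ℝ) 1) := by
  intro s hs
  have hS := h.std
  have hfin := hS.finite
  have hπ := h.plan
  have hF := h.F_lipB
  -- constants
  obtain ⟨BG, hBG⟩ := h.G_bdd
  obtain ⟨BF, hBF⟩ := hF.2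
  obtain ⟨M, hM0, hM⟩ := Wt.mo_Jrt_bounds (K := K) (G := G) hfin hπ hF hε
  obtain ⟨L, B, S, -, -, hun⟩ := HJ.mo_u_unif h.u_lipC
  obtain ⟨A, hA⟩ := hJ.grad B
  set Ba : ℝ := |BG| + |ε * K| with hBa
  set Cst : ℝ := Ba * M * Real.exp (BF / ε) with hCst
  have hBa0 : 0 ≤ Ba := by positivity
  have hCst0 : 0 ≤ Cst := by positivity
  have hsob : ∀ t : ℝ, Sobolev m (resW m F ε δ (hopfLax t u₀)) := fun t =>
    hJ.sob _ (HJ.mo_u_memLp hfin h.u_lipC t)
  have hΓint : ∀ t : ℝ, Integrable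
      (gamma m (resW m F ε δ (hopfLax t u₀)) (resW m F ε δ (hopfLax t u₀))) m := fun t =>
    Claimed.Agent.R210.GC.Gam.gc_gamma_integrable hS (hsob t) (hsob t)
  have hameas : Measurable (fun x => G x - ε * K) := (h.G_cont.sub continuous_const).measurable
  have habd : ∀ x, |G x - ε * K| ≤ Ba := fun x =>
    (abs_sub _ _).trans (add_le_add ((hBG x).trans (le_abs_self _)) le_rfl)
  -- the weight `w_t = (G - εK) (J ρ~_t) e`
  have hwmeas : ∀ t : ℝ, AEStronglyMeasurable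
      (fun x => (G x - ε * K) * resW m F ε δ (mo_rt m F ε π t) x * wt F ε x) m := fun t =>
    (hameas.aestronglyMeasurable.mul (hJ.memLp _ (Wt.mo_rt_memLp hfin hπ hF hε t)).1).mul
      (Wt.mo_wt_measurable hF ε).aestronglyMeasurable
  have hwbd : ∀ t : ℝ, AEBdd m
      (fun x => (G x - ε * K) * resW m F ε δ (mo_rt m F ε π t) x * wt F ε x) Cst := by
    intro t
    filter_upwards [hM δ hJ t] with x hx
    rw [abs_mul, abs_mul, abs_of_nonneg hx.1, abs_of_pos (Wt.mo_wt_pos F ε x)]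
    exact mul_le_mul (mul_le_mul (habd x) hx.2 hx.1 hBa0) (Wt.mo_wt_bounds hBF hε x).2
      (Wt.mo_wt_pos F ε x).le (by positivity)
  have hwΓ : ∀ t t' : ℝ, Integrable (fun x => ((G x - ε * K) * resW m F ε δ (mo_rt m F ε π t) x
      * wt F ε x) * gamma m (resW m F ε δ (hopfLax t' u₀)) (resW m F ε δ (hopfLax t' u₀)) x) m :=
    fun t t' => Claimed.Agent.R210.GC.Gam.gc_mul_gamma_integrable hS (hsob t') (hsob t') (hwmeas t) (hwbd t)
  -- `ψ = (G - εK) Γ(J u_s) ∈ L²`
  have hs2 : s ≤ 2 := hs.2.trans (by norm_num)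
  have hΓL2 : MemLp (gamma m (resW m F ε δ (hopfLax s u₀)) (resW m F ε δ (hopfLax s u₀))) 2 m :=
    Claimed.Agent.R210.GC.Gam.gc_gamma_memLp_two hS (hsob s) (hsob s).2.1
      (hA _ (HJ.mo_u_memLp hfin h.u_lipC s) (Eventually.of_forall (hun s hs2).2.1))
  have hψ : MemLp (fun x => (G x - ε * K)
      * gamma m (resW m F ε δ (hopfLax s u₀)) (resW m F ε δ (hopfLax s u₀)) x) 2 m := by
    refine hΓL2.of_le_mul (c := Ba) (hameas.aestronglyMeasurable.mul hΓL2.1)
      (Eventually.of_forall fun x => ?_)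
    rw [norm_mul, Real.norm_eq_abs]
    exact mul_le_mul_of_nonneg_right (habd x) (norm_nonneg _)
  have hsecond := (mo_Jrt_cont h hε hJ hψ) s hs
  have hfirst := mo_gammaJ_cont h hε hδ hJ hs
  -- decomposition
  have hdecomp : ∀ t : ℝ, mo_be m K F G ε δ π u₀ t
      = ∫ x, ((G x - ε * K) * resW m F ε δ (mo_rt m F ε π t) x * wt F ε x)
          * (gamma m (resW m F ε δ (hopfLax t u₀)) (resW m F ε δ (hopfLax t u₀)) x
            - gamma m (resW m F ε δ (hopfLax s u₀)) (resW m F ε δ (hopfLax s u₀)) x) ∂m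
        + ∫ x, (G x - ε * K) * gamma m (resW m F ε δ (hopfLax s u₀)) (resW m F ε δ (hopfLax s u₀)) x
          * resW m F ε δ (mo_rt m F ε π t) x * wt F ε x ∂m := by
    intro t
    have e1 : ∫ x, ((G x - ε * K) * resW m F ε δ (mo_rt m F ε π t) x * wt F ε x)
          * (gamma m (resW m F ε δ (hopfLax t u₀)) (resW m F ε δ (hopfLax t u₀)) x
            - gamma m (resW m F ε δ (hopfLax s u₀)) (resW m F ε δ (hopfLax s u₀)) x) ∂m
        = ∫ x, ((G x - ε * K) * resW m F ε δ (mo_rt m F ε π t) x * wt F ε x)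
            * gamma m (resW m F ε δ (hopfLax t u₀)) (resW m F ε δ (hopfLax t u₀)) x ∂m
          - ∫ x, ((G x - ε * K) * resW m F ε δ (mo_rt m F ε π t) x * wt F ε x)
            * gamma m (resW m F ε δ (hopfLax s u₀)) (resW m F ε δ (hopfLax s u₀)) x ∂m := by
      rw [← integral_sub (hwΓ t t) (hwΓ t s)]
      refine integral_congr_ae (Eventually.of_forall fun x => ?_)
      simp only []
      ring
    have e2 : ∫ x, (G x - ε * K) * gamma m (resW m F ε δ (hopfLax s u₀)) (resW m F ε δ (hopfLax s u₀)) x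
          * resW m F ε δ (mo_rt m F ε π t) x * wt F ε x ∂m
        = ∫ x, ((G x - ε * K) * resW m F ε δ (mo_rt m F ε π t) x * wt F ε x)
            * gamma m (resW m F ε δ (hopfLax s u₀)) (resW m F ε δ (hopfLax s u₀)) x ∂m := by
      refine integral_congr_ae (Eventually.of_forall fun x => ?_)
      simp only []
      ring
    have e3 : mo_be m K F G ε δ π u₀ t
        = ∫ x, ((G x - ε * K) * resW m F ε δ (mo_rt m F ε π t) x * wt F ε x)
            * gamma m (resW m F ε δ (hopfLax t u₀)) (resW m F ε δ (hopfLax t u₀)) x ∂m := by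
      unfold mo_be
      refine integral_congr_ae (Eventually.of_forall fun x => ?_)
      simp only []
      ring
    rw [e1, e2, e3]
    ring
  -- the first term tends to `0`
  have hT1 : Tendsto (fun t => ∫ x, ((G x - ε * K) * resW m F ε δ (mo_rt m F ε π t) x * wt F ε x)
          * (gamma m (resW m F ε δ (hopfLax t u₀)) (resW m F ε δ (hopfLax t u₀)) x
            - gamma m (resW m F ε δ (hopfLax s u₀)) (resW m F ε δ (hopfLax s u₀)) x) ∂m)
      (𝓝[Icc (0 : ℝ) 1] s) (𝓝 0) := by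
    have hb : Tendsto (fun t => Cst * ∫ x, |gamma m (resW m F ε δ (hopfLax t u₀)) (resW m F ε δ (hopfLax t u₀)) x
      - gamma m (resW m F ε δ (hopfLax s u₀)) (resW m F ε δ (hopfLax s u₀)) x| ∂m)
      (𝓝[Icc (0 : ℝ) 1] s) (𝓝 0) := by
      simpa using hfirst.const_mul Cst
    refine squeeze_zero_norm (fun t => ?_) hb
    rw [← integral_const_mul]
    refine norm_integral_le_of_norm_le (((hΓint t).sub (hΓint s)).abs.const_mul Cst) ?_
    filter_upwards [hwbd t] with x hx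
    rw [norm_mul, Real.norm_eq_abs, Real.norm_eq_abs]
    exact mul_le_mul_of_nonneg_right hx (abs_nonneg _)
  have hsum := hT1.add hsecond
  have hval : mo_be m K F G ε δ π u₀ s = 0 + ∫ x, (G x - ε * K)
      * gamma m (resW m F ε δ (hopfLax s u₀)) (resW m F ε δ (hopfLax s u₀)) x
          * resW m F ε δ (mo_rt m F ε π s) x * wt F ε x ∂m := by
    rw [zero_add]; rfl
  unfold ContinuousWithinAt
  rw [hval]
  exact hsum.congr (fun t => (hdecomp t).symm)

/-- **(B1)** -/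
theorem mo_Th_incr (h : mo_Ctx m K N F G κ y ϱ τ μ₀ μ₁ π C u₀) (hε : 0 < ε) (hδ : 0 < δ)
    (hJ : mo_JOK m K F G ε δ) :
    mo_Th m F ε δ π u₀ 1 - mo_Th m F ε δ π u₀ 0
      ≤ W2sqR μ₀ μ₁ / 2 + δ * ∫ s in (0 : ℝ)..1, mo_be m K F G ε δ π u₀ s := by
  have hbc := mo_be_cont h hε hδ hJ
  have hg : ContinuousOn (fun s => W2sqR μ₀ μ₁ / 2 + δ * mo_be m K F G ε δ π u₀ s) (Icc (0 : ℝ) 1) :=
    continuousOn_const.add (continuousOn_const.mul hbc)
  have key := Real.mo_real_comparison (S12.mo_Th_cont h hε hJ) hg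
    (fun s hs η hη => S12.mo_Th_slope h hε hJ hs hη)
  have hint : IntervalIntegrable (mo_be m K F G ε δ π u₀) volume 0 1 := by
    apply ContinuousOn.intervalIntegrable
    rwa [uIcc_of_le zero_le_one]
  rw [intervalIntegral.integral_add intervalIntegrable_const (hint.const_mul δ),
    intervalIntegral.integral_const, intervalIntegral.integral_const_mul] at key
  simpa using key

end Claimed.Agent.R210.MO.S3
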