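/-
Row 210 (S0432), layer MO, architect helper686.   File S45: (S4) the end point identity and its limit, (S5) the limit δ ↓ 0 of β_δ.
SKETCHES.   hfin := h.std.finite, hπ := h.plan, htr := h.track.
* `mo_Th_end` (every s):  Θ_δ(s) = ∫ u_s (J ρ~_s) e dm (`Wt.mo_int_J` with f = u_s),  Θ₀(s) = ∫ u_s ρ~_s e dm (`Wt.mo_int_rt`);  difference = ∫ (J ρ~_s - ρ~_s) u_s e dm = -(δ ε) ∫ Γ(J ρ~_s, u_s) e dm  (`hJ.gen ρ~_s u_s`, `Wt.mo_rt_memLp`, `HJ.mo_u_sob`; `integral_sub` needs integrability: products of L² functions with the bounded e).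
* `mo_end_lim`:  ρ~_s =ᵐ r/e =: f, which is LipC·LipB, hence Sobolev (`gc_sob_mul_lipB (gc_sob_of_lipC hr) (Wt.mo_wt_inv_lipB ..)`, r x / e x = r x * (e x)⁻¹).    resW … ρ~_s =ᵐ resW … f for the δ's with mo_JOK (`hJ.congr`; eventually in 𝓝[>] 0 by `Need.mo_need_wr_ok`), `gc_gamma_congr`.
     `Need.mo_need_wr_lim_W12` + `gc_int_mul_gamma_tendsto` (constant second sequence u_s, weight h = e bounded: `Wt.mo_wt_bounds`); commute the factors (`mul_comm`).
* `mo_be_tendsto`:  write β_δ(s) - β₀(s) = ∫ (G-εK)[Γ(J u_s) - Γ(u_s)] (J ρ~_s) e + ∫ (G-εK) Γ(u_s) (J ρ~_s - ρ~_s) e,  β₀(s) = ∫ (G-εK) Γ(u_s) ρ~_s e dm (`Wt.mo_int_rt`).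
     First: ≤ C M ‖Γ(J u_s) - Γ(u_s)‖_{L¹} → 0 (`Need.mo_need_wr_lim_W12` for u_s, `gc_gamma_L1Lim`; `Wt.mo_Jrt_bounds`).    Second: (G-εK) Γ(u_s) e ∈ L² (`HJ.mo_u_gamma_memLp`), J ρ~_s → ρ~_s in L² (`Need.mo_need_wr_lim_L2`), Cauchy-Schwarz/Hölder.
* `mo_be0_le`:  G ≤ κ on closedBall y (2ϱ) ⊂ ball y (2ϱ+τ), μ_s is concentrated there (`Plan.mo_mu_conc`), Γ(u_s) ≥ 0 μ_s-a.e.;  so β₀(s) ≤ (κ - εK) mo_A s = (κ - εK) W² (`Exact.mo_A_eq`).   (No sign condition on κ - εK: the inequality (G-εK)Γ ≤ (κ-εK)Γ only needs Γ ≥ 0.)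
* `mo_int_be_limsup`:  dominated convergence on [0,1] along 𝓝[>] 0 (`intervalIntegral.tendsto_integral_filter_of_dominated_convergence` with bound Cβ from `S3.mo_be_bound`; measurability: `S3.mo_be_cont` ⟹ `ContinuousOn.aestronglyMeasurable`; eventually mo_JOK);
     limit ∫ β₀;  ∫ β₀ ≤ (κ - εK) W²: β₀ is a.e.-strongly measurable as a limit (`aestronglyMeasurable_of_tendsto_ae`), bounded, so interval integrable; `intervalIntegral.integral_mono_on`/`integral_mono_ae` with `mo_be0_le` on Ioo 0 1 (end points are null).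
-/
import Claimed.Agent.R210.MO.S3
import Claimed.Agent.R210.MO.Exact

set_option autoImplicit false
set_option linter.unusedSectionVars false

open Claims.C0366 Claims.C0366.WeakHessian
open Set Filter MeasureTheory
open scoped ENNReal NNReal Topology

namespace Claimed.Agent.R210.MO.S45

open Claimed.Agent.R210.Defs Claimed.Agent.R210.Defs2 Claimed.Agent.R210.GC.Defs Claimed.Agent.R210.MO.Defs

variable {X : Type*} [MetricSpace X] [MeasurableSpace X] [BorelSpace X]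
  [CompleteSpace X] [TopologicalSpace.SeparableSpace X] [ProperSpace X]
  {m μ₀ μ₁ : Measure X} {π : Measure (Curve X)} {C : ℝ≥0} {y : X} {K N κ ϱ τ ε δ : ℝ} {F G u₀ : X → ℝ}

/-- **(S4)**, every `s` -/
theorem mo_Th_end (h : mo_Ctx m K N F G κ y ϱ τ μ₀ μ₁ π C u₀) (hε : 0 < ε) (hJ : mo_JOK m K F G ε δ) (s : ℝ) :
    mo_Th m F ε δ π u₀ s - mo_Th0 π u₀ s
      = -(δ * ε) * ∫ x, gamma m (resW m F ε δ (mo_rt m F ε π s)) (hopfLax s u₀) x * wt F ε x ∂m := by
  have hfin := h.std.finite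
  have hπ := h.plan
  have hu2 := HJ.mo_u_memLp hfin h.u_lipC s
  have hrt := Wt.mo_rt_memLp hfin hπ h.F_lipB hε s
  unfold mo_Th mo_Th0
  rw [Wt.mo_int_J hfin hπ h.F_lipB hε hJ hu2 s, Wt.mo_int_rt (F := F) (ε := ε) hfin hπ (hopfLax s u₀) s,
    ← integral_sub (S12.mo_aux_termI_integrable h.F_lipB hε hu2 (hJ.memLp _ hrt))
      (S12.mo_aux_termI_integrable h.F_lipB hε hu2 hrt),
    ← hJ.gen _ _ hrt (HJ.mo_u_sob hfin h.u_lipC s)]
  refine integral_congr_ae (Eventually.of_forall fun x => ?_)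
  show hopfLax s u₀ x * resW m F ε δ (mo_rt m F ε π s) x * wt F ε x
      - hopfLax s u₀ x * mo_rt m F ε π s x * wt F ε x
    = (resW m F ε δ (mo_rt m F ε π s) x - mo_rt m F ε π s x) * hopfLax s u₀ x * wt F ε x
  ring

/-- a constant family converges in `W^{1,2}`. -/
theorem mo_aux_W12Lim_const (hfin : FiniteOnBoundedSets m) {ι : Type*} (l : Filter ι) (u : X → ℝ) :
    gc_W12Lim m l (fun _ => u) u := by
  refine ⟨?_, ?_⟩
  · unfold gc_L2Lim
    simp only [sub_self, eLpNorm_zero']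
    exact tendsto_const_nhds
  · have h0 : energy m (fun x => u x - u x) = 0 := by
      unfold energy
      have e : (fun x => u x - u x) = fun _ : X => (0 : ℝ) := funext fun x => sub_self _
      rw [e]
      refine integral_eq_zero_of_ae ?_
      filter_upwards [Claimed.Agent.R210.GC.WG.gc_wg_const hfin (0 : ℝ)] with x hx
      simp [hx]
    simp only [h0]
    exact tendsto_const_nhds

theorem mo_end_lim (h : mo_Ctx m K N F G κ y ϱ τ μ₀ μ₁ π C u₀) (hε0 : 0 < ε) (hε1 : ε ≤ 1) {s : ℝ} {r : X → ℝ}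
    (hr : LipC r) (hrs : mo_rho m π s =ᵐ[m] r) :
    Tendsto (fun δ => ∫ x, gamma m (resW m F ε δ (mo_rt m F ε π s)) (hopfLax s u₀) x * wt F ε x ∂m)
      (𝓝[>] (0 : ℝ)) (𝓝 (∫ x, gamma m (fun z => r z / wt F ε z) (hopfLax s u₀) x * wt F ε x ∂m)) := by
  have hfin := h.std.finite
  have hf : Sobolev m (fun z => r z / wt F ε z) := by
    have := Claimed.Agent.R210.GC.WG.gc_sob_mul_lipB hfin
      (Claimed.Agent.R210.GC.WG.gc_sob_of_lipC hfin hr) (Wt.mo_wt_inv_lipB h.F_lipB hε0)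
    simpa only [div_eq_mul_inv] using this
  have hrt : mo_rt m F ε π s =ᵐ[m] fun z => r z / wt F ε z := by
    filter_upwards [hrs] with x hx
    simp only [mo_rt, hx]
  have hu : Sobolev m (hopfLax s u₀) := HJ.mo_u_sob hfin h.u_lipC s
  have hev := Need.mo_need_wr_ev h.std h.F_lipB h.G_bdd h.G_cont h.hess hε0 hε1
  obtain ⟨B, hB⟩ := Wt.mo_wt_aebdd m h.F_lipB hε0
  have hlim := Claimed.Agent.R210.GC.Conv.gc_int_mul_gamma_tendsto h.std (l := 𝓝[>] (0 : ℝ))
    (fs := fun δ => resW m F ε δ (fun z => r z / wt F ε z)) (gs := fun _ => hopfLax s u₀)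
    (f := fun z => r z / wt F ε z) (g := hopfLax s u₀) (h := wt F ε) (B := B)
    (hev.mono fun δ hδ => hδ.2.sob _ hf.1) (Eventually.of_forall fun _ => hu) hf hu
    (Need.mo_need_wr_lim_W12 h.std h.F_lipB hε0 hf) (mo_aux_W12Lim_const hfin _ _)
    (Wt.mo_wt_continuous h.F_lipB ε).aestronglyMeasurable hB
  have hlim' : Tendsto (fun δ => ∫ x, gamma m (resW m F ε δ (fun z => r z / wt F ε z))
      (hopfLax s u₀) x * wt F ε x ∂m) (𝓝[>] (0 : ℝ))
      (𝓝 (∫ x, gamma m (fun z => r z / wt F ε z) (hopfLax s u₀) x * wt F ε x ∂m)) := by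
    simpa only [mul_comm] using hlim
  refine hlim'.congr' ?_
  filter_upwards [hev] with δ hδ
  rw [Claimed.Agent.R210.GC.Gam.gc_gamma_congr (hδ.2.congr _ _ hrt) (EventuallyEq.refl _ _)]

/-- abstract form of (S5): `u` Sobolev with `Γ(u) ∈ L²`, `r ∈ L²` with `0 ≤ J r ≤ M`. -/
theorem mo_aux_be_tendsto (hS : Std m K N) (hF : LipB F) (hGb : BoundedFunction G) (hGc : Continuous G)
    (hε0 : 0 < ε) {u r : X → ℝ} {M : ℝ} (huS : Sobolev m u) (hΓ2 : MemLp (gamma m u u) 2 m)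
    (hrL : MemLp r 2 m) (hM0 : 0 ≤ M) (hev : ∀ᶠ δ in 𝓝[>] (0 : ℝ), mo_JOK m K F G ε δ)
    (hM : ∀ δ : ℝ, mo_JOK m K F G ε δ → ∀ᵐ x ∂m, 0 ≤ resW m F ε δ r x ∧ resW m F ε δ r x ≤ M) :
    Tendsto (fun δ => ∫ x, (G x - ε * K) * gamma m (resW m F ε δ u) (resW m F ε δ u) x
        * resW m F ε δ r x * wt F ε x ∂m) (𝓝[>] (0 : ℝ))
      (𝓝 (∫ x, (G x - ε * K) * gamma m u u x * r x * wt F ε x ∂m)) := by
  obtain ⟨BG, hBG⟩ := hGb
  obtain ⟨BF, hBF⟩ := hF.2
  obtain ⟨Bw, hBw_def⟩ : ∃ Bw : ℝ, Bw = |BG| + |ε * K| := ⟨_, rfl⟩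
  obtain ⟨Be, hBe_def⟩ : ∃ Be : ℝ, Be = Real.exp (BF / ε) := ⟨_, rfl⟩
  have hw : ∀ x, |G x - ε * K| ≤ Bw := fun x => by
    rw [hBw_def]
    exact (abs_sub _ _).trans (add_le_add ((hBG x).trans (le_abs_self _)) le_rfl)
  have hBw0 : 0 ≤ Bw := by rw [hBw_def]; positivity
  have he : ∀ x, |wt F ε x| ≤ Be := fun x => by
    rw [abs_of_pos (Wt.mo_wt_pos F ε x), hBe_def]
    exact (Wt.mo_wt_bounds hBF hε0 x).2
  have hBe0 : 0 ≤ Be := by rw [hBe_def]; exact (Real.exp_pos _).le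
  have hwm : Measurable fun x => G x - ε * K := hGc.measurable.sub_const _
  have hem : Measurable (wt F ε) := Wt.mo_wt_measurable hF ε
  -- the fixed `L²` function
  obtain ⟨g, hg_def⟩ : ∃ g : X → ℝ, g = fun x => (G x - ε * K) * gamma m u u x * wt F ε x := ⟨_, rfl⟩
  have hgL : MemLp g 2 m := by
    rw [hg_def]
    refine hΓ2.of_le_mul (c := Bw * Be)
      ((hwm.aestronglyMeasurable.mul (GC.Gam.gc_gamma_aesm _ _)).mul hem.aestronglyMeasurable)
      (Eventually.of_forall fun x => ?_)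
    rw [Real.norm_eq_abs, Real.norm_eq_abs]
    simp only [abs_mul]
    calc |G x - ε * K| * |gamma m u u x| * |wt F ε x|
        ≤ Bw * |gamma m u u x| * Be :=
          mul_le_mul (mul_le_mul_of_nonneg_right (hw x) (abs_nonneg _)) (he x) (abs_nonneg _)
            (mul_nonneg hBw0 (abs_nonneg _))
      _ = Bw * Be * |gamma m u u x| := by ring
  -- second term
  have hT2 : Tendsto (fun δ => ∫ x, resW m F ε δ r x * g x ∂m) (𝓝[>] (0 : ℝ)) (𝓝 (∫ x, r x * g x ∂m)) :=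
    GC.Bridge.gc_L2Lim_integral_mul (hev.mono fun δ hδ => hδ.memLp r hrL) hrL hgL
      (Need.mo_need_wr_lim_L2 hS hF hε0 hrL)
  have hb0 : ∫ x, (G x - ε * K) * gamma m u u x * r x * wt F ε x ∂m = ∫ x, r x * g x ∂m := by
    refine integral_congr_ae (Eventually.of_forall fun x => ?_)
    simp only [hg_def]
    ring
  -- first term
  have hW := Need.mo_need_wr_lim_W12 hS hF hε0 huS
  have hJS : ∀ᶠ δ in 𝓝[>] (0 : ℝ), Sobolev m (resW m F ε δ u) := hev.mono fun δ hδ => hδ.sob u huS.1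
  have hL1 := GC.Conv.gc_gamma_L1Lim hS hJS hJS huS huS hW hW
  unfold gc_L1Lim at hL1
  have hreal : Tendsto (fun δ => Bw * M * Be *
      (eLpNorm (fun x => gamma m (resW m F ε δ u) (resW m F ε δ u) x - gamma m u u x) 1 m).toReal)
      (𝓝[>] (0 : ℝ)) (𝓝 0) := by
    have := ((ENNReal.tendsto_toReal ENNReal.zero_ne_top).comp hL1).const_mul (Bw * M * Be)
    simpa using this
  have hT1 : Tendsto (fun δ => (∫ x, (G x - ε * K) * gamma m (resW m F ε δ u) (resW m F ε δ u) x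
        * resW m F ε δ r x * wt F ε x ∂m) - ∫ x, resW m F ε δ r x * g x ∂m)
      (𝓝[>] (0 : ℝ)) (𝓝 0) := by
    refine squeeze_zero_norm' ?_ hreal
    filter_upwards [hev] with δ hJ
    have hJuS : Sobolev m (resW m F ε δ u) := hJ.sob u huS.1
    have hJr : MemLp (resW m F ε δ r) 2 m := hJ.memLp r hrL
    have hi1 := GC.Gam.gc_gamma_integrable hS hJuS hJuS
    have hi2 := GC.Gam.gc_gamma_integrable hS huS huS
    have hd : Integrable (fun x => gamma m (resW m F ε δ u) (resW m F ε δ u) x - gamma m u u x) m :=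
      hi1.sub hi2
    have hbd := hM δ hJ
    have hpt : ∀ φ : X → ℝ, ∀ᵐ x ∂m,
        |(G x - ε * K) * φ x * resW m F ε δ r x * wt F ε x| ≤ Bw * M * Be * |φ x| := by
      intro φ
      filter_upwards [hbd] with x hx
      simp only [abs_mul]
      have h1 : |resW m F ε δ r x| ≤ M := by rw [abs_of_nonneg hx.1]; exact hx.2
      calc |G x - ε * K| * |φ x| * |resW m F ε δ r x| * |wt F ε x|
          ≤ Bw * |φ x| * M * Be :=
            mul_le_mul (mul_le_mul (mul_le_mul_of_nonneg_right (hw x) (abs_nonneg _)) h1 (abs_nonneg _)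
              (mul_nonneg hBw0 (abs_nonneg _))) (he x) (abs_nonneg _)
              (mul_nonneg (mul_nonneg hBw0 (abs_nonneg _)) hM0)
        _ = Bw * M * Be * |φ x| := by ring
    have hint : ∀ φ : X → ℝ, Integrable φ m →
        Integrable (fun x => (G x - ε * K) * φ x * resW m F ε δ r x * wt F ε x) m := by
      intro φ hφ
      refine (hφ.abs.const_mul (Bw * M * Be)).mono'
        (((hwm.aestronglyMeasurable.mul hφ.1).mul hJr.1).mul hem.aestronglyMeasurable) ?_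
      filter_upwards [hpt φ] with x hx
      rwa [Real.norm_eq_abs]
    have e2 : ∫ x, resW m F ε δ r x * g x ∂m
        = ∫ x, (G x - ε * K) * gamma m u u x * resW m F ε δ r x * wt F ε x ∂m := by
      refine integral_congr_ae (Eventually.of_forall fun x => ?_)
      simp only [hg_def]
      ring
    rw [e2, ← integral_sub (hint _ hi1) (hint _ hi2)]
    have e3 : ∀ x, (G x - ε * K) * gamma m (resW m F ε δ u) (resW m F ε δ u) x * resW m F ε δ r x * wt F ε x
        - (G x - ε * K) * gamma m u u x * resW m F ε δ r x * wt F ε x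
        = (G x - ε * K) * (gamma m (resW m F ε δ u) (resW m F ε δ u) x - gamma m u u x)
            * resW m F ε δ r x * wt F ε x := fun x => by ring
    simp only [e3]
    have hnorm : (eLpNorm (fun x => gamma m (resW m F ε δ u) (resW m F ε δ u) x - gamma m u u x) 1 m).toReal
        = ∫ x, |gamma m (resW m F ε δ u) (resW m F ε δ u) x - gamma m u u x| ∂m := by
      rw [eLpNorm_one_eq_lintegral_enorm, integral_eq_lintegral_of_nonneg_ae
        (Filter.Eventually.of_forall fun _ => abs_nonneg _) hd.1.norm]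
      congr 1
      refine lintegral_congr fun x => ?_
      rw [← Real.norm_eq_abs, ofReal_norm]
    rw [hnorm, ← integral_const_mul, Real.norm_eq_abs]
    refine (abs_integral_le_integral_abs).trans ?_
    exact integral_mono_ae (hint _ hd).abs (hd.abs.const_mul _) (hpt _)
  have := hT1.add hT2
  rw [zero_add, ← hb0] at this
  refine this.congr fun δ => ?_
  ring

/-- **(S5)** pointwise limit -/
theorem mo_be_tendsto (h : mo_Ctx m K N F G κ y ϱ τ μ₀ μ₁ π C u₀) (hε0 : 0 < ε) (hε1 : ε ≤ 1) {s : ℝ}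
    (hs : s ∈ Icc (0 : ℝ) 1) :
    Tendsto (fun δ => mo_be m K F G ε δ π u₀ s) (𝓝[>] (0 : ℝ)) (𝓝 (mo_be0 m K G ε π u₀ s)) := by
  have hS := h.std
  have hfin := h.std.finite
  have hπ := h.plan
  have hF := h.F_lipB
  obtain ⟨M, hM0, hM⟩ := Wt.mo_Jrt_bounds (K := K) (G := G) (ε := ε) hfin hπ hF hε0
  have hev := Need.mo_need_wr_ev hS hF h.G_bdd h.G_cont h.hess hε0 hε1
  have key := mo_aux_be_tendsto hS hF h.G_bdd h.G_cont hε0 (HJ.mo_u_sob hfin h.u_lipC s)
    (HJ.mo_u_gamma_memLp hfin h.u_lipC s) (Wt.mo_rt_memLp hfin hπ hF hε0 s) hM0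
    (hev.mono fun δ hδ => hδ.2) (fun δ hJ => hM δ hJ s)
  have hb0 : mo_be0 m K G ε π u₀ s = ∫ x, (G x - ε * K) * gamma m (hopfLax s u₀) (hopfLax s u₀) x
      * mo_rt m F ε π s x * wt F ε x ∂m := by
    unfold mo_be0
    exact Wt.mo_int_rt (F := F) (ε := ε) hfin hπ _ s
  rw [hb0]
  exact key

theorem mo_be0_le (h : mo_Ctx m K N F G κ y ϱ τ μ₀ μ₁ π C u₀) {s : ℝ} (hs : s ∈ Ioo (0 : ℝ) 1) :
    mo_be0 m K G ε π u₀ s ≤ (κ - ε * K) * W2sqR μ₀ μ₁ := by
  have hfin := h.std.finite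
  have hπ := h.plan
  obtain ⟨L, hL⟩ := h.u_lipC.1
  obtain ⟨B, hB⟩ := h.G_bdd
  have hΓ : Integrable (gamma m (hopfLax s u₀) (hopfLax s u₀)) (mo_mu π s) :=
    Plan.mo_integrable_mu_of_memLp hfin hπ (HJ.mo_u_gamma_memLp hfin h.u_lipC s) s
  have hconc : ∀ᵐ x ∂(mo_mu π s), x ∈ Metric.closedBall y (2 * ϱ) :=
    mem_ae_iff.2 (Plan.mo_mu_conc hπ h.track s)
  have hpos := Plan.mo_ae_mu hπ (HJ.mo_u_gamma_le hfin hL s) s
  have hl : Integrable (fun x => (G x - ε * K) * gamma m (hopfLax s u₀) (hopfLax s u₀) x) (mo_mu π s) := by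
    refine hΓ.bdd_mul (c := B + |ε * K|) (h.G_cont.sub continuous_const).aestronglyMeasurable
      (Eventually.of_forall fun x => ?_)
    rw [Real.norm_eq_abs]
    exact (abs_sub _ _).trans (add_le_add (hB x) le_rfl)
  calc mo_be0 m K G ε π u₀ s
      ≤ ∫ x, (κ - ε * K) * gamma m (hopfLax s u₀) (hopfLax s u₀) x ∂(mo_mu π s) := by
        unfold mo_be0
        refine integral_mono_ae hl (hΓ.const_mul _) ?_
        filter_upwards [hconc, hpos] with x hx hx'
        refine mul_le_mul_of_nonneg_right ?_ hx'.1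
        have := h.G_le x (Metric.closedBall_subset_ball (by linarith [h.tau_pos]) hx)
        linarith
    _ = (κ - ε * K) * mo_A m π u₀ s := by
        rw [integral_const_mul]
        rfl
    _ = (κ - ε * K) * W2sqR μ₀ μ₁ := by rw [Exact.mo_A_eq h hs]

theorem mo_int_be_limsup (h : mo_Ctx m K N F G κ y ϱ τ μ₀ μ₁ π C u₀) (hε0 : 0 < ε) (hε1 : ε ≤ 1) {η : ℝ}
    (hη : 0 < η) :
    ∀ᶠ δ in 𝓝[>] (0 : ℝ), ∫ s in (0 : ℝ)..1, mo_be m K F G ε δ π u₀ s ≤ (κ - ε * K) * W2sqR μ₀ μ₁ + η := by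
  obtain ⟨δ₀, hδ₀, hok⟩ := Need.mo_need_wr_ok h.std h.F_lipB h.G_bdd h.G_cont h.hess hε0 hε1
  obtain ⟨Cβ, hCβ⟩ := S3.mo_be_bound h hε0
  have hev : ∀ᶠ δ in 𝓝[>] (0 : ℝ), 0 < δ ∧ mo_JOK m K F G ε δ :=
    Need.mo_need_wr_ev h.std h.F_lipB h.G_bdd h.G_cont h.hess hε0 hε1
  have hmeas : ∀ δ, 0 < δ → mo_JOK m K F G ε δ →
      AEStronglyMeasurable (mo_be m K F G ε δ π u₀) (volume.restrict (Ioc (0 : ℝ) 1)) := by
    intro δ hδ hJ
    exact ((S3.mo_be_cont h hε0 hδ hJ).mono Ioc_subset_Icc_self).aestronglyMeasurable measurableSet_Ioc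
  have hlim : Tendsto (fun δ => ∫ s in (0 : ℝ)..1, mo_be m K F G ε δ π u₀ s) (𝓝[>] 0)
      (𝓝 (∫ s in (0 : ℝ)..1, mo_be0 m K G ε π u₀ s)) := by
    refine intervalIntegral.tendsto_integral_filter_of_dominated_convergence (fun _ => Cβ) ?_ ?_
      intervalIntegrable_const ?_
    · filter_upwards [hev] with δ hδ
      rw [uIoc_of_le zero_le_one]
      exact hmeas δ hδ.1 hδ.2
    · filter_upwards [hev] with δ hδ
      refine Eventually.of_forall fun s hs => ?_
      rw [uIoc_of_le zero_le_one] at hs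
      rw [Real.norm_eq_abs]
      exact hCβ δ hδ.2 s (Ioc_subset_Icc_self hs)
    · refine Eventually.of_forall fun s hs => ?_
      rw [uIoc_of_le zero_le_one] at hs
      exact mo_be_tendsto h hε0 hε1 (Ioc_subset_Icc_self hs)
  have hseq : Tendsto (fun n : ℕ => δ₀ / ((n : ℝ) + 1)) atTop (𝓝[>] 0) := by
    rw [tendsto_nhdsWithin_iff]
    refine ⟨?_, Eventually.of_forall fun n => ?_⟩
    · have h1 := tendsto_one_div_add_atTop_nhds_zero_nat (𝕜 := ℝ)
      have h2 := h1.const_mul δ₀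
      rw [mul_zero] at h2
      refine h2.congr fun n => ?_
      rw [mul_one_div]
    · show 0 < δ₀ / ((n : ℝ) + 1)
      positivity
  have hm0 : AEStronglyMeasurable (mo_be0 m K G ε π u₀) (volume.restrict (Ioc (0 : ℝ) 1)) := by
    refine aestronglyMeasurable_of_tendsto_ae atTop
      (f := fun n : ℕ => mo_be m K F G ε (δ₀ / ((n : ℝ) + 1)) π u₀) (fun n => ?_) ?_
    · have hn : (0 : ℝ) ≤ n := n.cast_nonneg
      exact hmeas _ (by positivity) (hok _ (by positivity) (div_le_self hδ₀.le (by linarith)))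
    · rw [ae_restrict_iff' measurableSet_Ioc]
      exact Eventually.of_forall fun s hs =>
        (mo_be_tendsto h hε0 hε1 (Ioc_subset_Icc_self hs)).comp hseq
  have hb0 : ∀ s ∈ Icc (0 : ℝ) 1, |mo_be0 m K G ε π u₀ s| ≤ Cβ := by
    intro s hs
    refine le_of_tendsto (mo_be_tendsto h hε0 hε1 hs).abs ?_
    filter_upwards [hev] with δ hδ using hCβ δ hδ.2 s hs
  have hint0 : Integrable (mo_be0 m K G ε π u₀) (volume.restrict (Ioc (0 : ℝ) 1)) := by
    refine Integrable.of_bound hm0 Cβ ?_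
    rw [ae_restrict_iff' measurableSet_Ioc]
    exact Eventually.of_forall fun s hs => by
      rw [Real.norm_eq_abs]; exact hb0 s (Ioc_subset_Icc_self hs)
  have hle : ∫ s in (0 : ℝ)..1, mo_be0 m K G ε π u₀ s ≤ (κ - ε * K) * W2sqR μ₀ μ₁ := by
    rw [intervalIntegral.integral_of_le zero_le_one]
    have h1 : ∫ s in Ioc (0 : ℝ) 1, mo_be0 m K G ε π u₀ s
        ≤ ∫ _s in Ioc (0 : ℝ) 1, (κ - ε * K) * W2sqR μ₀ μ₁ := by
      refine integral_mono_ae hint0 (integrable_const _) ?_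
      rw [← Measure.restrict_congr_set (Ioo_ae_eq_Ioc (μ := volume) (a := (0 : ℝ)) (b := 1))]
      show ∀ᵐ s ∂(volume.restrict (Ioo (0 : ℝ) 1)), _
      rw [ae_restrict_iff' measurableSet_Ioo]
      exact Eventually.of_forall fun s hs => mo_be0_le h hs
    refine h1.trans (le_of_eq ?_)
    simp
  have hfin := (tendsto_order.1 hlim).2 ((κ - ε * K) * W2sqR μ₀ μ₁ + η) (by linarith)
  filter_upwards [hfin] with δ hδ using hδ.le

end Claimed.Agent.R210.MO.S45
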