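/-
Row 210 (S0432), layer MO, architect helper686.   File Eps: (S7), the inequality for fixed ε, and the limit ε ↓ 0.
SKETCHES.
* `mo_unweight`:  r/e = r · φ(F) with φ(z) = exp(-z/ε) (C¹).   `gc_gamma_mul_left` + `gc_gamma_comp_left`:  Γ(r/e, u) = (1/e) Γ(r,u) + r · (-(1/ε)(1/e)) Γ(F,u)  a.e.;  multiply by e and ε, integrate (`integral_sub`; integrability: `gc_gamma_integrable` for the Sobolev pair (r,u); `gc_mul_gamma_integrable_of_bddSupp` for r Γ(F,u)).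
* `mo_eps_ineq`:  for δ small (eventually in 𝓝[>] 0: `Need.mo_need_wr_ok` gives mo_JOK) combine `S3.mo_Th_incr`, `S45.mo_Th_end` at s = 0, 1 and `Exact.mo_Th0_eq` at s = 1:
        -(δ ε)(E₁(δ) - E₀(δ)) ≤ δ ∫ β_δ,   E_i(δ) = ∫ Γ(J ρ~_i, u_i) e;   divide by δ > 0;   `S45.mo_int_be_limsup`, `S45.mo_end_lim` (with `Plan.mo_mu_zero/one`: mo_rho m π 0 = rho m μ₀) and `ge_of_tendsto`/`le_of_tendsto`:   -ε (E₁ - E₀) ≤ (κ - εK) W² + η for all η;
     then `mo_unweight` (u = u_i, r = r_i) and ∫ r_i Γ(F,u_i) dm = ∫ Γ(F,u_i) dμ_i (`Plan.mo_integral_rho` + a.e. equality of the densities; `hopfLax 0 u₀ = u₀`: `hl1_zero`).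
* `mo_step1_ctx`:  let ε ↓ 0 in `mo_eps_ineq` (both sides are affine in ε: `le_of_tendsto_of_tendsto` along 𝓝[>] 0, or: if the claim fails by c > 0 choose ε small).
-/
import Claimed.Agent.R210.MO.S45

set_option autoImplicit false
set_option linter.unusedSectionVars false

open Claims.C0366 Claims.C0366.WeakHessian
open Set Filter MeasureTheory
open scoped ENNReal NNReal Topology

namespace Claimed.Agent.R210.MO.Eps

open Claimed.Agent.R210.Defs Claimed.Agent.R210.Defs2 Claimed.Agent.R210.GC.Defs Claimed.Agent.R210.MO.Defs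

variable {X : Type*} [MetricSpace X] [MeasurableSpace X] [BorelSpace X]
  [CompleteSpace X] [TopologicalSpace.SeparableSpace X] [ProperSpace X]
  {m μ₀ μ₁ : Measure X} {π : Measure (Curve X)} {C : ℝ≥0} {y : X} {K N κ ϱ τ ε δ : ℝ} {F G u₀ : X → ℝ}

/-- **(S7)** -/
theorem mo_unweight (hS : Std m K N) (hF : LipB F) (hε : 0 < ε) {u r : X → ℝ} (hu : LipC u) (hr : LipC r) :
    ε * ∫ x, gamma m (fun z => r z / wt F ε z) u x * wt F ε x ∂m
      = ε * ∫ x, gamma m r u x ∂m - ∫ x, r x * gamma m F u x ∂m := by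
  have hrS : Sobolev m r := Claimed.Agent.R210.GC.WG.gc_sob_of_lipC hS.finite hr
  have huS : Sobolev m u := Claimed.Agent.R210.GC.WG.gc_sob_of_lipC hS.finite hu
  have hfun : (fun z => r z / wt F ε z) = fun z => r z * wt (fun y => -F y) ε z := by
    funext z
    rw [Claimed.Agent.R210.WR.Base.wr_wt_neg, div_eq_mul_inv]
  have I1 : Integrable (gamma m r u) m :=
    Claimed.Agent.R210.GC.Gam.gc_gamma_integrable hS hrS huS
  have I2 : Integrable (fun x => r x * gamma m F u x) m :=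
    hrS.1.integrable_mul (Claimed.Agent.R210.WR.Base.wr_gamma_lip_memLp hS hF huS)
  have hae : ∀ᵐ x ∂m, gamma m (fun z => r z / wt F ε z) u x * wt F ε x
      = gamma m r u x - 1 / ε * (r x * gamma m F u x) := by
    rw [hfun, Claimed.Agent.R210.GCB.IfcA.gcb_gamma_comm m _ u,
      Claimed.Agent.R210.GCB.IfcA.gcb_gamma_comm m r u,
      Claimed.Agent.R210.GCB.IfcA.gcb_gamma_comm m F u]
    filter_upwards [Claimed.Agent.R210.WR.Base.wr_gamma_mul_wt_neg hS hε huS.2.1 hrS.2.1 hF]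
      with x hx
    rw [hx]
    ring
  rw [integral_congr_ae hae, integral_sub I1 (I2.const_mul _), integral_const_mul]
  field_simp

theorem mo_eps_ineq (h : mo_Ctx m K N F G κ y ϱ τ μ₀ μ₁ π C u₀) {r₀ r₁ : X → ℝ} (hr0 : LipC r₀) (hr1 : LipC r₁)
    (h0 : rho m μ₀ =ᵐ[m] r₀) (h1 : rho m μ₁ =ᵐ[m] r₁) (hε0 : 0 < ε) (hε1 : ε ≤ 1) :
    (∫ x, gamma m F (hopfLax 1 u₀) x ∂μ₁ - ∫ x, gamma m F u₀ x ∂μ₀)
        - ε * (∫ x, gamma m r₁ (hopfLax 1 u₀) x ∂m - ∫ x, gamma m r₀ u₀ x ∂m)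
      ≤ (κ - ε * K) * W2sqR μ₀ μ₁ := by
  have hfin := h.std.finite
  have hπ := h.plan
  have e0 : mo_rho m π 0 =ᵐ[m] r₀ := by
    unfold mo_rho; rw [Plan.mo_mu_zero hπ]; exact h0
  have e1 : mo_rho m π 1 =ᵐ[m] r₁ := by
    unfold mo_rho; rw [Plan.mo_mu_one hπ]; exact h1
  have L0 := S45.mo_end_lim h hε0 hε1 hr0 e0
  have L1 := S45.mo_end_lim h hε0 hε1 hr1 e1
  have key : ∀ η > 0,
      -ε * (∫ x, gamma m (fun z => r₁ z / wt F ε z) (hopfLax 1 u₀) x * wt F ε x ∂m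
        - ∫ x, gamma m (fun z => r₀ z / wt F ε z) (hopfLax 0 u₀) x * wt F ε x ∂m)
      ≤ (κ - ε * K) * W2sqR μ₀ μ₁ + η := by
    intro η hη
    refine le_of_tendsto ((L1.sub L0).const_mul (-ε)) ?_
    filter_upwards [Need.mo_need_wr_ev h.std h.F_lipB h.G_bdd h.G_cont h.hess hε0 hε1,
      S45.mo_int_be_limsup h hε0 hε1 hη] with δ hδ hb
    obtain ⟨hδ0, hJ⟩ := hδ
    have b1 := S3.mo_Th_incr h hε0 hδ0 hJ
    have s1 := S45.mo_Th_end h hε0 hJ 1
    have s0 := S45.mo_Th_end h hε0 hJ 0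
    have t0 := Exact.mo_Th0_eq h (s := 1) ⟨zero_le_one, le_rfl⟩
    have h5 : δ * (-ε * (∫ x, gamma m (resW m F ε δ (mo_rt m F ε π 1)) (hopfLax 1 u₀) x * wt F ε x ∂m
        - ∫ x, gamma m (resW m F ε δ (mo_rt m F ε π 0)) (hopfLax 0 u₀) x * wt F ε x ∂m))
        ≤ δ * ∫ s in (0 : ℝ)..1, mo_be m K F G ε δ π u₀ s := by
      linarith
    have h6 := le_of_mul_le_mul_left h5 hδ0
    linarith
  have key' := le_of_forall_pos_le_add key
  have u0 := mo_unweight h.std h.F_lipB hε0 (HJ.mo_u_lipC h.u_lipC 0) hr0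
  have u1 := mo_unweight h.std h.F_lipB hε0 (HJ.mo_u_lipC h.u_lipC 1) hr1
  have i0 : ∫ x, gamma m F (hopfLax 0 u₀) x ∂μ₀ = ∫ x, r₀ x * gamma m F (hopfLax 0 u₀) x ∂m := by
    rw [← Plan.mo_mu_zero hπ, Plan.mo_integral_rho hfin hπ _ 0]
    refine integral_congr_ae ?_
    filter_upwards [e0] with x hx
    rw [hx, mul_comm]
  have i1 : ∫ x, gamma m F (hopfLax 1 u₀) x ∂μ₁ = ∫ x, r₁ x * gamma m F (hopfLax 1 u₀) x ∂m := by
    rw [← Plan.mo_mu_one hπ, Plan.mo_integral_rho hfin hπ _ 1]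
    refine integral_congr_ae ?_
    filter_upwards [e1] with x hx
    rw [hx, mul_comm]
  rw [HL.Ifc.hl1_zero] at u0 i0 key'
  rw [i0, i1]
  linarith

theorem mo_step1_ctx (h : mo_Ctx m K N F G κ y ϱ τ μ₀ μ₁ π C u₀) {r₀ r₁ : X → ℝ} (hr0 : LipC r₀) (hr1 : LipC r₁)
    (h0 : rho m μ₀ =ᵐ[m] r₀) (h1 : rho m μ₁ =ᵐ[m] r₁) :
    ∫ x, gamma m F (hopfLax 1 u₀) x ∂μ₁ - ∫ x, gamma m F u₀ x ∂μ₀ ≤ κ * W2sqR μ₀ μ₁ := by
  set a := ∫ x, gamma m F (hopfLax 1 u₀) x ∂μ₁ - ∫ x, gamma m F u₀ x ∂μ₀ with ha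
  set b := ∫ x, gamma m r₁ (hopfLax 1 u₀) x ∂m - ∫ x, gamma m r₀ u₀ x ∂m with hb
  set W := W2sqR μ₀ μ₁ with hW
  have key : ∀ ε : ℝ, 0 < ε → ε ≤ 1 → a - ε * b ≤ (κ - ε * K) * W :=
    fun ε hε0 hε1 => mo_eps_ineq h hr0 hr1 h0 h1 hε0 hε1
  by_contra hcon
  push Not at hcon
  set c := a - κ * W with hc
  have hc0 : 0 < c := by rw [hc]; linarith
  set D := |b| + |K * W| + 1 with hD
  have hD0 : 0 < D := by positivity
  have hε0 : 0 < min 1 (c / (2 * D)) := lt_min one_pos (by positivity)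
  have h2 := key (min 1 (c / (2 * D))) hε0 (min_le_left _ _)
  have h3 : min 1 (c / (2 * D)) * D ≤ c / 2 := by
    calc min 1 (c / (2 * D)) * D ≤ c / (2 * D) * D := by
          apply mul_le_mul_of_nonneg_right (min_le_right _ _) hD0.le
      _ = c / 2 := by field_simp
  have h4 : min 1 (c / (2 * D)) * (b - K * W) ≤ min 1 (c / (2 * D)) * D := by
    apply mul_le_mul_of_nonneg_left _ hε0.le
    have := le_abs_self b
    have := neg_abs_le (K * W)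
    rw [hD]; linarith
  nlinarith

end Claimed.Agent.R210.MO.Eps
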