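/-
Row 210 (S0432), layer MO, architect helper686.   File Pot: from a Kantorovich pair `(a,b)` of `(μ₀,μ₁)` (both concentrated on `closedBall y ϱ`) to the context `mo_Ctx` of STEP 1.
  T ≥ sup |a|,   a'(x) = max (a x - (d(x,y) - 2ϱ)₊) (-T),    u₀ = mo_pot a y ϱ T = -a' - T.
  Facts:  -a - T ≤ u₀ ≤ 0;   u₀ = -a - T on closedBall y (2ϱ);   u₀ = 0 off closedBall y (2ϱ + 2T);   u₀ Lipschitz.
SKETCHES.
* `mo_pot_lipC`:  Lipschitz: `LipschitzWith.max`/`.sub`/`.neg`, `LipschitzWith.dist_left`-type lemmas (`LipschitzWith.dist_right`), constants (`LipschitzWith.const`), or go through `gc_lipLoc_*` + `gc_lipC_of_lipLoc_bddSupp`.   Compact support: `HasCompactSupport.of_support_subset_isCompact (isCompact_closedBall y (2ϱ+2T))` with `mo_pot_eq_zero`.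
* `mo_pot_Q_ge`:  `hl5_le hab.le z : b z ≤ hopfLax 1 (fun x => -a x) z`;  `hl1_sub_const` : hopfLax 1 (fun x => -a x - T) = hopfLax 1 (-a) - T;  `hl1_mono` with `mo_pot_ge`.
* `mo_pot_dual_le`:  `ot_weak_duality` for the pair (α, β) = (-u₀, hopfLax 1 u₀) (admissible by `hl5_add_le` applied to α := fun x => -u₀ x, `neg_neg`), bounded + measurable (continuous: Lipschitz).
* `mo_pot_dual`, `mo_pot_Q_ae`:   ∫ (-u₀) dμ₀ = ∫ (a + T) dμ₀ (μ₀-a.e. equality: `FO.Basic.fo_bdd_ae_mem h0`, `mo_pot_eq`, ϱ ≤ 2ϱ),   ∫ Q₁u₀ dμ₁ ≥ ∫ (b - T) dμ₁ (`mo_pot_Q_ge`),  `ot_kpair_eq hab`: ∫ a dμ₀ + ∫ b dμ₁ = W²/2.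
     Hence equality in `mo_pot_dual_le`, and ∫ (Q₁u₀ - (b - T)) dμ₁ = 0 with a nonnegative integrand: `integral_eq_zero_iff_of_nonneg_ae`.     All functions are bounded continuous, the measures are probabilities: integrability by `Integrable.of_bound`/`BoundedContinuousFunction`-free argument `(integrable_const B).mono'`.
* `mo_pot_gamma0`:  m-a.e. on {u₀ = -a - T}: Γ(F,u₀) = Γ(F, -a - T) = -Γ(F,a)  (`gc_gamma_eq_on_right`, `gc_gamma_add_const_right`/`sub`, `gc_gamma_neg_right`; all functions are LocalSobolev by `gc_ls_of_lipLoc ∘ gc_lipLoc_of_lip`);  transfer to μ₀ (`fo_bdd_ae h0`), μ₀-a.e. x ∈ closedBall y ϱ;  `integral_congr_ae`, `integral_neg`.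
* `mo_pot_gamma1`:  m-a.e. on {Q₁u₀ = b - T}: Γ(F,Q₁u₀) = Γ(F,b);  `mo_pot_Q_ae` says this set has full μ₁ measure.
* `mo_track`:  γ geodesic with end points in closedBall y ϱ (`CD.Ent.Base.cd_ent_ae_zero/one hπ.opt.1` + `fo_bdd_ae_mem`):  ℓ ≤ 2ϱ;   d(γ_t,y) ≤ min(d(γ_t,γ_0), d(γ_t,γ_1)) + ϱ ≤ ℓ/2 + ϱ ≤ 2ϱ  (`cu_geodesic_dist_zero/one`: t ℓ and (1-t) ℓ).
-/
import Claimed.Agent.R210.MO.Plan
import Claimed.Agent.R210.MO.HJ
import Claimed.Agent.R210.GM.Ifc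

set_option autoImplicit false
set_option linter.unusedSectionVars false

open Claims.C0366 Claims.C0366.WeakHessian
open Set Filter MeasureTheory
open scoped ENNReal NNReal Topology

namespace Claimed.Agent.R210.MO.Pot

open Claimed.Agent.R210.Defs Claimed.Agent.R210.Defs2 Claimed.Agent.R210.GC.Defs Claimed.Agent.R210.MO.Defs

variable {X : Type*} [MetricSpace X] [MeasurableSpace X] [BorelSpace X]
  [CompleteSpace X] [TopologicalSpace.SeparableSpace X] [ProperSpace X]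
  {m μ₀ μ₁ : Measure X} {π : Measure (Curve X)} {C M₀ M₁ : ℝ≥0} {y : X} {K N κ ϱ τ T : ℝ} {F G a b : X → ℝ}

/-- the compactly supported potential -/
noncomputable def mo_pot (a : X → ℝ) (y : X) (ϱ T : ℝ) (x : X) : ℝ :=
  -(max (a x - max (dist x y - 2 * ϱ) 0) (-T)) - T

theorem mo_pot_ge (hT : ∀ x, |a x| ≤ T) (x : X) : -a x - T ≤ mo_pot a y ϱ T x := by
  unfold mo_pot
  have h1 : max (a x - max (dist x y - 2 * ϱ) 0) (-T) ≤ a x :=
    max_le (by linarith [le_max_right (dist x y - 2 * ϱ) 0]) (abs_le.1 (hT x)).1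
  linarith

theorem mo_pot_nonpos (a : X → ℝ) (y : X) (ϱ T : ℝ) (x : X) : mo_pot a y ϱ T x ≤ 0 := by
  unfold mo_pot
  linarith [le_max_right (a x - max (dist x y - 2 * ϱ) 0) (-T)]

theorem mo_pot_eq (hT : ∀ x, |a x| ≤ T) {x : X} (hx : dist x y ≤ 2 * ϱ) : mo_pot a y ϱ T x = -a x - T := by
  unfold mo_pot
  rw [max_eq_right (by linarith : dist x y - 2 * ϱ ≤ 0), sub_zero, max_eq_left (abs_le.1 (hT x)).1]

theorem mo_pot_eq_zero (hT : ∀ x, |a x| ≤ T) {x : X} (hx : 2 * ϱ + 2 * T < dist x y) : mo_pot a y ϱ T x = 0 := by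
  unfold mo_pot
  rw [max_eq_right]
  · ring
  · linarith [le_max_left (dist x y - 2 * ϱ) 0, (abs_le.1 (hT x)).2]

theorem mo_pot_abs_le (hT : ∀ x, |a x| ≤ T) (x : X) : |mo_pot a y ϱ T x| ≤ 2 * T := by
  rw [abs_le]
  exact ⟨by linarith [mo_pot_ge (y := y) (ϱ := ϱ) hT x, (abs_le.1 (hT x)).2],
    by linarith [mo_pot_nonpos a y ϱ T x, (abs_nonneg (a x)).trans (hT x)]⟩

theorem mo_pot_lipC (ha : GloballyLipschitz a) (hT : ∀ x, |a x| ≤ T) : LipC (mo_pot a y ϱ T) := by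
  obtain ⟨L, hL⟩ := ha
  have h1 : LipschitzWith 1 (fun x : X => dist x y) := LipschitzWith.dist_left y
  have h2 := h1.sub (LipschitzWith.const (2 * ϱ))
  have h3 := h2.max_const 0
  have h4 := hL.sub h3
  have h5 := h4.max_const (-T)
  have h6 := h5.neg
  have h7 := h6.sub (LipschitzWith.const T)
  refine ⟨⟨_, h7⟩, ?_⟩
  refine HasCompactSupport.of_support_subset_isCompact (isCompact_closedBall y (2 * ϱ + 2 * T))
    (fun x hx => ?_)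
  by_contra hxx
  rw [Metric.mem_closedBall, not_le] at hxx
  exact hx (mo_pot_eq_zero hT hxx)

theorem mo_pot_Q_ge (hab : KPair μ₀ μ₁ a b) (hT : ∀ x, |a x| ≤ T) (z : X) :
    b z - T ≤ hopfLax 1 (mo_pot a y ϱ T) z := by
  obtain ⟨L, hL⟩ := hab.lip_a
  have h1 : b z ≤ hopfLax 1 (fun x => -a x) z := HL.Ifc.hl5_le hab.le z
  have h2 : hopfLax 1 (fun x => -a x - T) z = hopfLax 1 (fun x => -a x) z - T :=
    HL.Ifc.hl1_sub_const hL.neg T 1 z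
  have h3 : hopfLax 1 (fun x => -a x - T) z ≤ hopfLax 1 (mo_pot a y ϱ T) z :=
    HL.Ifc.hl1_mono (hL.neg.sub (LipschitzWith.const T)) (fun x => mo_pot_ge hT x) 1 z
  linarith

theorem mo_pot_dual_le (h0 : BddDens m μ₀ M₀ y ϱ) (h1 : BddDens m μ₁ M₁ y ϱ) (hab : KPair μ₀ μ₁ a b)
    (hT : ∀ x, |a x| ≤ T) :
    ∫ x, hopfLax 1 (mo_pot a y ϱ T) x ∂μ₁ - ∫ x, mo_pot a y ϱ T x ∂μ₀ ≤ W2sqR μ₀ μ₁ / 2 := by
  have := h0.prob
  have := h1.prob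
  obtain ⟨⟨L, hL⟩, -⟩ := mo_pot_lipC (y := y) (ϱ := ϱ) hab.lip_a hT
  have hW := OT.Dual.ot_kpair_finite hab
  have hle : ∀ x z, (fun x => -mo_pot a y ϱ T x) x + hopfLax 1 (mo_pot a y ϱ T) z
      ≤ dist x z ^ 2 / 2 := by
    intro x z
    have h := HL.Ifc.hl5_add_le (a := fun x => -mo_pot a y ϱ T x) hL.neg x z
    simpa only [neg_neg] using h
  have h := OT.Dual.ot_weak_duality hW (a := fun x => -mo_pot a y ϱ T x)
    (b := hopfLax 1 (mo_pot a y ϱ T)) hL.continuous.neg.measurable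
    (HL.Ifc.hl1_lipschitz hL 1).continuous.measurable
    ⟨2 * T, fun x => by rw [abs_neg]; exact mo_pot_abs_le hT x⟩
    ⟨2 * T, fun z => HL.Ifc.hl1_abs_le hL (mo_pot_abs_le hT) 1 z⟩ hle
  rw [integral_neg] at h
  linarith

/-- bounded continuous functions are integrable for probability measures -/
theorem mo_aux_pot_integrable {μ : Measure X} [IsProbabilityMeasure μ] {f : X → ℝ} (hf : Continuous f)
    {B : ℝ} (hB : ∀ x, |f x| ≤ B) : Integrable f μ :=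
  (integrable_const B).mono' hf.aestronglyMeasurable
    (Eventually.of_forall fun x => by simpa [Real.norm_eq_abs] using hB x)

/-- `∫ u₀ dμ₀ = -∫ a dμ₀ - T` -/
theorem mo_aux_pot_int0 (hϱ : 0 < ϱ) (h0 : BddDens m μ₀ M₀ y ϱ) (ha : GloballyLipschitz a)
    (hT : ∀ x, |a x| ≤ T) : ∫ x, mo_pot a y ϱ T x ∂μ₀ = -∫ x, a x ∂μ₀ - T := by
  have := h0.prob
  obtain ⟨La, hLa⟩ := ha
  have hai : Integrable a μ₀ := mo_aux_pot_integrable hLa.continuous hT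
  have e : ∫ x, mo_pot a y ϱ T x ∂μ₀ = ∫ x, (-a x - T) ∂μ₀ := by
    refine integral_congr_ae ?_
    filter_upwards [FO.Basic.fo_bdd_ae_mem h0] with x hx
    exact mo_pot_eq hT (by linarith [Metric.mem_closedBall.1 hx])
  have hna : Integrable (fun x => -a x) μ₀ := hai.neg
  have e' : ∫ x, (-a x - T) ∂μ₀ = ∫ x, -a x ∂μ₀ - ∫ _x, T ∂μ₀ :=
    integral_sub hna (integrable_const T)
  rw [e, e', integral_neg, integral_const]
  simp

/-- `∫ (b - T) dμ₁ ≤ ∫ Q₁u₀ dμ₁` -/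
theorem mo_aux_pot_int1 (h1 : BddDens m μ₁ M₁ y ϱ) (hab : KPair μ₀ μ₁ a b)
    (hT : ∀ x, |a x| ≤ T) :
    Integrable b μ₁ ∧ Integrable (hopfLax 1 (mo_pot a y ϱ T)) μ₁ ∧
      ∫ z, b z ∂μ₁ - T ≤ ∫ z, hopfLax 1 (mo_pot a y ϱ T) z ∂μ₁ := by
  have := h1.prob
  obtain ⟨⟨L, hL⟩, -⟩ := mo_pot_lipC (y := y) (ϱ := ϱ) hab.lip_a hT
  obtain ⟨Lb, hLb⟩ := hab.lip_b
  obtain ⟨Bb, hBb⟩ := hab.bdd_b
  have hbi : Integrable b μ₁ := mo_aux_pot_integrable hLb.continuous hBb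
  have hQi : Integrable (hopfLax 1 (mo_pot a y ϱ T)) μ₁ :=
    mo_aux_pot_integrable (HL.Ifc.hl1_lipschitz hL 1).continuous
      (HL.Ifc.hl1_abs_le hL (mo_pot_abs_le hT) 1)
  refine ⟨hbi, hQi, ?_⟩
  have e : ∫ z, (b z - T) ∂μ₁ = ∫ z, b z ∂μ₁ - T := by
    have e' : ∫ z, (b z - T) ∂μ₁ = ∫ z, b z ∂μ₁ - ∫ _z, T ∂μ₁ :=
      integral_sub hbi (integrable_const T)
    rw [e', integral_const]
    simp
  rw [← e]
  exact integral_mono (hbi.sub (integrable_const T)) hQi (fun z => mo_pot_Q_ge hab hT z)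

theorem mo_pot_dual (hϱ : 0 < ϱ) (h0 : BddDens m μ₀ M₀ y ϱ) (h1 : BddDens m μ₁ M₁ y ϱ) (hab : KPair μ₀ μ₁ a b)
    (hT : ∀ x, |a x| ≤ T) :
    ∫ x, hopfLax 1 (mo_pot a y ϱ T) x ∂μ₁ - ∫ x, mo_pot a y ϱ T x ∂μ₀ = W2sqR μ₀ μ₁ / 2 := by
  have := h0.prob
  have := h1.prob
  refine le_antisymm (mo_pot_dual_le h0 h1 hab hT) ?_
  have e0 := mo_aux_pot_int0 hϱ h0 hab.lip_a hT
  obtain ⟨-, -, e1⟩ := mo_aux_pot_int1 (y := y) (ϱ := ϱ) h1 hab hT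
  have e2 := OT.Dual.ot_kpair_eq hab
  linarith

theorem mo_pot_Q_ae (hϱ : 0 < ϱ) (h0 : BddDens m μ₀ M₀ y ϱ) (h1 : BddDens m μ₁ M₁ y ϱ) (hab : KPair μ₀ μ₁ a b)
    (hT : ∀ x, |a x| ≤ T) : ∀ᵐ z ∂μ₁, hopfLax 1 (mo_pot a y ϱ T) z = b z - T := by
  have := h0.prob
  have := h1.prob
  have e0 := mo_aux_pot_int0 hϱ h0 hab.lip_a hT
  obtain ⟨hbi, hQi, -⟩ := mo_aux_pot_int1 (y := y) (ϱ := ϱ) h1 hab hT
  have e2 := OT.Dual.ot_kpair_eq hab
  have e3 := mo_pot_dual hϱ h0 h1 hab hT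
  have hgi : Integrable (fun z => hopfLax 1 (mo_pot a y ϱ T) z - (b z - T)) μ₁ :=
    hQi.sub (hbi.sub (integrable_const T))
  have hint : ∫ z, (hopfLax 1 (mo_pot a y ϱ T) z - (b z - T)) ∂μ₁ = 0 := by
    have hbT : Integrable (fun z => b z - T) μ₁ := hbi.sub (integrable_const T)
    have e4 : ∫ z, (hopfLax 1 (mo_pot a y ϱ T) z - (b z - T)) ∂μ₁
        = ∫ z, hopfLax 1 (mo_pot a y ϱ T) z ∂μ₁ - ∫ z, (b z - T) ∂μ₁ := integral_sub hQi hbT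
    have e5 : ∫ z, (b z - T) ∂μ₁ = ∫ z, b z ∂μ₁ - ∫ _z, T ∂μ₁ :=
      integral_sub hbi (integrable_const T)
    rw [e4, e5, integral_const]
    simp only [probReal_univ, smul_eq_mul, one_mul]
    linarith
  have hnn : 0 ≤ᵐ[μ₁] fun z => hopfLax 1 (mo_pot a y ϱ T) z - (b z - T) :=
    Eventually.of_forall fun z => sub_nonneg.2 (mo_pot_Q_ge hab hT z)
  have h := (integral_eq_zero_iff_of_nonneg_ae hnn hgi).1 hint
  filter_upwards [h] with z hz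
  have : hopfLax 1 (mo_pot a y ϱ T) z - (b z - T) = 0 := hz
  linarith

theorem mo_pot_gamma0 (hS : Std m K N) (hF : LipB F) (hϱ : 0 < ϱ) (h0 : BddDens m μ₀ M₀ y ϱ)
    (ha : GloballyLipschitz a) (hT : ∀ x, |a x| ≤ T) :
    ∫ x, gamma m F (mo_pot a y ϱ T) x ∂μ₀ = -∫ x, gamma m F a x ∂μ₀ := by
  have hls : ∀ {f : X → ℝ}, GloballyLipschitz f → LocalSobolev m f := fun hf =>
    GC.WG.gc_ls_of_lipLoc hS.finite (GC.WG.gc_lipLoc_of_lip hf)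
  have hFs : LocalSobolev m F := hls hF.1
  have has : LocalSobolev m a := hls ha
  have hus : LocalSobolev m (mo_pot a y ϱ T) := hls (mo_pot_lipC (y := y) (ϱ := ϱ) ha hT).1
  obtain ⟨L, hL⟩ := ha
  have hna : LocalSobolev m (fun x => -a x) := hls ⟨L, hL.neg⟩
  have hnaT : LocalSobolev m (fun x => -a x + (-T)) :=
    hls ⟨L + 0, hL.neg.add (LipschitzWith.const (-T))⟩
  rw [← integral_neg]
  refine integral_congr_ae ?_
  filter_upwards [FO.Basic.fo_bdd_ae h0 (GC.Gam.gc_gamma_eq_on_right hS hFs hus hnaT),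
    FO.Basic.fo_bdd_ae h0 (GC.Gam.gc_gamma_add_const_right hS (-T) hFs hna),
    FO.Basic.fo_bdd_ae h0 (GC.Gam.gc_gamma_neg_right hS hFs has),
    FO.Basic.fo_bdd_ae_mem h0] with x e1 e2 e3 hx
  have hx2 : dist x y ≤ 2 * ϱ := by
    have := Metric.mem_closedBall.1 hx
    linarith
  rw [e1 (by rw [mo_pot_eq hT hx2]; ring), e2, e3]

theorem mo_pot_gamma1 (hS : Std m K N) (hF : LipB F) (hϱ : 0 < ϱ) (h0 : BddDens m μ₀ M₀ y ϱ)
    (h1 : BddDens m μ₁ M₁ y ϱ) (hab : KPair μ₀ μ₁ a b) (hT : ∀ x, |a x| ≤ T) :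
    ∫ x, gamma m F (hopfLax 1 (mo_pot a y ϱ T)) x ∂μ₁ = ∫ x, gamma m F b x ∂μ₁ := by
  have hls : ∀ {f : X → ℝ}, GloballyLipschitz f → LocalSobolev m f := fun hf =>
    GC.WG.gc_ls_of_lipLoc hS.finite (GC.WG.gc_lipLoc_of_lip hf)
  have hFs : LocalSobolev m F := hls hF.1
  have hbs : LocalSobolev m b := hls hab.lip_b
  obtain ⟨Lu, hLu⟩ := (mo_pot_lipC (y := y) (ϱ := ϱ) hab.lip_a hT).1
  have hQs : LocalSobolev m (hopfLax 1 (mo_pot a y ϱ T)) :=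
    hls ⟨2 * Lu, HL.Ifc.hl1_lipschitz hLu 1⟩
  obtain ⟨L, hL⟩ := hab.lip_b
  have hbT : LocalSobolev m (fun x => b x + (-T)) :=
    hls ⟨L + 0, hL.add (LipschitzWith.const (-T))⟩
  refine integral_congr_ae ?_
  filter_upwards [FO.Basic.fo_bdd_ae h1 (GC.Gam.gc_gamma_eq_on_right hS hFs hQs hbT),
    FO.Basic.fo_bdd_ae h1 (GC.Gam.gc_gamma_add_const_right hS (-T) hFs hbs),
    mo_pot_Q_ae hϱ h0 h1 hab hT] with x e1 e2 hx
  rw [e1 (by rw [hx]; ring), e2]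

/-- the tracks of a geodesic plan between measures on `closedBall y ϱ` stay in `closedBall y (2ϱ)` -/
theorem mo_track (hπ : GeoPlan m μ₀ μ₁ π C) (h0 : BddDens m μ₀ M₀ y ϱ) (h1 : BddDens m μ₁ M₁ y ϱ) :
    ∀ᵐ γ ∂π, ∀ t : Time, dist (γ t) y ≤ 2 * ϱ := by
  have e0 : ∀ᵐ γ ∂π, γ timeZero ∈ Metric.closedBall y ϱ :=
    Claimed.Agent.R210.CD.Ent.Base.cd_ent_ae_zero hπ.opt.1 (mem_ae_iff.2 h0.conc)
  have e1 : ∀ᵐ γ ∂π, γ timeOne ∈ Metric.closedBall y ϱ :=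
    Claimed.Agent.R210.CD.Ent.Base.cd_ent_ae_one hπ.opt.1 (mem_ae_iff.2 h1.conc)
  filter_upwards [hπ.geo, e0, e1] with γ hg h0' h1' t
  rw [Metric.mem_closedBall] at h0' h1'
  have d0 := Claimed.Agent.R210.CU.Geo.cu_geodesic_dist_zero hg t
  have d1 := Claimed.Agent.R210.CU.Geo.cu_geodesic_dist_one hg t
  have hl : dist (γ timeZero) (γ timeOne) ≤ 2 * ϱ := by
    have := dist_triangle_right (γ timeZero) (γ timeOne) y
    linarith
  have hl0 : 0 ≤ dist (γ timeZero) (γ timeOne) := dist_nonneg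
  have ht0 : 0 ≤ (t : ℝ) := t.2.1
  have ht1 : (t : ℝ) ≤ 1 := t.2.2
  have a0 : dist (γ t) y ≤ dist (γ timeZero) (γ t) + ϱ := by
    have := dist_triangle (γ t) (γ timeZero) y
    rw [dist_comm (γ t) (γ timeZero)] at this
    linarith
  have a1 : dist (γ t) y ≤ dist (γ t) (γ timeOne) + ϱ := by
    have := dist_triangle (γ t) (γ timeOne) y
    linarith
  rw [d0] at a0
  rw [d1] at a1
  rcases le_total (t : ℝ) (1 / 2) with h | h
  · nlinarith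
  · nlinarith

/-- the context of STEP 1 -/
theorem mo_exists_ctx (hS : Std m K N) (hF : LipB F) (hGb : BoundedFunction G) (hGc : Continuous G)
    (hH : WeakHessianUpperBound m F G) (hϱ : 0 < ϱ) (hτ : 0 < τ)
    (hG : ∀ z ∈ Metric.ball y (2 * ϱ + τ), G z ≤ κ)
    (h0 : BddDens m μ₀ M₀ y ϱ) (h1 : BddDens m μ₁ M₁ y ϱ) (hab : KPair μ₀ μ₁ a b) (hT : ∀ x, |a x| ≤ T) :
    ∃ (π : Measure (Curve X)) (C : ℝ≥0), mo_Ctx m K N F G κ y ϱ τ μ₀ μ₁ π C (mo_pot a y ϱ T) := by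
  obtain ⟨π, hπ, -⟩ := GM.Ifc.gm_GM4 hS h0 h1 (GM.Ifc.gm_HD_two_mul h0 h1) (by positivity)
  exact ⟨π, _, ⟨hS, hF, hGb, hGc, hH, hϱ, hτ, hG, hπ, mo_track hπ h0 h1, mo_pot_lipC hab.lip_a hT,
    mo_pot_dual hϱ h0 h1 hab hT⟩⟩

end Claimed.Agent.R210.MO.Pot
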