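/-
Row 210 (S0432), layer MO, architect helper686.   File Step1: **STEP 1** of (M'): the inequality for end point measures with `LipC` densities.
  `mo_step1_bdd`  : `BddDens` measures whose densities `rho m μ_i` are a.e. equal to `LipC` functions `r_i`;
  `mo_step1_dens` : the same for `μ_i = dens m r_i`;
  `mo_step1`      : the predicate `Approx.mo_Step1 m F G` used by STEP 2 (MO/Approx*.lean, helper259) and by MO/Main.lean (`mo_main` = export of the layer).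
-/
import Claimed.Agent.R210.MO.Eps
import Claimed.Agent.R210.MO.Pot
import Claimed.Agent.R210.MO.Approx

set_option autoImplicit false
set_option linter.unusedSectionVars false

open Claims.C0366 Claims.C0366.WeakHessian
open Set Filter MeasureTheory
open scoped ENNReal NNReal Topology

namespace Claimed.Agent.R210.MO.Step1

open Claimed.Agent.R210.Defs Claimed.Agent.R210.Defs2 Claimed.Agent.R210.GC.Defs Claimed.Agent.R210.MO.Defs

variable {X : Type*} [MetricSpace X] [MeasurableSpace X] [BorelSpace X]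
  [CompleteSpace X] [TopologicalSpace.SeparableSpace X] [ProperSpace X]
  {m μ₀ μ₁ : Measure X} {M₀ M₁ : ℝ≥0} {y : X} {K N κ ϱ τ : ℝ} {F G a b r r₀ r₁ : X → ℝ}

/-- **STEP 1** -/
theorem mo_step1_bdd (hS : Std m K N) (hF : LipB F) (hGb : BoundedFunction G) (hGc : Continuous G)
    (hH : WeakHessianUpperBound m F G) (hϱ : 0 < ϱ) (hτ : 0 < τ)
    (hG : ∀ z ∈ Metric.ball y (2 * ϱ + τ), G z ≤ κ)
    (h0 : BddDens m μ₀ M₀ y ϱ) (h1 : BddDens m μ₁ M₁ y ϱ) (hab : KPair μ₀ μ₁ a b)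
    (hr0 : LipC r₀) (hr1 : LipC r₁) (e0 : rho m μ₀ =ᵐ[m] r₀) (e1 : rho m μ₁ =ᵐ[m] r₁) :
    ∫ x, gamma m F a x ∂μ₀ + ∫ x, gamma m F b x ∂μ₁ ≤ κ * W2sqR μ₀ μ₁ := by
  obtain ⟨T, hT⟩ := hab.bdd_a
  obtain ⟨π, C, hctx⟩ := Pot.mo_exists_ctx hS hF hGb hGc hH hϱ hτ hG h0 h1 hab hT
  have key := Eps.mo_step1_ctx hctx hr0 hr1 e0 e1
  rw [Pot.mo_pot_gamma0 hS hF hϱ h0 hab.lip_a hT, Pot.mo_pot_gamma1 hS hF hϱ h0 h1 hab hT] at key
  linarith

theorem mo_dens_bddDens (hfin : FiniteOnBoundedSets m) (hr : LipC r) (hn : ∀ x, 0 ≤ r x) (hi : ∫ x, r x ∂m = 1)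
    (hs : ∀ x, x ∉ Metric.closedBall y ϱ → r x = 0) : ∃ M : ℝ≥0, BddDens m (dens m r) M y ϱ := by
  obtain ⟨B, hB⟩ := (GC.WG.gc_lipB_of_lipC hr).2
  refine ⟨Real.toNNReal B, ApproxBase.mo_ap_dens_prob hn (ApproxSeq.mo_ap_lipC_integrable hfin hr) hi, ?_,
    ApproxBase.mo_ap_dens_conc Metric.isClosed_closedBall.measurableSet hs⟩
  unfold dens
  rw [← withDensity_const]
  refine withDensity_mono (Eventually.of_forall fun x => ?_)
  exact ENNReal.ofReal_le_ofReal ((le_abs_self _).trans (hB x))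

theorem mo_rho_dens (hfin : FiniteOnBoundedSets m) (hr : LipC r) (hn : ∀ x, 0 ≤ r x) :
    rho m (dens m r) =ᵐ[m] r := by
  have := Plan.mo_sigmaFinite hfin
  have hmeas : Measurable (fun x => ENNReal.ofReal (r x)) :=
    (ApproxSeq.mo_ap_lipC_measurable hr).ennreal_ofReal
  filter_upwards [Measure.rnDeriv_withDensity m hmeas] with x hx
  unfold rho dens
  rw [hx, ENNReal.toReal_ofReal (hn x)]

/-- **STEP 1**, for measures given by their densities -/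
theorem mo_step1_dens (hS : Std m K N) (hF : LipB F) (hGb : BoundedFunction G) (hGc : Continuous G)
    (hH : WeakHessianUpperBound m F G) (hϱ : 0 < ϱ) (hτ : 0 < τ)
    (hG : ∀ z ∈ Metric.ball y (2 * ϱ + τ), G z ≤ κ)
    (hr0 : LipC r₀) (hr1 : LipC r₁) (hn0 : ∀ x, 0 ≤ r₀ x) (hn1 : ∀ x, 0 ≤ r₁ x)
    (hi0 : ∫ x, r₀ x ∂m = 1) (hi1 : ∫ x, r₁ x ∂m = 1)
    (hs0 : ∀ x, x ∉ Metric.closedBall y ϱ → r₀ x = 0) (hs1 : ∀ x, x ∉ Metric.closedBall y ϱ → r₁ x = 0)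
    (hab : KPair (dens m r₀) (dens m r₁) a b) :
    ∫ x, gamma m F a x ∂(dens m r₀) + ∫ x, gamma m F b x ∂(dens m r₁) ≤ κ * W2sqR (dens m r₀) (dens m r₁) := by
  obtain ⟨M₀, h0⟩ := mo_dens_bddDens hS.finite hr0 hn0 hi0 hs0
  obtain ⟨M₁, h1⟩ := mo_dens_bddDens hS.finite hr1 hn1 hi1 hs1
  exact mo_step1_bdd hS hF hGb hGc hH hϱ hτ hG h0 h1 hab hr0 hr1 (mo_rho_dens hS.finite hr0 hn0)
    (mo_rho_dens hS.finite hr1 hn1)

/-- **STEP 1**, in the form consumed by STEP 2 -/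
theorem mo_step1 (hS : Std m K N) (hF : LipB F) (hGb : BoundedFunction G) (hGc : Continuous G)
    (hH : WeakHessianUpperBound m F G) : Approx.mo_Step1 m F G :=
  fun _ _ _ _ _ _ _ _ hϱ hτ hG hr0 hr1 hn0 hn1 hi0 hi1 hs0 hs1 hab =>
    mo_step1_dens hS hF hGb hGc hH hϱ hτ hG hr0 hr1 hn0 hn1 hi0 hi1 hs0 hs1 hab

end Claimed.Agent.R210.MO.Step1
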