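/-
Row 210 (S0432), layer MO (monotonicity): the export (M') assembled from STEP 1 (`MO/Step1.lean`) and STEP 2 (`MO/Approx.lean`).
-/
import Claimed.Agent.R210.MO.Approx
import Claimed.Agent.R210.MO.Step1

set_option autoImplicit false
set_option linter.unusedSectionVars false

open Claims.C0366 Claims.C0366.WeakHessian
open Set Filter MeasureTheory
open scoped ENNReal NNReal Topology

namespace Claimed.Agent.R210.MO.Main

open Claimed.Agent.R210.Defs Claimed.Agent.R210.MO.Approx Claimed.Agent.R210.MO.Step1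

variable {X : Type*} [MetricSpace X] [MeasurableSpace X] [BorelSpace X]
  [CompleteSpace X] [TopologicalSpace.SeparableSpace X] [ProperSpace X]
variable {m μ₀ μ₁ : Measure X} {K N : ℝ} {M₀ M₁ : ℝ≥0} {y : X} {ρ τ κ : ℝ} {F G a b : X → ℝ}

/-- **(M')**, the export of layer MO. -/
theorem mo_main (hS : Std m K N) (hF : LipB F) (hGb : BoundedFunction G) (hGc : Continuous G)
    (hH : WeakHessianUpperBound m F G) (hρ : 0 < ρ) (hτ : 0 < τ)
    (hG : ∀ z ∈ Metric.ball y (2 * ρ + τ), G z ≤ κ) (h₀ : BddDens m μ₀ M₀ y ρ)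
    (h₁ : BddDens m μ₁ M₁ y ρ) (hK : KPair μ₀ μ₁ a b) :
    ∫ x, gamma m F a x ∂μ₀ + ∫ x, gamma m F b x ∂μ₁ ≤ κ * W2sqR μ₀ μ₁ :=
  mo_ap_main hS hF (mo_step1 hS hF hGb hGc hH) hρ hτ hG h₀ h₁ hK

end Claimed.Agent.R210.MO.Main
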