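/-
Row 210 (S0432), layer MO, architect helper686.   WHAT MO TAKES FROM LAYER WR (weighted resolvent).
* `mo_need_wr_step` = WR7 (ONE STEP), owner helper424: NOT a leaf of MO; it carries `sorry` until WR7 is on main, then it becomes a one-liner.
* `mo_need_wr_ok` : LEAF of MO.  Assembly of the structure `mo_JOK` from `WR/Base.lean` (helper898) and `mo_need_wr_step`.
    δ₀ := min (δ₀ of `mo_need_wr_step`) (c₀ * ε) with `c₀` from `wr_reg hS hF`.    Fields:
    memLp `wr_res_memLp`, congr `wr_res_congr` (equality of functions), sub `wr_res_sub`, symm `wr_res_symm`, bdd `wr_res_abs_le`, nonneg `wr_res_nonneg`, sob `wr_res_sobolev`,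
    en `wr_res_en_bound` and en' `wr_res_en_le` (`wr_en m F ε u = ∫ |Du|² e` by `rfl`; pass to `gamma m u u` by `integral_congr_ae` with `gc_gamma_self`),
    gen `wr_res_weak` (`wr_fm m F ε u v = ∫ Γ(u,v) e` by `rfl`; `integral_sub` with `wr_integrable_mul_mul_wt`),
    grad: `wr_reg` gives a Lipschitz representative `η` of `J f` with constant `A * M'`, `M' = Real.toNNReal M` (`Real.le_coe_toNNReal`); `gc_wg_congr` + `gc_wg_le_lip`,
    step: `mo_need_wr_step`.
(FO, GC, OT, CU, HL, GM are imported directly through their Ifc files.)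
-/
import Claimed.Agent.R210.MO.Defs
import Claimed.Agent.R210.GC.Ifc
import Claimed.Agent.R210.WR.Ifc

set_option autoImplicit false
set_option linter.unusedSectionVars false

open Claims.C0366 Claims.C0366.WeakHessian
open Set Filter MeasureTheory
open scoped ENNReal NNReal Topology

namespace Claimed.Agent.R210.MO.Need

open Claimed.Agent.R210.Defs Claimed.Agent.R210.Defs2 Claimed.Agent.R210.GC.Defs Claimed.Agent.R210.MO.Defs
open Claimed.Agent.R210.WR.Base

variable {X : Type*} [MetricSpace X] [MeasurableSpace X] [BorelSpace X]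
  [CompleteSpace X] [TopologicalSpace.SeparableSpace X] [ProperSpace X]
  {m : Measure X} {K N ε : ℝ} {F G : X → ℝ}

/-- **WR7** (ONE STEP), owner helper424. -/
theorem mo_need_wr_step (hS : Std m K N) (hF : LipB F) (hGb : BoundedFunction G) (hGc : Continuous G)
    (hH : WeakHessianUpperBound m F G) (hε0 : 0 < ε) (hε1 : ε ≤ 1) :
    ∃ δ₀ : ℝ, 0 < δ₀ ∧ ∀ δ : ℝ, 0 < δ → δ ≤ δ₀ → ∀ (u h : X → ℝ) (M : ℝ), Sobolev m u → MemLp h 2 m →
      (∀ᵐ x ∂m, 0 ≤ h x) → (∀ᵐ x ∂m, h x ≤ M) →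
      ∫ x, gamma m (resW m F ε δ u) (resW m F ε δ u) x * h x * wt F ε x ∂m
        ≤ ∫ x, gamma m u u x * resW m F ε δ h x * wt F ε x ∂m
          + 2 * δ * ∫ x, (G x - ε * K) * gamma m (resW m F ε δ u) (resW m F ε δ u) x
              * resW m F ε δ h x * wt F ε x ∂m := by
  obtain ⟨c₀, hc₀, hstep⟩ := Claimed.Agent.R210.WR.Step.wr_one_step_small hS hF hGb hGc hH
  refine ⟨c₀ * ε, mul_pos hc₀ hε0, fun δ hδ hδ0 u h M hu hh h0 hM => ?_⟩
  have key := hstep ε δ hε0 hε1 hδ hδ0 u h M hu hh h0 hM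
  have hJ : LocalSobolev m (resW m F ε δ u) := (wr_res_sobolev hS hF hε0 hδ hu.1).2.1
  have e1 := Claimed.Agent.R210.GC.Gam.gc_gamma_self hS.finite hJ
  have e2 := Claimed.Agent.R210.GC.Gam.gc_gamma_self hS.finite hu.2.1
  have c1 : ∫ x, gamma m (resW m F ε δ u) (resW m F ε δ u) x * h x * wt F ε x ∂m =
      ∫ x, weakGradient m (resW m F ε δ u) x ^ 2 * h x * wt F ε x ∂m :=
    integral_congr_ae (by filter_upwards [e1] with x a; rw [a])
  have c2 : ∫ x, gamma m u u x * resW m F ε δ h x * wt F ε x ∂m =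
      ∫ x, weakGradient m u x ^ 2 * resW m F ε δ h x * wt F ε x ∂m :=
    integral_congr_ae (by filter_upwards [e2] with x a; rw [a])
  have c3 : ∫ x, (G x - ε * K) * gamma m (resW m F ε δ u) (resW m F ε δ u) x
        * resW m F ε δ h x * wt F ε x ∂m =
      ∫ x, (G x - ε * K) * weakGradient m (resW m F ε δ u) x ^ 2 * resW m F ε δ h x * wt F ε x ∂m :=
    integral_congr_ae (by filter_upwards [e1] with x a; rw [a])
  rw [c1, c2, c3]
  exact key

/-- WR0-WR4, WR7: for small `δ` the operator `J = resW m F ε δ` has all the properties listed in `mo_JOK`. -/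
theorem mo_need_wr_ok (hS : Std m K N) (hF : LipB F) (hGb : BoundedFunction G) (hGc : Continuous G)
    (hH : WeakHessianUpperBound m F G) (hε0 : 0 < ε) (hε1 : ε ≤ 1) :
    ∃ δ₀ : ℝ, 0 < δ₀ ∧ ∀ δ : ℝ, 0 < δ → δ ≤ δ₀ → mo_JOK m K F G ε δ := by
  obtain ⟨δ₁, hδ₁, hstep⟩ := mo_need_wr_step hS hF hGb hGc hH hε0 hε1
  obtain ⟨c₀, hc₀, C, -, hreg⟩ := wr_reg hS hF
  refine ⟨min δ₁ (c₀ * ε), lt_min hδ₁ (mul_pos hc₀ hε0), ?_⟩
  intro δ hδ hδle
  have hδ1 : δ ≤ δ₁ := hδle.trans (min_le_left _ _)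
  have hδ2 : δ ≤ c₀ * ε := hδle.trans (min_le_right _ _)
  have hR := hreg ε δ hε0 hε1 hδ hδ2
  have hself : ∀ u : X → ℝ, Sobolev m u →
      ∫ x, gamma m u u x * wt F ε x ∂m = wr_en m F ε u := by
    intro u hu
    unfold wr_en
    refine integral_congr_ae ?_
    filter_upwards [Claimed.Agent.R210.GC.Gam.gc_gamma_self hS.finite (wr_sobolev_local hu)] with x hx
    rw [hx]
  refine
  { memLp := fun f _ => wr_res_memLp hF hε0 δ f
    congr := fun f g h => by rw [wr_res_congr hF ε δ h]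
    sub := fun f g hf hg => wr_res_sub hS hF hε0 hδ hf hg
    symm := fun f g hf hg => wr_res_symm hS hF hε0 hδ hf hg
    bdd := fun f M hf h => wr_res_abs_le hS hF hε0 hδ hf h
    nonneg := fun f hf h => wr_res_nonneg hS hF hε0 hδ hf h
    sob := fun f hf => wr_res_sobolev hS hF hε0 hδ hf
    en := fun f hf => by
      rw [hself _ (wr_res_sobolev hS hF hε0 hδ hf)]
      exact wr_res_en_bound hS hF hε0 hδ hf
    en' := fun f hf => by
      rw [hself _ (wr_res_sobolev hS hF hε0 hδ hf.1), hself _ hf]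
      exact wr_res_en_le hS hF hε0 hδ hf
    gen := fun f v hf hv => by
      have hw := wr_res_weak hS hF hε0 hδ hf hv
      have hJ := wr_res_memLp (m := m) hF hε0 δ f
      have i1 := wr_integrable_mul_mul_wt hF hε0 hJ hv.1
      have i2 := wr_integrable_mul_mul_wt hF hε0 hf hv.1
      have e : ∫ x, (resW m F ε δ f x - f x) * v x * wt F ε x ∂m
          = ∫ x, resW m F ε δ f x * v x * wt F ε x ∂m - ∫ x, f x * v x * wt F ε x ∂m := by
        rw [← integral_sub i1 i2]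
        refine integral_congr_ae (Eventually.of_forall fun x => ?_)
        simp only
        ring
      have e2 : wr_fm m F ε (resW m F ε δ f) v
          = ∫ x, gamma m (resW m F ε δ f) v x * wt F ε x ∂m := rfl
      rw [e, ← e2]
      linarith
    grad := fun M => ⟨((Real.toNNReal (C / Real.sqrt (δ * ε)) * Real.toNNReal M : ℝ≥0) : ℝ),
      fun f hf hM => by
        have hM' : ∀ᵐ x ∂m, |f x| ≤ ((Real.toNNReal M : ℝ≥0) : ℝ) := by
          filter_upwards [hM] with x hx using hx.trans (Real.le_coe_toNNReal M)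
        obtain ⟨η, hηL, -, hηeq, -⟩ := hR f (Real.toNNReal M) hf hM'
        rw [← Claimed.Agent.R210.GC.WG.gc_wg_congr hηeq]
        exact Claimed.Agent.R210.GC.WG.gc_wg_le_lip hS.finite hηL⟩
    step := fun u h M hu hh h0 hM => hstep δ hδ hδ1 u h M hu hh h0 hM }

/-- the same as an "eventually" statement -/
theorem mo_need_wr_ev (hS : Std m K N) (hF : LipB F) (hGb : BoundedFunction G) (hGc : Continuous G)
    (hH : WeakHessianUpperBound m F G) (hε0 : 0 < ε) (hε1 : ε ≤ 1) :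
    ∀ᶠ δ in 𝓝[>] (0 : ℝ), 0 < δ ∧ mo_JOK m K F G ε δ := by
  obtain ⟨δ₀, h0, h⟩ := mo_need_wr_ok hS hF hGb hGc hH hε0 hε1
  filter_upwards [Ioc_mem_nhdsGT h0] with δ hδ
  exact ⟨hδ.1, h δ hδ.1 hδ.2⟩

/-- WR3: `J_δ f → f` in `L²` as `δ ↓ 0`. -/
theorem mo_need_wr_lim_L2 (hS : Std m K N) (hF : LipB F) (hε0 : 0 < ε) {f : X → ℝ}
    (hf : MemLp f 2 m) : gc_L2Lim m (𝓝[>] (0 : ℝ)) (fun δ => resW m F ε δ f) f :=
  wr_res_tendsto hS hF hε0 hf

/-- WR3: `J_δ f → f` in `W^{1,2}` as `δ ↓ 0` if `f` is Sobolev. -/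
theorem mo_need_wr_lim_W12 (hS : Std m K N) (hF : LipB F) (hε0 : 0 < ε) {f : X → ℝ}
    (hf : Sobolev m f) : gc_W12Lim m (𝓝[>] (0 : ℝ)) (fun δ => resW m F ε δ f) f :=
  ⟨wr_res_tendsto hS hF hε0 hf.1, wr_res_tendsto_energy hS hF hε0 hf⟩

end Claimed.Agent.R210.MO.Need
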