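/-
Row 210 (S0432), layer MO, architect helper686.   File Wt: the weight `e = wt F ε = exp (F/ε)`, the densities `ρ~_s = mo_rt m F ε π s = ρ_s / e`, and the duality `∫ J f dμ_s = ∫ f (J ρ~_s) e dm`.
-/
import Claimed.Agent.R210.MO.Plan
import Claimed.Agent.R210.MO.Need

set_option autoImplicit false
set_option linter.unusedSectionVars false

open Claims.C0366 Claims.C0366.WeakHessian
open Set Filter MeasureTheory
open scoped ENNReal NNReal Topology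

namespace Claimed.Agent.R210.MO.Wt

open Claimed.Agent.R210.Defs Claimed.Agent.R210.Defs2 Claimed.Agent.R210.GC.Defs Claimed.Agent.R210.MO.Defs
open Claimed.Agent.R210.WR.Base

variable {X : Type*} [MetricSpace X] [MeasurableSpace X] [BorelSpace X]
  [CompleteSpace X] [TopologicalSpace.SeparableSpace X] [ProperSpace X]
  {m μ₀ μ₁ : Measure X} {π : Measure (Curve X)} {C : ℝ≥0} {y : X} {K N κ ϱ τ ε δ : ℝ} {F G u₀ : X → ℝ}

theorem mo_wt_pos (F : X → ℝ) (ε : ℝ) (x : X) : 0 < wt F ε x := Real.exp_pos _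

theorem mo_wt_bounds {B : ℝ} (hB : ∀ x, |F x| ≤ B) (hε : 0 < ε) (x : X) :
    Real.exp (-(B / ε)) ≤ wt F ε x ∧ wt F ε x ≤ Real.exp (B / ε) :=
  ⟨wr_wt_ge hB hε x, wr_wt_le hB hε x⟩

theorem mo_wt_continuous (hF : LipB F) (ε : ℝ) : Continuous (wt F ε) :=
  wr_wt_continuous (wr_lipB_continuous hF) ε

theorem mo_wt_measurable (hF : LipB F) (ε : ℝ) : Measurable (wt F ε) := (mo_wt_continuous hF ε).measurable

theorem mo_wt_lipB (hF : LipB F) (hε : 0 < ε) : LipB (wt F ε) := wr_wt_lipB hF hε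

theorem mo_wt_inv_lipB (hF : LipB F) (hε : 0 < ε) : LipB (fun x => (wt F ε x)⁻¹) := by
  have h := wr_wt_lipB (wr_neg_lipB hF) hε
  have e : wt (fun y => -F y) ε = fun x => (wt F ε x)⁻¹ := funext fun x => wr_wt_neg F ε x
  rwa [e] at h

/-- `e` is essentially bounded -/
theorem mo_wt_aebdd (m : Measure X) (hF : LipB F) (hε : 0 < ε) : ∃ B : ℝ, AEBdd m (wt F ε) B := by
  obtain ⟨B, hB⟩ := hF.2
  refine ⟨Real.exp (B / ε), Eventually.of_forall fun x => ?_⟩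
  rw [abs_of_pos (mo_wt_pos F ε x)]
  exact (mo_wt_bounds hB hε x).2

theorem mo_rt_nonneg (m : Measure X) (F : X → ℝ) (ε : ℝ) (π : Measure (Curve X)) (s : ℝ) (x : X) :
    0 ≤ mo_rt m F ε π s x := div_nonneg (Plan.mo_rho_nonneg m π s x) (mo_wt_pos F ε x).le

theorem mo_rt_mul_wt (m : Measure X) (F : X → ℝ) (ε : ℝ) (π : Measure (Curve X)) (s : ℝ) (x : X) :
    mo_rt m F ε π s x * wt F ε x = mo_rho m π s x := div_mul_cancel₀ _ (mo_wt_pos F ε x).ne'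

theorem mo_rt_le_rho {B : ℝ} (hB : ∀ x, |F x| ≤ B) (hε : 0 < ε) (m : Measure X) (π : Measure (Curve X)) (s : ℝ)
    (x : X) : mo_rt m F ε π s x ≤ Real.exp (B / ε) * mo_rho m π s x := by
  unfold mo_rt
  rw [div_le_iff₀ (mo_wt_pos F ε x)]
  have h1 := (mo_wt_bounds hB hε x).1
  have h2 : 1 ≤ Real.exp (B / ε) * wt F ε x := by
    calc (1 : ℝ) = Real.exp (B / ε) * Real.exp (-(B / ε)) := by rw [← Real.exp_add]; simp
      _ ≤ Real.exp (B / ε) * wt F ε x := mul_le_mul_of_nonneg_left h1 (Real.exp_pos _).le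
  have h3 := Plan.mo_rho_nonneg m π s x
  nlinarith

/-- uniform bound of `ρ~_s` -/
theorem mo_rt_le (hfin : FiniteOnBoundedSets m) (hπ : GeoPlan m μ₀ μ₁ π C) (hF : LipB F) (hε : 0 < ε) :
    ∃ M : ℝ, 0 ≤ M ∧ ∀ s : ℝ, ∀ᵐ x ∂m, mo_rt m F ε π s x ≤ M := by
  obtain ⟨B, hB⟩ := hF.2
  refine ⟨Real.exp (B / ε) * C, by positivity, fun s => ?_⟩
  filter_upwards [Plan.mo_rho_le hfin hπ s] with x hx
  exact (mo_rt_le_rho hB hε m π s x).trans (mul_le_mul_of_nonneg_left hx (Real.exp_pos _).le)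

theorem mo_rt_measurable (hF : LipB F) (m : Measure X) (ε : ℝ) (π : Measure (Curve X)) (s : ℝ) :
    Measurable (mo_rt m F ε π s) := (Plan.mo_rho_measurable m π s).div (mo_wt_measurable hF ε)

theorem mo_rt_memLp (hfin : FiniteOnBoundedSets m) (hπ : GeoPlan m μ₀ μ₁ π C) (hF : LipB F) (hε : 0 < ε) (s : ℝ) :
    MemLp (mo_rt m F ε π s) 2 m := by
  obtain ⟨B, hB⟩ := hF.2
  refine (Plan.mo_rho_memLp hfin hπ s).of_le_mul (c := Real.exp (B / ε))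
    (mo_rt_measurable hF m ε π s).aestronglyMeasurable (Eventually.of_forall fun x => ?_)
  rw [Real.norm_eq_abs, Real.norm_eq_abs, abs_of_nonneg (mo_rt_nonneg m F ε π s x),
    abs_of_nonneg (Plan.mo_rho_nonneg m π s x)]
  exact mo_rt_le_rho hB hε m π s x

/-- `∫ f dμ_s = ∫ f ρ~_s e dm` -/
theorem mo_int_rt (hfin : FiniteOnBoundedSets m) (hπ : GeoPlan m μ₀ μ₁ π C) (f : X → ℝ) (s : ℝ) :
    ∫ x, f x ∂(mo_mu π s) = ∫ x, f x * mo_rt m F ε π s x * wt F ε x ∂m := by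
  rw [Plan.mo_integral_rho hfin hπ f s]
  refine integral_congr_ae (Eventually.of_forall fun x => ?_)
  simp only [mul_assoc, mo_rt_mul_wt]

/-- `∫ J f dμ_s = ∫ f (J ρ~_s) e dm` -/
theorem mo_int_J (hfin : FiniteOnBoundedSets m) (hπ : GeoPlan m μ₀ μ₁ π C) (hF : LipB F) (hε : 0 < ε)
    (hJ : mo_JOK m K F G ε δ) {f : X → ℝ} (hf : MemLp f 2 m) (s : ℝ) :
    ∫ x, resW m F ε δ f x ∂(mo_mu π s)
      = ∫ x, f x * resW m F ε δ (mo_rt m F ε π s) x * wt F ε x ∂m := by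
  rw [mo_int_rt (F := F) (ε := ε) hfin hπ _ s]
  exact hJ.symm f _ hf (mo_rt_memLp hfin hπ hF hε s)

/-- bounds of `J ρ~_s` -/
theorem mo_Jrt_bounds (hfin : FiniteOnBoundedSets m) (hπ : GeoPlan m μ₀ μ₁ π C) (hF : LipB F) (hε : 0 < ε) :
    ∃ M : ℝ, 0 ≤ M ∧ ∀ δ : ℝ, mo_JOK m K F G ε δ → ∀ s : ℝ,
      ∀ᵐ x ∂m, 0 ≤ resW m F ε δ (mo_rt m F ε π s) x ∧ resW m F ε δ (mo_rt m F ε π s) x ≤ M := by
  obtain ⟨M, hM0, hM⟩ := mo_rt_le (F := F) (ε := ε) hfin hπ hF hε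
  refine ⟨M, hM0, fun δ hJ s => ?_⟩
  have hL := mo_rt_memLp hfin hπ hF hε s
  have h1 := hJ.nonneg _ hL (Eventually.of_forall fun x => mo_rt_nonneg m F ε π s x)
  have h2 := hJ.bdd _ M hL (by
    filter_upwards [hM s] with x hx
    rwa [abs_of_nonneg (mo_rt_nonneg m F ε π s x)])
  filter_upwards [h1, h2] with x hx1 hx2
  exact ⟨hx1, (le_abs_self _).trans hx2⟩

end Claimed.Agent.R210.MO.Wt
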