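/-
Row 210 (S0432), layer MO, architect helper686.   File S12: (S1) continuity of `Θ_δ` and (S2) its upper right slopes, at EVERY s ∈ (0,1).
  J = resW m F ε δ, hJ : mo_JOK m K F G ε δ (fields memLp congr sub symm bdd nonneg sob en en' gen grad step), u_s = hopfLax s u₀, e = wt F ε, ρ~_s = mo_rt m F ε π s.   hfin := h.std.finite, hπ := h.plan, htr := h.track (R = 2ϱ).
SKETCHES.
* `mo_Th_cont`:  Θ(s') - Θ(s) = ∫ (J u_{s'} - J u_s) dμ_{s'} + [∫ J u_s dμ_{s'} - ∫ J u_s dμ_s].    |J u_{s'} - J u_s| = |J(u_{s'} - u_s)| ≤ 2 L² |s' - s| a.e. (`hJ.sub`, `hJ.bdd`, `hl1_time`), so the first term is ≤ 2L²|s'-s| (μ_{s'} probability, `Plan.mo_ae_mu`, `norm_integral_le_of_norm_le_const`).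
     Second term → 0: `Speed.mo_cont` with ψ = J u_s (`hJ.memLp`, `Plan.mo_integrableOn_of_memLp`).    Integrability w.r.t. μ_s: `Plan.mo_integrable_mu_of_memLp`.
* `mo_termI`:  ∫ J u_{s+t} dμ_{s+t} - ∫ J u_s dμ_{s+t} = ∫ (u_{s+t} - u_s) (J ρ~_{s+t}) e dm  (`Wt.mo_int_J` twice, `integral_sub`)  ≤ -(t s/(s+t)) (1/2) ∫ Γ(u_s) (J ρ~_{s+t}) e dm   (`HJ.mo_u_hj`, J ρ~ ≥ 0 by `hJ.nonneg`, e > 0)
     = -(t s/(s+t)) (1/2) ∫ J(Γ(u_s)) dμ_{s+t}  (`Wt.mo_int_J` with f = Γ(u_s) ∈ L²: `HJ.mo_u_gamma_memLp`).    As t ↓ 0: ∫ J(Γ(u_s)) dμ_{s+t} → ∫ J(Γ(u_s)) dμ_s = ∫ Γ(u_s)(J ρ~_s) e dm (`Speed.mo_cont_right`), s/(s+t) → 1.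
* `mo_termII`:  `Speed.mo_slope` with f = J u_s (`(hJ.sob _ _).2.1 : LocalSobolev`), lam = 1, and ∫ |D J u_s|² dμ_s = ∫ Γ(J u_s) ρ~_s e dm (`gc_gamma_self` + `Plan.mo_ae_mu`, `Wt.mo_int_rt`).
* `mo_Th_slope`:  add `mo_termI` (η/2), `mo_termII` (η/2) and `hJ.step u_s ρ~_s M` (`Wt.mo_rt_le`, `Wt.mo_rt_memLp`, `Wt.mo_rt_nonneg`); the two integrals ∫ Γ(u_s)(Jρ~_s)e cancel; the last integral of `step` is `mo_be … s` by definition.
-/
import Claimed.Agent.R210.MO.Speed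
import Claimed.Agent.R210.MO.HJ
import Claimed.Agent.R210.MO.Wt

set_option autoImplicit false
set_option linter.unusedSectionVars false

open Claims.C0366 Claims.C0366.WeakHessian
open Set Filter MeasureTheory
open scoped ENNReal NNReal Topology

namespace Claimed.Agent.R210.MO.S12

open Claimed.Agent.R210.Defs Claimed.Agent.R210.Defs2 Claimed.Agent.R210.GC.Defs Claimed.Agent.R210.MO.Defs

variable {X : Type*} [MetricSpace X] [MeasurableSpace X] [BorelSpace X]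
  [CompleteSpace X] [TopologicalSpace.SeparableSpace X] [ProperSpace X]
  {m μ₀ μ₁ : Measure X} {π : Measure (Curve X)} {C : ℝ≥0} {y : X} {K N κ ϱ τ ε δ : ℝ} {F G u₀ : X → ℝ}

/-- **(S1)** -/
theorem mo_Th_cont (h : mo_Ctx m K N F G κ y ϱ τ μ₀ μ₁ π C u₀) (hε : 0 < ε) (hJ : mo_JOK m K F G ε δ) :
    ContinuousOn (mo_Th m F ε δ π u₀) (Icc (0 : ℝ) 1) := by
  have hfin := h.std.finite
  have hπ := h.plan
  have htr := h.track
  obtain ⟨L, hL⟩ := h.u_lipC.1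
  have hmem : ∀ s, MemLp (hopfLax s u₀) 2 m := fun s => HJ.mo_u_memLp hfin h.u_lipC s
  have key : ∀ s s' : ℝ, ‖mo_Th m F ε δ π u₀ s' - ∫ x, resW m F ε δ (hopfLax s u₀) x ∂(mo_mu π s')‖
      ≤ 2 * (L : ℝ) ^ 2 * |s' - s| := by
    intro s s'
    have hprob := Plan.mo_mu_prob hπ s'
    unfold mo_Th
    rw [← integral_sub (Plan.mo_integrable_mu_of_memLp hfin hπ (hJ.memLp _ (hmem s')) s')
      (Plan.mo_integrable_mu_of_memLp hfin hπ (hJ.memLp _ (hmem s)) s')]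
    have hb : ∀ᵐ x ∂m, ‖resW m F ε δ (hopfLax s' u₀) x - resW m F ε δ (hopfLax s u₀) x‖
        ≤ 2 * (L : ℝ) ^ 2 * |s' - s| := by
      have h1 := hJ.sub _ _ (hmem s') (hmem s)
      have h2 := hJ.bdd (fun x => hopfLax s' u₀ x - hopfLax s u₀ x) (2 * (L : ℝ) ^ 2 * |s' - s|)
        ((hmem s').sub (hmem s))
        (Eventually.of_forall fun x => Claimed.Agent.R210.HL.Ifc.hl1_time hL s' s x)
      filter_upwards [h1, h2] with x hx1 hx2
      rw [← hx1]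
      exact hx2
    have h3 := norm_integral_le_of_norm_le_const (μ := mo_mu π s') (Plan.mo_ae_mu hπ hb s')
    simpa using h3
  intro s hs
  have hΦ := (Speed.mo_cont hfin hπ htr
    (Plan.mo_integrableOn_of_memLp hfin (hJ.memLp _ (hmem s)) y (2 * ϱ))) s hs
  have hd : Tendsto (fun s' => mo_Th m F ε δ π u₀ s'
      - ∫ x, resW m F ε δ (hopfLax s u₀) x ∂(mo_mu π s')) (𝓝[Icc (0 : ℝ) 1] s) (𝓝 0) := by
    refine squeeze_zero_norm (fun s' => key s s') ?_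
    have h4 : Tendsto (fun s' : ℝ => 2 * (L : ℝ) ^ 2 * |s' - s|) (𝓝 s)
        (𝓝 (2 * (L : ℝ) ^ 2 * |s - s|)) :=
      (continuous_const.mul ((continuous_id.sub continuous_const).abs)).tendsto s
    rw [sub_self, abs_zero, mul_zero] at h4
    exact h4.mono_left nhdsWithin_le_nhds
  have h5 := hd.add hΦ.tendsto
  simp only [sub_add_cancel, zero_add] at h5
  exact h5

theorem mo_aux_termI_integrable (hF : LipB F) (hε : 0 < ε) {f g : X → ℝ} (hf : MemLp f 2 m)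
    (hg : MemLp g 2 m) : Integrable (fun x => f x * g x * wt F ε x) m := by
  obtain ⟨B, hB⟩ := Wt.mo_wt_aebdd m hF hε
  exact (hf.integrable_mul hg).mul_bdd (c := B) (Wt.mo_wt_measurable hF ε).aestronglyMeasurable hB

theorem mo_termI (h : mo_Ctx m K N F G κ y ϱ τ μ₀ μ₁ π C u₀) (hε : 0 < ε) (hJ : mo_JOK m K F G ε δ)
    {s : ℝ} (hs : s ∈ Ioo (0 : ℝ) 1) {η : ℝ} (hη : 0 < η) :
    ∀ᶠ t in 𝓝[>] (0 : ℝ),
      ∫ x, resW m F ε δ (hopfLax (s + t) u₀) x ∂(mo_mu π (s + t))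
          - ∫ x, resW m F ε δ (hopfLax s u₀) x ∂(mo_mu π (s + t))
        ≤ t * (-(1 / 2) * ∫ x, gamma m (hopfLax s u₀) (hopfLax s u₀) x
            * resW m F ε δ (mo_rt m F ε π s) x * wt F ε x ∂m + η) := by
  have hfin := h.std.finite
  have hπ := h.plan
  have htr := h.track
  have hF := h.F_lipB
  have hu := h.u_lipC
  have hΓ2 : MemLp (gamma m (hopfLax s u₀) (hopfLax s u₀)) 2 m := HJ.mo_u_gamma_memLp hfin hu s
  have hlim : Tendsto
      (fun t => ∫ x, resW m F ε δ (gamma m (hopfLax s u₀) (hopfLax s u₀)) x ∂(mo_mu π (s + t)))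
      (𝓝[>] (0 : ℝ)) (𝓝 (∫ x, gamma m (hopfLax s u₀) (hopfLax s u₀) x
            * resW m F ε δ (mo_rt m F ε π s) x * wt F ε x ∂m)) := by
    have h1 := Speed.mo_cont_right hfin hπ htr
      (Plan.mo_integrableOn_of_memLp hfin (hJ.memLp _ hΓ2) y (2 * ϱ)) (s := s) ⟨hs.1.le, hs.2⟩
    rwa [Wt.mo_int_J hfin hπ hF hε hJ hΓ2 s] at h1
  have hlim1 : Tendsto (fun t : ℝ => -(s / (s + t)) * (1 / 2)) (𝓝[>] (0 : ℝ)) (𝓝 (-(1 / 2))) := by
    have hc : ContinuousAt (fun t : ℝ => -(s / (s + t)) * (1 / 2)) 0 := by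
      have h0 : s + 0 ≠ 0 := by simpa using hs.1.ne'
      exact ((continuousAt_const.div (continuousAt_const.add continuousAt_id) h0).neg).mul
        continuousAt_const
    have h2 := hc.tendsto
    have e : -(s / (s + 0)) * (1 / 2) = -(1 / 2) := by
      rw [add_zero, div_self hs.1.ne']
      ring
    rw [e] at h2
    exact h2.mono_left nhdsWithin_le_nhds
  have hlim2 := hlim1.mul hlim
  have hev := hlim2.eventually (Iio_mem_nhds (show -(1 / 2) * (∫ x, gamma m (hopfLax s u₀) (hopfLax s u₀) x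
            * resW m F ε δ (mo_rt m F ε π s) x * wt F ε x ∂m) < -(1 / 2) * (∫ x, gamma m (hopfLax s u₀) (hopfLax s u₀) x
            * resW m F ε δ (mo_rt m F ε π s) x * wt F ε x ∂m) + η by linarith))
  filter_upwards [hev, self_mem_nhdsWithin] with t ht1 ht0
  have ht0' : 0 < t := ht0
  have ht1' : -(s / (s + t)) * (1 / 2) *
      ∫ x, resW m F ε δ (gamma m (hopfLax s u₀) (hopfLax s u₀)) x ∂(mo_mu π (s + t)) <
      -(1 / 2) * (∫ x, gamma m (hopfLax s u₀) (hopfLax s u₀) x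
            * resW m F ε δ (mo_rt m F ε π s) x * wt F ε x ∂m) + η := ht1
  have hu1 := HJ.mo_u_memLp hfin hu (s + t)
  have hu0 := HJ.mo_u_memLp hfin hu s
  have hr : MemLp (mo_rt m F ε π (s + t)) 2 m := Wt.mo_rt_memLp hfin hπ hF hε (s + t)
  have hJr := hJ.memLp _ hr
  have e1 := Wt.mo_int_J hfin hπ hF hε hJ hu1 (s + t)
  have e0 := Wt.mo_int_J hfin hπ hF hε hJ hu0 (s + t)
  have eΓ := Wt.mo_int_J hfin hπ hF hε hJ hΓ2 (s + t)
  have hJnn := hJ.nonneg _ hr (Eventually.of_forall fun x => Wt.mo_rt_nonneg m F ε π (s + t) x)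
  have i1 := mo_aux_termI_integrable hF hε hu1 hJr
  have i0 := mo_aux_termI_integrable hF hε hu0 hJr
  have iΓ := mo_aux_termI_integrable hF hε hΓ2 hJr
  rw [e1, e0, ← integral_sub i1 i0]
  have hmono : ∫ x, (hopfLax (s + t) u₀ x * resW m F ε δ (mo_rt m F ε π (s + t)) x * wt F ε x
        - hopfLax s u₀ x * resW m F ε δ (mo_rt m F ε π (s + t)) x * wt F ε x) ∂m
      ≤ ∫ x, (-(t * s / (s + t)) * (1 / 2)) * (gamma m (hopfLax s u₀) (hopfLax s u₀) x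
          * resW m F ε δ (mo_rt m F ε π (s + t)) x * wt F ε x) ∂m := by
    refine integral_mono_ae (i1.sub i0) (iΓ.const_mul _) ?_
    filter_upwards [HJ.mo_u_hj hfin hu hs.1 ht0', hJnn] with x hx1 hx2
    have he := Wt.mo_wt_pos F ε x
    have h3 : 0 ≤ resW m F ε δ (mo_rt m F ε π (s + t)) x * wt F ε x := mul_nonneg hx2 he.le
    have h4 := mul_le_mul_of_nonneg_right hx1 h3
    nlinarith [h4]
  rw [integral_const_mul, ← eΓ] at hmono
  refine hmono.trans ?_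
  have e2 : -(t * s / (s + t)) * (1 / 2) *
      ∫ x, resW m F ε δ (gamma m (hopfLax s u₀) (hopfLax s u₀)) x ∂(mo_mu π (s + t)) =
      t * (-(s / (s + t)) * (1 / 2) *
      ∫ x, resW m F ε δ (gamma m (hopfLax s u₀) (hopfLax s u₀)) x ∂(mo_mu π (s + t))) := by ring
  rw [e2]
  exact mul_le_mul_of_nonneg_left ht1'.le ht0'.le

theorem mo_termII (h : mo_Ctx m K N F G κ y ϱ τ μ₀ μ₁ π C u₀) (hε : 0 < ε) (hJ : mo_JOK m K F G ε δ)
    {s : ℝ} (hs : s ∈ Ioo (0 : ℝ) 1) {η : ℝ} (hη : 0 < η) :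
    ∀ᶠ t in 𝓝[>] (0 : ℝ),
      ∫ x, resW m F ε δ (hopfLax s u₀) x ∂(mo_mu π (s + t))
          - ∫ x, resW m F ε δ (hopfLax s u₀) x ∂(mo_mu π s)
        ≤ t * (1 / 2 * ∫ x, gamma m (resW m F ε δ (hopfLax s u₀)) (resW m F ε δ (hopfLax s u₀)) x
            * mo_rt m F ε π s x * wt F ε x ∂m + W2sqR μ₀ μ₁ / 2 + η) := by
  have hfin := h.std.finite
  have hπ := h.plan
  have htr := h.track
  have hls : LocalSobolev m (resW m F ε δ (hopfLax s u₀)) :=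
    (hJ.sob _ (HJ.mo_u_memLp hfin h.u_lipC s)).2.1
  have e1 : ∫ x, weakGradient m (resW m F ε δ (hopfLax s u₀)) x ^ 2 ∂(mo_mu π s)
      = ∫ x, gamma m (resW m F ε δ (hopfLax s u₀)) (resW m F ε δ (hopfLax s u₀)) x
          * mo_rt m F ε π s x * wt F ε x ∂m := by
    rw [← Wt.mo_int_rt hfin hπ
      (fun x => gamma m (resW m F ε δ (hopfLax s u₀)) (resW m F ε δ (hopfLax s u₀)) x) s]
    refine integral_congr_ae ?_
    filter_upwards [Plan.mo_ae_mu hπ (Claimed.Agent.R210.GC.Gam.gc_gamma_self hfin hls) s] with x hx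
    exact hx.symm
  filter_upwards [Speed.mo_slope hfin hπ htr hls ⟨hs.1.le, hs.2⟩ one_pos hη] with t ht
  rw [e1, mul_one] at ht
  exact ht

/-- **(S2)** -/
theorem mo_Th_slope (h : mo_Ctx m K N F G κ y ϱ τ μ₀ μ₁ π C u₀) (hε : 0 < ε) (hJ : mo_JOK m K F G ε δ)
    {s : ℝ} (hs : s ∈ Ioo (0 : ℝ) 1) {η : ℝ} (hη : 0 < η) :
    ∀ᶠ t in 𝓝[>] (0 : ℝ), mo_Th m F ε δ π u₀ (s + t) - mo_Th m F ε δ π u₀ s
      ≤ t * (W2sqR μ₀ μ₁ / 2 + δ * mo_be m K F G ε δ π u₀ s + η) := by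
  have hfin := h.std.finite
  obtain ⟨M, hM0, hM⟩ := Wt.mo_rt_le (F := F) (ε := ε) hfin h.plan h.F_lipB hε
  have hstep := hJ.step (hopfLax s u₀) (mo_rt m F ε π s) M (HJ.mo_u_sob hfin h.u_lipC s)
    (Wt.mo_rt_memLp hfin h.plan h.F_lipB hε s)
    (Eventually.of_forall fun x => Wt.mo_rt_nonneg m F ε π s x) (hM s)
  filter_upwards [mo_termI h hε hJ hs (half_pos hη), mo_termII h hε hJ hs (half_pos hη),
    self_mem_nhdsWithin] with t h1 h2 ht
  have ht0 : 0 < t := ht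
  unfold mo_Th mo_be
  have h3 := mul_le_mul_of_nonneg_left hstep ht0.le
  nlinarith

end Claimed.Agent.R210.MO.S12
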